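import Vale.Agent.P150.Defs

/-!
Ising models with an arbitrary symmetric coupling matrix and external field: the definitions shared
by the high-temperature analysis of the SK dynamics.
-/

open Finset

namespace Vale.Agent.P150.Gap

variable {n : ℕ}

/-- `½ Σ_{ij} J_ij x_i x_j + Σ_i h_i x_i`. -/
noncomputable def expo (J : Fin n → Fin n → ℝ) (h : Fin n → ℝ) (x : Conf n) : ℝ :=
  (∑ i, ∑ j, J i j * spin x i * spin x j) / 2 + ∑ i, h i * spin x i

/-- Unnormalised Ising weight. -/
noncomputable def wt (J : Fin n → Fin n → ℝ) (h : Fin n → ℝ) (x : Conf n) : ℝ :=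
  Real.exp (expo J h x)

/-- The Ising measure with couplings `J` and field `h`. -/
noncomputable def mu (J : Fin n → Fin n → ℝ) (h : Fin n → ℝ) (x : Conf n) : ℝ :=
  wt J h x / ∑ y, wt J h y

/-- Expectation under the Ising measure. -/
noncomputable def ev (J : Fin n → Fin n → ℝ) (h : Fin n → ℝ) (f : Conf n → ℝ) : ℝ :=
  ∑ x, mu J h x * f x

/-- Conditional expectation given all spins but the one at `i`. -/
noncomputable def cond (J : Fin n → Fin n → ℝ) (h : Fin n → ℝ) (i : Fin n) (f : Conf n → ℝ)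
    (x : Conf n) : ℝ :=
  (mu J h x * f x + mu J h (flipAt i x) * f (flipAt i x)) / (mu J h x + mu J h (flipAt i x))

/-- Heat-bath Dirichlet form `E[f (H f)]`, `H = Σ_i (1 - Q_i)`. -/
noncomputable def dir (J : Fin n → Fin n → ℝ) (h : Fin n → ℝ) (f : Conf n → ℝ) : ℝ :=
  ev J h fun x => f x * ∑ i, (f x - cond J h i f x)

/-- Variance. -/
noncomputable def var (J : Fin n → Fin n → ℝ) (h : Fin n → ℝ) (f : Conf n → ℝ) : ℝ :=
  ev J h (fun x => f x ^ 2) - ev J h f ^ 2

/-- Entropy `E[f log f] - E f log E f`. -/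
noncomputable def ent (J : Fin n → Fin n → ℝ) (h : Fin n → ℝ) (f : Conf n → ℝ) : ℝ :=
  ev J h (fun x => f x * Real.log (f x)) - ev J h f * Real.log (ev J h f)

/-- Entropy of `f` in the conditional law at site `i`, as a function of the configuration. -/
noncomputable def entAt (J : Fin n → Fin n → ℝ) (h : Fin n → ℝ) (i : Fin n) (f : Conf n → ℝ)
    (x : Conf n) : ℝ :=
  cond J h i (fun y => f y * Real.log (f y)) x -
    cond J h i f x * Real.log (cond J h i f x)

/-- Approximate tensorisation of entropy with constant `K`. -/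
def EntTensor (J : Fin n → Fin n → ℝ) (h : Fin n → ℝ) (K : ℝ) : Prop :=
  ∀ f : Conf n → ℝ, (∀ x, 0 < f x) → ent J h f ≤ K * ∑ i, ev J h (entAt J h i f)

/-- Symmetric with zero diagonal. -/
structure IsCoupling (J : Fin n → Fin n → ℝ) : Prop where
  symm : ∀ i j, J i j = J j i
  diag : ∀ i, J i i = 0

/-- The quadratic form of `J` is at most `c` times the squared Euclidean norm. -/
def QuadLe (J : Fin n → Fin n → ℝ) (c : ℝ) : Prop :=
  ∀ v : Fin n → ℝ, ∑ i, ∑ j, J i j * v i * v j ≤ c * ∑ i, v i ^ 2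

/-- Every linear statistic has variance at most `C |v|²`, in every field. -/
def CovLe (J : Fin n → Fin n → ℝ) (C : ℝ) : Prop :=
  ∀ h v : Fin n → ℝ, var J h (fun x => ∑ i, v i * spin x i) ≤ C * ∑ i, v i ^ 2

/-- The symmetric matrix of the disorder, with zero diagonal. -/
noncomputable def sym (g : Edge n → ℝ) (i j : Fin n) : ℝ :=
  if h : i < j then g ⟨(i, j), h⟩ else if h' : j < i then g ⟨(j, i), h'⟩ else 0

/-- SK couplings at inverse temperature `β`. -/
noncomputable def skJ (β : ℝ) (g : Edge n → ℝ) (i j : Fin n) : ℝ :=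
  β / Real.sqrt n * sym g i j

end Vale.Agent.P150.Gap
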