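import Vale.Agent.P150.Gap.SudakovFernique
import Vale.Agent.P150.Gap.Model

/-!
The top eigenvalue of the symmetric Gaussian matrix with zero diagonal is at most
`(2 + ε) √n`, and every row has squared norm at most `(1 + ε) n`, with high probability.
-/

open MeasureTheory ProbabilityTheory Real Filter
open scoped Topology ENNReal

namespace Vale.Agent.P150.Gap

variable {n : ℕ}

lemma sym_of_lt (g : Edge n → ℝ) {i j : Fin n} (h : i < j) : sym g i j = g ⟨(i, j), h⟩ := by
  simp [sym, h]

lemma sym_comm (g : Edge n → ℝ) (i j : Fin n) : sym g i j = sym g j i := by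
  unfold sym
  rcases lt_trichotomy i j with h | h | h
  · simp [h, h.not_gt]
  · subst h; rfl
  · simp [h, h.not_gt]

lemma sym_self (g : Edge n → ℝ) (i : Fin n) : sym g i i = 0 := by simp [sym]

lemma sym_neg (g : Edge n → ℝ) (i j : Fin n) : sym (fun e => -g e) i j = -sym g i j := by
  unfold sym
  split_ifs <;> simp

lemma sum_sym_eq {f : Fin n → Fin n → ℝ} (hf : ∀ i j, f i j = f j i) :
    ∑ i, ∑ j, f i j = 2 * ∑ e : Edge n, f e.1.1 e.1.2 + ∑ i, f i i := by
  classical
  rw [← Finset.sum_subtype (Finset.univ.filter fun p : Fin n × Fin n => p.1 < p.2) (by simp)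
    fun p => f p.1 p.2, two_mul]
  have hswap : ∑ p ∈ Finset.univ.filter (fun p : Fin n × Fin n => p.2 < p.1), f p.1 p.2
      = ∑ p ∈ Finset.univ.filter (fun p : Fin n × Fin n => p.1 < p.2), f p.1 p.2 :=
    Finset.sum_equiv (Equiv.prodComm _ _) (by simp) fun p _ => hf _ _
  nth_rewrite 2 [← hswap]
  have hd : ∑ i, f i i
      = ∑ p ∈ Finset.univ.filter (fun p : Fin n × Fin n => p.1 = p.2), f p.1 p.2 := by
    rw [Finset.sum_filter, Fintype.sum_prod_type]
    simp
  rw [hd, Finset.sum_filter, Finset.sum_filter, Finset.sum_filter, ← Finset.sum_add_distrib,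
    ← Finset.sum_add_distrib, Fintype.sum_prod_type]
  refine Finset.sum_congr rfl fun i _ => Finset.sum_congr rfl fun j _ => ?_
  rcases lt_trichotomy i j with h | h | h
  · simp [h, h.not_gt, h.ne]
  · simp [h]
  · simp [h, h.not_gt, h.ne']

lemma quad_eq (g : Edge n → ℝ) (v : Fin n → ℝ) :
    ∑ i, ∑ j, sym g i j * v i * v j = 2 * ∑ e : Edge n, g e * (v e.1.1 * v e.1.2) := by
  rw [sum_sym_eq fun i j => by rw [sym_comm g i j]; ring]
  simp only [sym_self, zero_mul, Finset.sum_const_zero, add_zero]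
  congr 1
  exact Finset.sum_congr rfl fun e _ => by rw [sym_of_lt g e.2, mul_assoc]

/-! Chi-square exponential moments. -/

lemma integrable_exp_sq {a : ℝ} (ha : a < 1 / 2) :
    Integrable (fun t : ℝ => exp (a * t ^ 2)) (gaussianReal 0 1) := by
  rw [gaussianReal_of_var_ne_zero 0 one_ne_zero, integrable_withDensity_iff_integrable_smul'
    (measurable_gaussianPDF 0 1) (ae_of_all _ fun t => gaussianPDF_lt_top)]
  refine ((integrable_exp_neg_mul_sq (by linarith : (0:ℝ) < 1 / 2 - a)).const_mul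
    (√(2 * π))⁻¹).congr (ae_of_all _ fun t => ?_)
  simp only [toReal_gaussianPDF, gaussianPDFReal, NNReal.coe_one, mul_one, sub_zero, smul_eq_mul]
  rw [mul_assoc, ← exp_add]
  ring_nf

lemma integral_exp_sq {a : ℝ} (ha : a < 1 / 2) :
    ∫ t : ℝ, exp (a * t ^ 2) ∂gaussianReal 0 1 = (√(1 - 2 * a))⁻¹ := by
  rw [integral_gaussianReal_eq_integral_smul one_ne_zero]
  simp only [gaussianPDFReal, NNReal.coe_one, mul_one, sub_zero, smul_eq_mul]
  have e : ∀ t : ℝ, (√(2 * π))⁻¹ * exp (-t ^ 2 / 2) * exp (a * t ^ 2)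
      = (√(2 * π))⁻¹ * exp (-(1 / 2 - a) * t ^ 2) := fun t => by
    rw [mul_assoc, ← exp_add]; ring_nf
  simp only [e]
  rw [integral_const_mul, integral_gaussian, ← sqrt_inv, ← sqrt_inv, ← sqrt_mul (by positivity)]
  congr 1
  have : 1 - 2 * a ≠ 0 := by linarith
  have : (1 : ℝ) / 2 - a ≠ 0 := by linarith
  field_simp

/-- The exponent used for the upper tail of a chi-square variable. -/
noncomputable def chiExp (ε : ℝ) : ℝ := ε / (4 * (1 + ε))

/-- The rate of the upper tail of a chi-square variable. -/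
noncomputable def chiRate (ε : ℝ) : ℝ := exp (-(chiExp ε * (1 + ε))) * (√(1 - 2 * chiExp ε))⁻¹

lemma chiExp_pos {ε : ℝ} (hε : 0 < ε) : 0 < chiExp ε := by unfold chiExp; positivity

lemma chiExp_lt {ε : ℝ} (hε : 0 < ε) : chiExp ε < 1 / 4 := by
  rw [chiExp, div_lt_div_iff₀ (by positivity) (by norm_num)]
  linarith

lemma chiRate_nonneg (ε : ℝ) : 0 ≤ chiRate ε := by unfold chiRate; positivity

lemma chiRate_lt_one {ε : ℝ} (hε : 0 < ε) : chiRate ε < 1 := by
  set a := chiExp ε with ha
  have h0 := chiExp_pos hε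
  have h4 := chiExp_lt hε
  have hd : 0 < 1 - 2 * a := by linarith
  have h1 : (√(1 - 2 * a))⁻¹ ≤ exp (a / (1 - 2 * a)) := by
    rw [← sqrt_inv, sqrt_le_iff]
    refine ⟨(exp_pos _).le, ?_⟩
    rw [← exp_nat_mul]
    refine le_trans (le_of_eq ?_) (add_one_le_exp _)
    push_cast
    field_simp
    ring
  refine lt_of_le_of_lt (mul_le_mul_of_nonneg_left h1 (exp_pos _).le) ?_
  rw [← exp_add, exp_lt_one_iff, neg_add_lt_iff_lt_add, add_zero, div_lt_iff₀ hd]
  have e : a * (4 * (1 + ε)) = ε := div_mul_cancel₀ ε (by positivity)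
  nlinarith [mul_pos h0 hε]

lemma chi_mgf {ι : Type*} [Fintype ι] {ε : ℝ} (hε : 0 < ε) (F : Finset ι) (m : ℕ)
    (hm : F.card ≤ m) :
    Integrable (fun g : ι → ℝ => exp (chiExp ε * (∑ i ∈ F, g i ^ 2 - (1 + ε) * m))) (gauss ι) ∧
      ∫ g, exp (chiExp ε * (∑ i ∈ F, g i ^ 2 - (1 + ε) * m)) ∂gauss ι ≤ chiRate ε ^ m := by
  classical
  set a := chiExp ε with ha
  set c : ι → ℝ := fun i => if i ∈ F then a else 0 with hc
  have h4 := chiExp_lt hε
  have hc2 : ∀ i, c i < 1 / 2 := fun i => by simp only [hc]; split_ifs <;> linarith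
  have e : ∀ g : ι → ℝ, exp (a * (∑ i ∈ F, g i ^ 2 - (1 + ε) * m))
      = exp (-(a * (1 + ε))) ^ m * ∏ i, exp (c i * g i ^ 2) := fun g => by
    rw [← exp_nat_mul, ← exp_sum, ← exp_add]
    simp only [hc, ite_mul, zero_mul, Finset.sum_ite_mem, Finset.univ_inter, ← Finset.mul_sum]
    congr 1
    ring
  simp only [e]
  refine ⟨(Integrable.fintype_prod (f := fun i t => exp (c i * t ^ 2))
    fun i => integrable_exp_sq (hc2 i)).const_mul _, ?_⟩
  rw [integral_const_mul, gauss, integral_fintype_prod_eq_prod (fun i t => exp (c i * t ^ 2)),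
    chiRate, mul_pow]
  refine mul_le_mul_of_nonneg_left ?_ (by positivity)
  simp only [fun i => integral_exp_sq (hc2 i)]
  have h1 : ∀ i, (√(1 - 2 * c i))⁻¹ = if i ∈ F then (√(1 - 2 * a))⁻¹ else 1 := fun i => by
    simp only [hc]; split_ifs <;> simp
  simp only [h1]
  rw [Finset.prod_ite_mem, Finset.univ_inter, Finset.prod_const]
  refine pow_le_pow_right₀ ?_ hm
  have ha0 := chiExp_pos hε
  exact (one_le_inv₀ (sqrt_pos.2 (by linarith))).2 (sqrt_le_one.2 (by linarith))

lemma chi_tail {ι : Type*} [Fintype ι] {ε : ℝ} (hε : 0 < ε) (F : Finset ι) (m : ℕ)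
    (hm : F.card ≤ m) :
    gauss ι {g | (1 + ε) * m < ∑ i ∈ F, g i ^ 2} ≤ ENNReal.ofReal (chiRate ε ^ m) := by
  obtain ⟨hi, hle⟩ := chi_mgf hε F m hm
  refine le_trans (measure_mono ?_) (((mul_meas_ge_le_lintegral₀
    hi.aestronglyMeasurable.aemeasurable.ennreal_ofReal 1).trans' (one_mul _).ge).trans ?_)
  · intro g hg
    simp only [Set.mem_ofPred_eq, ENNReal.one_le_ofReal] at hg ⊢
    exact one_le_exp (mul_nonneg (chiExp_pos hε).le (by linarith))
  · rw [← ofReal_integral_eq_lintegral_ofReal hi (ae_of_all _ fun g => (exp_pos _).le)]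
    exact ENNReal.ofReal_le_ofReal hle

/-- **Rows**: with high probability every row has squared norm at most `(1 + ε) n`. -/
theorem tendsto_row_sq {ε : ℝ} (hε : 0 < ε) :
    Tendsto (fun n => disorder n {g | ∃ i, (1 + ε) * n < ∑ j, sym g i j ^ 2}) atTop (𝓝 0) := by
  classical
  have key : ∀ n : ℕ, disorder n {g | ∃ i, (1 + ε) * n < ∑ j, sym g i j ^ 2}
      ≤ ENNReal.ofReal (n * chiRate ε ^ n) := by
    intro n
    rw [disorder_eq, show {g : Edge n → ℝ | ∃ i, (1 + ε) * n < ∑ j, sym g i j ^ 2}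
      = ⋃ i, {g | (1 + ε) * n < ∑ j, sym g i j ^ 2} by ext g; simp]
    refine (measure_iUnion_fintype_le _ _).trans ?_
    have hi : ∀ i : Fin n, gauss (Edge n) {g | (1 + ε) * n < ∑ j, sym g i j ^ 2}
        ≤ ENNReal.ofReal (chiRate ε ^ n) := by
      intro i
      set nb : Finset (Fin n) := Finset.univ.filter (· ≠ i)
      set edge : {j // j ∈ nb} → Edge n := fun j =>
        if h : i < j.1 then ⟨(i, j.1), h⟩
        else ⟨(j.1, i), lt_of_le_of_ne (not_lt.1 h) (Finset.mem_filter.1 j.2).2⟩ with hedge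
      have hinj : Function.Injective edge := fun j k hjk => by
        simp only [hedge] at hjk
        refine Subtype.ext ?_
        have hj := (Finset.mem_filter.1 j.2).2
        have hk := (Finset.mem_filter.1 k.2).2
        split_ifs at hjk <;>
          simp only [Subtype.mk.injEq, Prod.mk.injEq] at hjk <;> grind
      have hrow : ∀ g : Edge n → ℝ, ∑ j, sym g i j ^ 2
          = ∑ e ∈ nb.attach.map ⟨edge, hinj⟩, g e ^ 2 := fun g => by
        rw [Finset.sum_map, ← Finset.sum_subset (Finset.subset_univ nb) fun j _ hj => ?_,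
          ← Finset.sum_attach nb]
        · refine Finset.sum_congr rfl fun j _ => ?_
          have hne := (Finset.mem_filter.1 j.2).2
          simp only [Function.Embedding.coeFn_mk, hedge]
          split_ifs with h
          · rw [sym_of_lt g h]
          · rw [sym_comm, sym_of_lt g (lt_of_le_of_ne (not_lt.1 h) hne)]
        · have : j = i := by simpa [nb] using hj
          simp [this, sym_self]
      simp only [hrow]
      exact chi_tail hε _ n (by simpa using (Finset.card_le_univ nb).trans_eq (Fintype.card_fin n))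
    refine (Finset.sum_le_sum fun i _ => hi i).trans_eq ?_
    rw [Finset.sum_const, Finset.card_univ, Fintype.card_fin, nsmul_eq_mul,
      ENNReal.ofReal_mul (Nat.cast_nonneg n), ENNReal.ofReal_natCast]
  refine tendsto_of_tendsto_of_tendsto_of_le_of_le tendsto_const_nhds ?_ (fun n => bot_le) key
  have := (tendsto_self_mul_const_pow_of_lt_one (chiRate_nonneg ε) (chiRate_lt_one hε))
  simpa using ENNReal.tendsto_ofReal this

/-! The quadratic form. -/

lemma sq_prod_sub_le {x y : Fin n → ℝ} (hx : ∑ i, x i ^ 2 = 1) (hy : ∑ i, y i ^ 2 = 1) :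
    ∑ e : Edge n, (x e.1.1 * x e.1.2 - y e.1.1 * y e.1.2) ^ 2 ≤ ∑ i, (x i - y i) ^ 2 := by
  have h := sum_sym_eq (f := fun i j => (x i * x j - y i * y j) ^ 2) fun i j => by ring
  have hd : 0 ≤ ∑ i, (x i * x i - y i * y i) ^ 2 := Finset.sum_nonneg fun i _ => sq_nonneg _
  have hp : ∑ i, ∑ j, (x i * x j - y i * y j) ^ 2 = 2 - 2 * (∑ i, x i * y i) ^ 2 := by
    have e : ∀ i j, (x i * x j - y i * y j) ^ 2
        = x i ^ 2 * x j ^ 2 + y i ^ 2 * y j ^ 2 - 2 * (x i * y i * (x j * y j)) := fun i j => by ring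
    simp only [e, Finset.sum_sub_distrib, Finset.sum_add_distrib, ← Finset.mul_sum, hx, hy,
      mul_one, ← Finset.sum_mul]
    ring
  have hs : ∑ i, (x i - y i) ^ 2 = 2 - 2 * ∑ i, x i * y i := by
    have e : ∀ i, (x i - y i) ^ 2 = x i ^ 2 + y i ^ 2 - 2 * (x i * y i) := fun i => by ring
    simp only [e, Finset.sum_sub_distrib, Finset.sum_add_distrib, ← Finset.mul_sum, hx, hy]
    ring
  rw [hp] at h
  rw [hs]
  nlinarith [sq_nonneg (∑ i, x i * y i - 1)]

lemma sq_prod_le {x : Fin n → ℝ} (hx : ∑ i, x i ^ 2 = 1) :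
    ∑ e : Edge n, (x e.1.1 * x e.1.2) ^ 2 ≤ ∑ i, x i ^ 2 := by
  have h := sum_sym_eq (f := fun i j => (x i * x j) ^ 2) fun i j => by ring
  have hd : 0 ≤ ∑ i, (x i * x i) ^ 2 := Finset.sum_nonneg fun i _ => sq_nonneg _
  simp only [mul_pow, ← Finset.mul_sum, hx, mul_one] at h hd ⊢
  linarith [Finset.sum_nonneg (s := Finset.univ) fun (e : Edge n) _ =>
    mul_nonneg (sq_nonneg (x e.1.1)) (sq_nonneg (x e.1.2))]

/-- The bound on the excess over finitely many unit vectors, given a function `Φ` dominating every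
linear statistic with exponentially small excess over `σ`. -/
lemma prob_quad_finite_le {a σ T : ℝ} {N : ℕ} (w : Fin N → Fin n → ℝ)
    (hw : ∀ k, ∑ i, w k i ^ 2 = 1) (Φ : (Fin n → ℝ) → ℝ) (hΦ : ∀ g, 0 ≤ Φ g)
    (hlin : ∀ k g, ∑ i, g i * w k i ≤ √(Φ g)) (ha : 0 < a) (hσ : 1 ≤ σ)
    (hEi : Integrable (fun g => exp (a * (Φ g - σ))) (gauss (Fin n)))
    (hEle : ∫ g, exp (a * (Φ g - σ)) ∂gauss (Fin n) ≤ 1) (hT : 1 < T - 2 * √σ) :
    gauss (Edge n) {g | ∃ k, T < 2 * ∑ e : Edge n, g e * (w k e.1.1 * w k e.1.2)}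
      ≤ ENNReal.ofReal ((1 + 2 / a) / (T - 2 * √σ - 1)) := by
  set u := 2 * √σ with hudef
  have hu2 : 2 ≤ u := by
    have := one_le_sqrt.2 hσ
    linarith
  set η := log ((N : ℝ) + 1) + 1 with hηdef
  have hlogN : 0 ≤ log ((N : ℝ) + 1) := log_nonneg (by linarith [(Nat.cast_nonneg N : (0:ℝ) ≤ N)])
  have hη : 1 ≤ η := by linarith
  set K := ⌈exp (η * u)⌉₊ with hKdef
  have hK : exp (η * u) ≤ K := Nat.le_ceil _
  have hK0 : 0 < (K : ℝ) := (exp_pos _).trans_le hK
  have : NeZero K := ⟨by exact_mod_cast hK0.ne'⟩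
  have hlogK : log K ≤ η * u + 1 := by
    have h2 : (K : ℝ) ≤ 2 * exp (η * u) := by
      have := Nat.ceil_lt_add_one (exp_pos (η * u)).le
      have := one_le_exp (show 0 ≤ η * u by positivity)
      linarith
    refine (log_le_log hK0 h2).trans ?_
    rw [log_mul two_ne_zero (exp_pos _).ne', log_exp]
    linarith [log_le_sub_one_of_pos (two_pos : (0:ℝ) < 2)]
  set A : Edge n → Fin N ⊕ Fin K → ℝ := fun e =>
    Sum.elim (fun k => η * 2 * (w k e.1.1 * w k e.1.2)) fun _ => 0 with hA
  set B : Fin n → Fin N ⊕ Fin K → ℝ := fun i =>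
    Sum.elim (fun k => η * 2 * w k i) fun _ => 0 with hB
  have hcomp : ∫ g, lse (wsum A g) ∂gauss (Edge n) ≤ ∫ g, lse (wsum B g) ∂gauss (Fin n) := by
    refine lse_comparison A B fun x y => ?_
    rcases x with k | k <;> rcases y with l | l <;>
      simp only [hA, hB, Sum.elim_inl, Sum.elim_inr, ← mul_sub, sub_zero, zero_sub, neg_sq, mul_pow,
        ← Finset.mul_sum]
    · exact mul_le_mul_of_nonneg_left (sq_prod_sub_le (hw k) (hw l)) (by positivity)
    · have := sq_prod_le (hw k)
      simp only [mul_pow] at this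
      exact mul_le_mul_of_nonneg_left this (by positivity)
    · have := sq_prod_le (hw l)
      simp only [mul_pow] at this
      exact mul_le_mul_of_nonneg_left this (by positivity)
    · simp
  set S := {g : Edge n → ℝ |
    ∃ k, T < 2 * ∑ e : Edge n, g e * (w k e.1.1 * w k e.1.2)} with hS
  have hSm : MeasurableSet S := by
    rw [hS, Set.ofPred_exists]
    exact MeasurableSet.iUnion fun k => measurableSet_lt measurable_const (by fun_prop)
  have hAB : ∀ g k, wsum A g (Sum.inl k) = η * (2 * ∑ e : Edge n, g e * (w k e.1.1 * w k e.1.2)) := by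
    intro g k
    simp only [wsum, hA, Sum.elim_inl, Finset.mul_sum]
    exact Finset.sum_congr rfl fun e _ => by ring
  set c := η * (T - u) - 1 with hc
  have hlow : ∀ g, S.indicator (fun _ => c) g ≤ lse (wsum A g) - log K := by
    intro g
    have hsum : ∑ k, exp (wsum A g k) = ∑ k, exp (wsum A g (Sum.inl k)) + K := by
      simp [Fintype.sum_sum_type, wsum, hA]
    by_cases hg : g ∈ S
    · obtain ⟨k, hk⟩ := hg
      rw [Set.indicator_of_mem (show g ∈ S from ⟨k, hk⟩), hc]
      have h1 : η * T ≤ lse (wsum A g) := by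
        rw [← exp_le_exp, exp_lse, hsum]
        refine le_trans ?_ (le_add_of_nonneg_right hK0.le)
        refine le_trans ?_ (Finset.single_le_sum (f := fun k => exp (wsum A g (Sum.inl k)))
          (fun _ _ => (exp_pos _).le) (Finset.mem_univ k))
        rw [exp_le_exp, hAB]
        exact mul_le_mul_of_nonneg_left hk.le (by linarith)
      linarith
    · rw [Set.indicator_of_notMem hg, sub_nonneg, lse, hsum]
      exact log_le_log hK0 (le_add_of_nonneg_left (Finset.sum_nonneg fun _ _ => (exp_pos _).le))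
  set Ex := fun g : Fin n → ℝ => exp (a * (Φ g - σ)) with hEx
  have hup : ∀ g, lse (wsum B g) - log K ≤ log ((N : ℝ) + 1) + η * (2 / a) * Ex g := by
    intro g
    set Q := Φ g with hQ
    set d := max (2 * √Q - u) 0 with hd
    have hd0 : 0 ≤ d := le_max_right _ _
    have hdle : d ≤ 2 / a * Ex g := by
      refine max_le ?_ (by positivity)
      rcases le_or_gt (2 * √Q) u with h | h
      · linarith [show 0 ≤ 2 / a * Ex g by positivity]
      have hE' : a * (Q - σ) ≤ Ex g := by
        linarith [add_one_le_exp (a * (Q - σ))]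
      have hQ0 : √Q ^ 2 = Q := sq_sqrt (hΦ g)
      have hu4 : u ^ 2 = 4 * σ := by
        rw [hudef, mul_pow, sq_sqrt (by linarith)]; norm_num
      have h3 : 4 * (2 * √Q - u) ≤ (2 * √Q - u) * (2 * √Q + u) := by
        rw [mul_comm 4]
        exact mul_le_mul_of_nonneg_left (by linarith) (by linarith)
      have h5 : 2 * √Q - u ≤ Q - σ := by nlinarith
      have h6 : a * (2 * √Q - u) ≤ Ex g := le_trans (mul_le_mul_of_nonneg_left h5 ha.le) hE'
      rw [div_mul_eq_mul_div, le_div_iff₀ ha]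
      nlinarith [exp_pos (a * (Q - σ))]
    have hk : ∀ k, exp (wsum B g k) ≤ if k.isLeft then K * exp (η * d) else 1 := by
      rintro (k | k)
      · have h1 : wsum B g (Sum.inl k) ≤ η * u + η * d := by
          have h2 : wsum B g (Sum.inl k) = η * 2 * ∑ i, g i * w k i := by
            simp only [wsum, hB, Sum.elim_inl, Finset.mul_sum]
            exact Finset.sum_congr rfl fun i _ => by ring
          have h3 : ∑ i, g i * w k i ≤ √Q := hlin k g
          rw [h2, ← mul_add, mul_assoc]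
          refine mul_le_mul_of_nonneg_left ?_ (by linarith)
          linarith [le_max_left (2 * √Q - u) 0]
        refine (exp_le_exp.2 h1).trans ?_
        rw [exp_add]
        exact mul_le_mul_of_nonneg_right hK (exp_pos _).le
      · simp [wsum, hB]
    have hsum : ∑ k, exp (wsum B g k) ≤ ((N : ℝ) + 1) * (K * exp (η * d)) := by
      refine (Finset.sum_le_sum fun k _ => hk k).trans ?_
      simp [Fintype.sum_sum_type, add_mul]
      exact le_mul_of_one_le_right hK0.le (one_le_exp (mul_nonneg (by linarith) hd0))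
    have h1 := log_le_log (sum_exp_pos _) hsum
    rw [log_mul (by positivity) (by positivity), log_mul hK0.ne' (exp_pos _).ne', log_exp] at h1
    rw [lse]
    have := mul_le_mul_of_nonneg_left hdle (show (0:ℝ) ≤ η by linarith)
    rw [← mul_assoc] at this
    linarith
  have hiA : Integrable (fun g => lse (wsum A g) - log K) (gauss (Edge n)) :=
    (integrable_lse (B := ∑ e, ∑ k, |A e k|) fun e k =>
      (Finset.single_le_sum (f := fun k => |A e k|) (fun _ _ => abs_nonneg _)
        (Finset.mem_univ k)).trans (Finset.single_le_sum (f := fun e => ∑ k, |A e k|)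
          (fun _ _ => Finset.sum_nonneg fun _ _ => abs_nonneg _) (Finset.mem_univ e))).sub
      (integrable_const _)
  have hiB : Integrable (fun g => lse (wsum B g)) (gauss (Fin n)) :=
    integrable_lse (B := ∑ e, ∑ k, |B e k|) fun e k =>
      (Finset.single_le_sum (f := fun k => |B e k|) (fun _ _ => abs_nonneg _)
        (Finset.mem_univ k)).trans (Finset.single_le_sum (f := fun e => ∑ k, |B e k|)
          (fun _ _ => Finset.sum_nonneg fun _ _ => abs_nonneg _) (Finset.mem_univ e))
  have hmain : c * (gauss (Edge n)).real S ≤ η * (1 + 2 / a) := by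
    have h1 : c * (gauss (Edge n)).real S ≤ ∫ g, (lse (wsum A g) - log K) ∂gauss (Edge n) := by
      have := integral_mono ((integrable_const c).indicator hSm) hiA hlow
      rwa [integral_indicator_const c hSm, smul_eq_mul, mul_comm] at this
    have h2 : ∫ g, (lse (wsum B g) - log K) ∂gauss (Fin n) ≤ log ((N : ℝ) + 1) + η * (2 / a) := by
      refine (integral_mono (hiB.sub (integrable_const _))
        ((integrable_const _).add (hEi.const_mul _)) hup).trans ?_
      rw [integral_add' (integrable_const _) (hEi.const_mul _), integral_const_mul,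
        integral_const, probReal_univ, one_smul]
      have h3 : ∫ g, Ex g ∂gauss (Fin n) ≤ 1 := hEle
      linarith [mul_le_mul_of_nonneg_left h3 (show (0:ℝ) ≤ η * (2 / a) by positivity)]
    have hiA' : Integrable (fun g => lse (wsum A g)) (gauss (Edge n)) := by
      exact (hiA.add (integrable_const (log K))).congr (ae_of_all _ fun g => by simp)
    rw [integral_sub hiA' (integrable_const _)] at h1
    rw [integral_sub hiB (integrable_const _)] at h2
    simp only [integral_const, probReal_univ, one_smul] at h1 h2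
    linarith
  have hcge : η * (T - u - 1) ≤ c := by
    rw [hc]; nlinarith
  have hpos : 0 < T - u - 1 := by linarith
  rw [← ofReal_measureReal]
  refine ENNReal.ofReal_le_ofReal ?_
  rw [le_div_iff₀ hpos, ← mul_le_mul_iff_right₀ (show (0:ℝ) < η by linarith)]
  nlinarith [mul_le_mul_of_nonneg_right hcge (measureReal_nonneg (μ := gauss (Edge n)) (s := S))]

/-- The same bound over any set of unit vectors. -/
lemma prob_quad_le {a σ T : ℝ} (W : Set (Fin n → ℝ)) (hW : ∀ w ∈ W, ∑ i, w i ^ 2 = 1)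
    (Φ : (Fin n → ℝ) → ℝ) (hΦ : ∀ g, 0 ≤ Φ g)
    (hlin : ∀ w ∈ W, ∀ g, ∑ i, g i * w i ≤ √(Φ g)) (ha : 0 < a) (hσ : 1 ≤ σ)
    (hEi : Integrable (fun g => exp (a * (Φ g - σ))) (gauss (Fin n)))
    (hEle : ∫ g, exp (a * (Φ g - σ)) ∂gauss (Fin n) ≤ 1) (hT : 1 < T - 2 * √σ) :
    gauss (Edge n) {g | ∃ w ∈ W, T < 2 * ∑ e : Edge n, g e * (w e.1.1 * w e.1.2)}
      ≤ ENNReal.ofReal ((1 + 2 / a) / (T - 2 * √σ - 1)) := by
  rcases W.eq_empty_or_nonempty with rfl | hne
  · simp
  have : Nonempty W := hne.to_subtype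
  set w : ℕ → W := TopologicalSpace.denseSeq _
  set E : ℕ → Set (Edge n → ℝ) := fun N =>
    {g | ∃ k : Fin N, T < 2 * ∑ e : Edge n, g e * ((w k).1 e.1.1 * (w k).1 e.1.2)} with hE
  have hmono : Monotone E := fun N M hNM g ⟨k, hk⟩ => ⟨Fin.castLE hNM k, hk⟩
  refine le_trans (measure_mono (t := ⋃ N, E N) ?_) ?_
  · rintro g ⟨v, hvW, hv⟩
    set U := {p : W | T < 2 * ∑ e : Edge n, g e * (p.1 e.1.1 * p.1 e.1.2)}
    have hU : IsOpen U := isOpen_lt continuous_const (continuous_const.mul
      (continuous_finsetSum _ fun e _ => continuous_const.mul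
        (((continuous_apply _).comp continuous_subtype_val).mul
          ((continuous_apply _).comp continuous_subtype_val))))
    obtain ⟨k, hk⟩ := (TopologicalSpace.denseRange_denseSeq _).exists_mem_open hU ⟨⟨v, hvW⟩, hv⟩
    exact Set.mem_iUnion.2 ⟨k + 1, Fin.last k, hk⟩
  · rw [hmono.measure_iUnion]
    exact iSup_le fun N => prob_quad_finite_le (fun k : Fin N => (w k).1)
      (fun k => hW _ (w k).2) Φ hΦ (fun k => hlin _ (w k).2) ha hσ hEi hEle hT

/-- An excess of the quadratic form at `v` is one at the unit vector along `v`. -/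
lemma exists_unit_of_quad {g : Edge n → ℝ} {v : Fin n → ℝ} {c : ℝ}
    (hv : c * ∑ i, v i ^ 2 < ∑ i, ∑ j, sym g i j * v i * v j) :
    ∃ r : ℝ, ∑ i, (v i / r) ^ 2 = 1 ∧
      c < 2 * ∑ e : Edge n, g e * (v e.1.1 / r * (v e.1.2 / r)) := by
  rw [quad_eq] at hv
  set s := ∑ i, v i ^ 2 with hs
  have hs0 : 0 < s := by
    refine lt_of_le_of_ne (Finset.sum_nonneg fun i _ => sq_nonneg _) fun h0 => ?_
    have hz : ∀ i, v i = 0 := fun i => by
      have := (Finset.sum_eq_zero_iff_of_nonneg fun i _ => sq_nonneg (v i)).1 h0.symm i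
        (Finset.mem_univ i)
      simpa using this
    simp [hs, hz] at hv
  refine ⟨√s, ?_, ?_⟩
  · simp only [div_pow, sq_sqrt hs0.le, ← Finset.sum_div, ← hs, div_self hs0.ne']
  · have e : 2 * ∑ e : Edge n, g e * (v e.1.1 / √s * (v e.1.2 / √s))
        = (2 * ∑ e : Edge n, g e * (v e.1.1 * v e.1.2)) / s := by
      rw [mul_div_assoc, Finset.sum_div]
      refine congrArg (2 * ·) (Finset.sum_congr rfl fun e _ => ?_)
      rw [div_mul_div_comm, mul_self_sqrt hs0.le]; ring
    rw [e, lt_div_iff₀ hs0]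
    exact hv

/-- **Top eigenvalue**: with high probability `⟨v, A v⟩ ≤ (2 + ε) √n |v|²` for all `v`. -/
theorem tendsto_quad_form {ε : ℝ} (hε : 0 < ε) :
    Tendsto (fun n => disorder n {g | ∃ v : Fin n → ℝ,
      (2 + ε) * √n * ∑ i, v i ^ 2 < ∑ i, ∑ j, sym g i j * v i * v j}) atTop (𝓝 0) := by
  have hsq : Tendsto (fun n : ℕ => ε / 2 * √(n : ℝ) - 1) atTop atTop :=
    tendsto_atTop_add_const_right _ _
      ((tendsto_sqrt_atTop.comp tendsto_natCast_atTop_atTop).const_mul_atTop (by positivity))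
  have hlim := ENNReal.tendsto_ofReal
    ((tendsto_const_nhds (x := 1 + 2 / chiExp (ε / 2))).div_atTop hsq)
  rw [ENNReal.ofReal_zero] at hlim
  refine tendsto_of_tendsto_of_tendsto_of_le_of_le' tendsto_const_nhds hlim
    (Eventually.of_forall fun n => bot_le) ?_
  filter_upwards [hsq.eventually_gt_atTop 0, eventually_gt_atTop 0] with n hn' hn
  set δ := ε / 2 with hδdef
  have hδ : 0 < δ := by positivity
  have hn1 : (1 : ℝ) ≤ n := by exact_mod_cast hn
  have hgap : δ * √n ≤ (2 + ε) * √n - 2 * √((1 + δ) * n) := by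
    have h1 : √((1 + δ) * n) ≤ (1 + δ / 2) * √n := by
      rw [sqrt_mul (by positivity)]
      exact mul_le_mul_of_nonneg_right (sqrt_le_iff.2 ⟨by positivity, by nlinarith [sq_nonneg δ]⟩)
        (sqrt_nonneg _)
    rw [hδdef] at *
    nlinarith [sqrt_nonneg (n:ℝ)]
  obtain ⟨hEi, hEle⟩ := chi_mgf hδ (Finset.univ : Finset (Fin n)) n (by simp)
  have h := prob_quad_le (T := (2 + ε) * √n) (σ := (1 + δ) * n) {v : Fin n → ℝ | ∑ i, v i ^ 2 = 1}
    (fun w hw => hw) (fun g => ∑ i, g i ^ 2) (fun g => Finset.sum_nonneg fun i _ => sq_nonneg _)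
    (fun w hw g => by
      have := sum_mul_le_sqrt_mul_sqrt Finset.univ g w
      rwa [show ∑ i, w i ^ 2 = 1 from hw, sqrt_one, mul_one] at this)
    (chiExp_pos hδ) (by nlinarith) hEi
    (hEle.trans (pow_le_one₀ (chiRate_nonneg δ) (chiRate_lt_one hδ).le)) (by linarith)
  rw [disorder_eq]
  refine le_trans (measure_mono ?_) (h.trans (ENNReal.ofReal_le_ofReal ?_))
  · rintro g ⟨v, hv⟩
    obtain ⟨r, hr1, hr2⟩ := exists_unit_of_quad hv
    exact ⟨fun i => v i / r, hr1, hr2⟩
  · exact div_le_div_of_nonneg_left (by have := chiExp_pos hδ; positivity) hn' (by linarith)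

/-- Negating the disorder preserves its law. -/
lemma disorder_neg (n : ℕ) :
    MeasurePreserving (fun g : Edge n → ℝ => fun e => -g e) (disorder n) (disorder n) :=
  measurePreserving_pi _ _ fun _ => ⟨measurable_neg, by simpa using gaussianReal_map_neg (μ := 0) (v := 1)⟩

/-- **E1**: with high probability the top eigenvalue is at most `(2 + ε) √n`. -/
theorem tendsto_quadLe {ε : ℝ} (hε : 0 < ε) :
    Tendsto (fun n => disorder n {g | ¬ QuadLe (sym g) ((2 + ε) * √n)}) atTop (𝓝 0) := by
  simpa only [QuadLe, not_forall, not_le] using tendsto_quad_form hε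

/-- **E1**, bottom eigenvalue. -/
theorem tendsto_quadLe_neg {ε : ℝ} (hε : 0 < ε) :
    Tendsto (fun n => disorder n {g | ¬ QuadLe (fun i j => -sym g i j) ((2 + ε) * √n)}) atTop (𝓝 0) := by
  refine (tendsto_quadLe hε).congr fun n => ?_
  have hc : IsClosed {g : Edge n → ℝ | QuadLe (sym g) ((2 + ε) * √n)} := by
    have e : {g : Edge n → ℝ | QuadLe (sym g) ((2 + ε) * √n)} = ⋂ v : Fin n → ℝ,
        {g | 2 * ∑ e : Edge n, g e * (v e.1.1 * v e.1.2) ≤ (2 + ε) * √n * ∑ i, v i ^ 2} := by
      ext g; simp [QuadLe, quad_eq]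
    rw [e]
    exact isClosed_iInter fun v => isClosed_le (continuous_const.mul
      (continuous_finsetSum _ fun e _ => (continuous_apply e).mul continuous_const)) continuous_const
  refine (((disorder_neg n).measure_preimage hc.measurableSet.compl.nullMeasurableSet).symm.trans ?_)
  congr 1
  ext g
  simp [QuadLe, sym_neg]

/-- **E2**: with high probability every row has squared norm at most `(1 + ε) n`. -/
theorem tendsto_rows {ε : ℝ} (hε : 0 < ε) :
    Tendsto (fun n => disorder n {g | ¬ ∀ i, ∑ j, sym g i j ^ 2 ≤ (1 + ε) * n}) atTop (𝓝 0) := by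
  simpa only [not_forall, not_le] using tendsto_row_sq hε

lemma entry_tail (n : ℕ) (ε : ℝ) (e : Edge n) :
    disorder n {g | ε ^ 2 * n < g e ^ 2}
      ≤ ENNReal.ofReal (exp (-(ε ^ 2 / 4)) ^ n * (√(1 / 2))⁻¹) := by
  have h : disorder n {g | ε ^ 2 * n < g e ^ 2} = gaussianReal 0 1 {t | ε ^ 2 * n < t ^ 2} := by
    rw [show {g : Edge n → ℝ | ε ^ 2 * n < g e ^ 2} = Function.eval e ⁻¹' {t | ε ^ 2 * n < t ^ 2} by
      ext g; simp [Function.eval], disorder]
    exact (measurePreserving_eval (fun _ : Edge n => gaussianReal 0 1) e).measure_preimage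
      (s := {t : ℝ | ε ^ 2 * n < t ^ 2})
      (measurableSet_lt measurable_const (by fun_prop)).nullMeasurableSet
  rw [h]
  have hi : Integrable (fun t : ℝ => exp (-(ε ^ 2 / 4)) ^ n * exp (1 / 4 * t ^ 2)) (gaussianReal 0 1) :=
    (integrable_exp_sq (by norm_num)).const_mul _
  refine le_trans (measure_mono ?_) (((mul_meas_ge_le_lintegral₀
    hi.aestronglyMeasurable.aemeasurable.ennreal_ofReal 1).trans' (one_mul _).ge).trans ?_)
  · intro t ht
    simp only [Set.mem_ofPred_eq, ENNReal.one_le_ofReal] at ht ⊢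
    rw [← exp_nat_mul, ← exp_add]
    exact one_le_exp (by linarith)
  · rw [← ofReal_integral_eq_lintegral_ofReal hi (ae_of_all _ fun t => by positivity),
      integral_const_mul, integral_exp_sq (by norm_num)]
    norm_num

/-- **E3**: with high probability every entry is at most `ε √n` in absolute value. -/
theorem tendsto_entries {ε : ℝ} (hε : 0 < ε) :
    Tendsto (fun n => disorder n {g | ¬ ∀ i j, |sym g i j| ≤ ε * √n}) atTop (𝓝 0) := by
  set q := exp (-(ε ^ 2 / 4)) with hq
  have key : ∀ n : ℕ, disorder n {g | ¬ ∀ i j, |sym g i j| ≤ ε * √n}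
      ≤ ENNReal.ofReal ((n : ℝ) ^ 2 * q ^ n * (√(1 / 2))⁻¹) := by
    intro n
    refine (measure_mono (t := ⋃ e : Edge n, {g | ε ^ 2 * n < g e ^ 2}) fun g hg => ?_).trans
      ((measure_iUnion_fintype_le _ _).trans ?_)
    · simp only [Set.mem_ofPred_eq, not_forall, not_le] at hg
      obtain ⟨i, j, hij⟩ := hg
      have hk : ∀ e : Edge n, ε * √n < |g e| → g ∈ ⋃ e : Edge n, {g | ε ^ 2 * n < g e ^ 2} :=
        fun e he => Set.mem_iUnion.2 ⟨e, by
          have := pow_lt_pow_left₀ he (by positivity) two_ne_zero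
          rwa [mul_pow, sq_sqrt (Nat.cast_nonneg n), sq_abs] at this⟩
      rcases lt_trichotomy i j with h | h | h
      · exact hk ⟨(i, j), h⟩ (by rwa [sym_of_lt g h] at hij)
      · rw [h, sym_self, abs_zero] at hij
        exact absurd hij (not_lt.2 (by positivity))
      · exact hk ⟨(j, i), h⟩ (by rwa [sym_comm, sym_of_lt g h] at hij)
    · refine (Finset.sum_le_sum fun e _ => entry_tail n ε e).trans ?_
      rw [Finset.sum_const, Finset.card_univ, nsmul_eq_mul, ← ENNReal.ofReal_natCast,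
        ← ENNReal.ofReal_mul (Nat.cast_nonneg _)]
      refine ENNReal.ofReal_le_ofReal ?_
      rw [← hq, mul_assoc _ (q ^ n)]
      refine mul_le_mul_of_nonneg_right ?_ (by positivity)
      have := Fintype.card_subtype_le fun p : Fin n × Fin n => p.1 < p.2
      simp only [Fintype.card_prod, Fintype.card_fin] at this
      rw [sq]
      exact_mod_cast this
  refine tendsto_of_tendsto_of_tendsto_of_le_of_le tendsto_const_nhds ?_ (fun n => bot_le) key
  have := (tendsto_pow_const_mul_const_pow_of_lt_one 2 (exp_pos (-(ε ^ 2 / 4))).le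
    (exp_lt_one_iff.2 (by nlinarith : -(ε ^ 2 / 4) < 0))).mul_const (√(1 / 2 : ℝ))⁻¹
  simpa using ENNReal.tendsto_ofReal this

end Vale.Agent.P150.Gap
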