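import Vale.Agent.P150.Gap.Model
import Vale.Agent.P150.Dynamics

/-!
Approximate tensorisation of entropy gives mixing in time `O(log n)` for the SK heat-bath dynamics.
-/

open Finset

namespace Vale.Agent.P150.Gap

variable {n : ℕ}

lemma sum_sym_mul (g : Edge n → ℝ) (a : Fin n → Fin n → ℝ) :
    ∑ i, ∑ j, sym g i j * a i j = ∑ e : Edge n, g e * (a e.1.1 e.1.2 + a e.1.2 e.1.1) := by
  have hsplit : ∀ i j : Fin n, sym g i j * a i j =
      (if h : i < j then g ⟨(i, j), h⟩ * a i j else 0) +
      (if h : j < i then g ⟨(j, i), h⟩ * a i j else 0) := by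
    intro i j
    rcases lt_trichotomy i j with h | h | h
    · simp [sym, h, h.asymm]
    · simp [sym, h]
    · simp [sym, h, h.asymm]
  have key : ∀ b : Fin n → Fin n → ℝ,
      ∑ i, ∑ j, (if h : i < j then g ⟨(i, j), h⟩ * b i j else 0) =
        ∑ e : Edge n, g e * b e.1.1 e.1.2 := by
    intro b
    set F : Fin n × Fin n → ℝ := fun p => if h : p.1 < p.2 then g ⟨p, h⟩ * b p.1 p.2 else 0
    have h1 : ∑ e : Edge n, g e * b e.1.1 e.1.2 = ∑ e : Edge n, F e.1 :=
      sum_congr rfl fun e _ => by simp [F, e.2]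
    have h2 : ∑ e : Edge n, F e.1 = ∑ p ∈ univ.filter (fun p : Fin n × Fin n => p.1 < p.2), F p :=
      (sum_subtype _ (fun p => by simp) F).symm
    rw [h1, h2, sum_filter_of_ne, Fintype.sum_prod_type]
    intro p _ hp
    by_contra h
    exact hp (dif_neg h)
  simp only [hsplit, sum_add_distrib, mul_add]
  rw [key a]
  congr 1
  rw [sum_comm]
  exact key fun i j => a j i

lemma expo_skJ (β : ℝ) (g : Edge n → ℝ) (x : Conf n) : expo (skJ β g) 0 x = β * energy g x := by
  have h : ∑ i, ∑ j, skJ β g i j * spin x i * spin x j =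
      β / Real.sqrt n * ∑ i, ∑ j, sym g i j * (spin x i * spin x j) := by
    simp only [mul_sum]
    exact sum_congr rfl fun i _ => sum_congr rfl fun j _ => by simp only [skJ]; ring
  rw [expo, h, sum_sym_mul]
  simp only [Pi.zero_apply, zero_mul, sum_const_zero, add_zero, energy, pairSpin, mul_sum, sum_div]
  exact sum_congr rfl fun e _ => by ring

lemma mu_skJ (β : ℝ) (g : Edge n → ℝ) (x : Conf n) : mu (skJ β g) 0 x = gibbs β g x := by
  simp only [mu, wt, gibbs, expo_skJ]

lemma ev_skJ (β : ℝ) (g : Edge n → ℝ) (f : Conf n → ℝ) : ev (skJ β g) 0 f = avg β g f := by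
  simp only [ev, avg, mu_skJ]

lemma cond_skJ (β : ℝ) (g : Edge n → ℝ) (i : Fin n) (f : Conf n → ℝ) :
    cond (skJ β g) 0 i f = heatBath β g i f := by
  funext x
  simp [cond, heatBath, mu_skJ]

lemma var_skJ (β : ℝ) (g : Edge n → ℝ) (f : Conf n → ℝ) :
    var (skJ β g) 0 f = avg β g (fun x => f x ^ 2) - avg β g f ^ 2 := by
  simp only [var, ev_skJ]

lemma dir_skJ (β : ℝ) (g : Edge n → ℝ) (f : Conf n → ℝ) :
    dir (skJ β g) 0 f = -avg β g (fun x => f x * gen β g f x) := by
  simp only [dir, ev_skJ, cond_skJ, gen_apply, avg, ← sum_neg_distrib]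
  refine sum_congr rfl fun x _ => ?_
  simp only [sum_sub_distrib]
  ring

lemma heatBath_flip (β : ℝ) (g : Edge n → ℝ) (i : Fin n) (f : Conf n → ℝ) (x : Conf n) :
    heatBath β g i f (flipAt i x) = heatBath β g i f x := by
  simp only [heatBath, LinearMap.coe_mk, AddHom.coe_mk, flipAt_flipAt]
  ring

lemma heatBath_idem (β : ℝ) (g : Edge n → ℝ) (i : Fin n) (f : Conf n → ℝ) :
    heatBath β g i (heatBath β g i f) = heatBath β g i f := by
  funext x
  have hp := (add_pos (gibbs_pos β g x) (gibbs_pos β g (flipAt i x))).ne'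
  conv_lhs => simp only [heatBath, LinearMap.coe_mk, AddHom.coe_mk]
  rw [show (gibbs β g (flipAt i x) * ((gibbs β g (flipAt i x) * f (flipAt i x) +
      gibbs β g (flipAt i (flipAt i x)) * f (flipAt i (flipAt i x))) /
      (gibbs β g (flipAt i x) + gibbs β g (flipAt i (flipAt i x))))) =
      gibbs β g (flipAt i x) * heatBath β g i f (flipAt i x) from rfl, heatBath_flip]
  simp only [heatBath, LinearMap.coe_mk, AddHom.coe_mk]
  field_simp

lemma avg_heatBath (β : ℝ) (g : Edge n → ℝ) (i : Fin n) (f : Conf n → ℝ) :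
    avg β g (heatBath β g i f) = avg β g f := by
  have h1 : heatBath β g i (fun _ => (1:ℝ)) = fun _ => 1 := by
    funext x
    simp only [heatBath, LinearMap.coe_mk, AddHom.coe_mk, mul_one]
    exact div_self (add_pos (gibbs_pos β g x) (gibbs_pos β g _)).ne'
  have := heatBath_symm β g i f (fun _ => (1:ℝ))
  simp only [h1, mul_one] at this
  exact this.symm

lemma heatBath_pos (β : ℝ) (g : Edge n → ℝ) (i : Fin n) {f : Conf n → ℝ} (hf : ∀ x, 0 < f x)
    (x : Conf n) : 0 < heatBath β g i f x :=
  div_pos (add_pos (mul_pos (gibbs_pos β g x) (hf x)) (mul_pos (gibbs_pos β g _) (hf _)))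
    (add_pos (gibbs_pos β g x) (gibbs_pos β g _))

lemma heatBath_log_le (β : ℝ) (g : Edge n → ℝ) (i : Fin n) {f : Conf n → ℝ} (hf : ∀ x, 0 < f x)
    (x : Conf n) :
    heatBath β g i (fun y => Real.log (f y)) x ≤ Real.log (heatBath β g i f x) := by
  have hm := heatBath_pos β g i hf x
  set m := heatBath β g i f x with hm'
  have hp := gibbs_pos β g x
  have hq := gibbs_pos β g (flipAt i x)
  have b : ∀ y, Real.log (f y) - Real.log m ≤ f y / m - 1 := fun y => by
    rw [← Real.log_div (hf y).ne' hm.ne']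
    exact Real.log_le_sub_one_of_pos (div_pos (hf y) hm)
  have e : gibbs β g x * (f x / m - 1) + gibbs β g (flipAt i x) * (f (flipAt i x) / m - 1) = 0 := by
    have : m * (gibbs β g x + gibbs β g (flipAt i x)) =
        gibbs β g x * f x + gibbs β g (flipAt i x) * f (flipAt i x) := by
      rw [hm']; exact div_mul_cancel₀ _ (add_pos hp hq).ne'
    field_simp
    linarith
  simp only [heatBath, LinearMap.coe_mk, AddHom.coe_mk]
  rw [div_le_iff₀ (add_pos hp hq)]
  have h1 := mul_le_mul_of_nonneg_left (b x) hp.le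
  have h2 := mul_le_mul_of_nonneg_left (b (flipAt i x)) hq.le
  change _ ≤ Real.log m * _
  linarith

/-- The entropy production dominates the averaged single-site entropies. -/
lemma entAt_le_production (β : ℝ) (g : Edge n → ℝ) (i : Fin n) {f : Conf n → ℝ}
    (hf : ∀ x, 0 < f x) :
    ev (skJ β g) 0 (entAt (skJ β g) 0 i f) ≤
      avg β g (fun x => (f x - heatBath β g i f x) * Real.log (f x)) := by
  set Q := heatBath β g i f
  set L := fun x => Real.log (f x)
  have h1 : ev (skJ β g) 0 (entAt (skJ β g) 0 i f) =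
      avg β g (fun x => f x * L x) - avg β g (fun x => Q x * Real.log (Q x)) := by
    rw [ev_skJ]
    have : entAt (skJ β g) 0 i f = fun x =>
        heatBath β g i (fun y => f y * L y) x + (-(Q x * Real.log (Q x))) := by
      funext x; simp [entAt, cond_skJ, Q, L, sub_eq_add_neg]
    rw [this, avg_add, avg_heatBath]
    simp [avg, sub_eq_add_neg]
  have h2 : avg β g (fun x => (f x - Q x) * L x) =
      avg β g (fun x => f x * L x) - avg β g (fun x => Q x * L x) := by
    simp [avg, sub_mul, mul_sub, sum_sub_distrib]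
  have h3 : avg β g (fun x => Q x * L x) = avg β g (fun x => Q x * heatBath β g i L x) := by
    rw [heatBath_symm β g i Q L]
    simp only [Q, heatBath_idem]
  have h4 : avg β g (fun x => Q x * heatBath β g i L x) ≤ avg β g (fun x => Q x * Real.log (Q x)) :=
    sum_le_sum fun x _ => mul_le_mul_of_nonneg_left
      (mul_le_mul_of_nonneg_left (heatBath_log_le β g i hf x) (heatBath_pos β g i hf x).le)
      (gibbs_pos β g x).le
  rw [h1, h2, h3]
  linarith

lemma semi_nonneg (β : ℝ) (g : Edge n → ℝ) {t : ℝ} (ht : 0 ≤ t) {f : Conf n → ℝ}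
    (hf : ∀ x, 0 ≤ f x) (x : Conf n) : 0 ≤ semi β g t f x := by
  set A : (Conf n → ℝ) →L[ℝ] (Conf n → ℝ) :=
    LinearMap.toContinuousLinearMap (∑ i, heatBath β g i)
  have hgen : gen β g = A + (-(n:ℝ)) • 1 := by
    refine ContinuousLinearMap.ext fun u => ?_
    funext y
    simp [gen_apply, A, Finset.sum_apply, sum_add_distrib, sub_eq_add_neg]
  have hA : ∀ (u : Conf n → ℝ), (∀ y, 0 ≤ u y) → ∀ k : ℕ, ∀ y, 0 ≤ ((t • A) ^ k) u y := by
    intro u hu k
    induction k with
    | zero => simpa using hu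
    | succ k ih =>
      intro y
      rw [pow_succ']
      simp only [ContinuousLinearMap.mul_def, ContinuousLinearMap.comp_apply,
        smul_apply, A, LinearMap.coe_toContinuousLinearMap',
        LinearMap.sum_apply, Pi.smul_apply, Finset.sum_apply, smul_eq_mul]
      refine mul_nonneg ht (sum_nonneg fun i _ => ?_)
      exact div_nonneg (add_nonneg (mul_nonneg (gibbs_pos β g y).le (ih y))
        (mul_nonneg (gibbs_pos β g _).le (ih _))) (add_pos (gibbs_pos β g y) (gibbs_pos β g _)).le
  have hexp : 0 ≤ NormedSpace.exp (t • A) f x := by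
    have hs := (NormedSpace.exp_series_hasSum_exp' (𝕂 := ℝ) (t • A)).mapL
      ((ContinuousLinearMap.proj (R := ℝ) (φ := fun _ : Conf n => ℝ) x).comp
        (ContinuousLinearMap.apply ℝ (Conf n → ℝ) f))
    refine hs.nonneg fun k => ?_
    simp only [ContinuousLinearMap.comp_apply, ContinuousLinearMap.apply_apply,
      ContinuousLinearMap.proj_apply, smul_apply, Pi.smul_apply, smul_eq_mul]
    exact mul_nonneg (by positivity) (hA f hf k x)
  let : NormedAlgebra ℚ ((Conf n → ℝ) →L[ℝ] (Conf n → ℝ)) := NormedAlgebra.restrictScalars ℚ ℝ _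
  have hsemi : semi β g t = Real.exp (-(n:ℝ) * t) • NormedSpace.exp (t • A) := by
    rw [semi, hgen, smul_add, NormedSpace.exp_add_of_commute
      (((Commute.one_right _).smul_right _).smul_right _), smul_smul]
    rw [← Algebra.algebraMap_eq_smul_one, ← NormedSpace.algebraMap_exp_comm]
    rw [← Algebra.commutes, ← Algebra.smul_def, Real.exp_eq_exp_ℝ, mul_comm t]
  rw [hsemi]
  exact mul_nonneg (Real.exp_pos _).le hexp

lemma sub_one_abs_le {u s : ℝ} (hu : 0 < u) (hs : 0 < s) :
    |u - 1| ≤ (u * Real.log u - u + 1) / (2 * s) + s * (u + 1) := by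
  set r := Real.sqrt u
  have hr : 0 < r := Real.sqrt_pos.2 hu
  have hu' : r * r = u := Real.mul_self_sqrt hu.le
  have hlog : 2 * (1 - r⁻¹) ≤ Real.log u := by
    rw [← hu', Real.log_mul hr.ne' hr.ne']
    linarith [Real.one_sub_inv_le_log_of_pos hr]
  have h1 : (r - 1) ^ 2 ≤ u * Real.log u - u + 1 := by
    have := mul_le_mul_of_nonneg_left hlog hu.le
    have e : u * r⁻¹ = r := by rw [← hu']; field_simp
    nlinarith
  have h2 : |u - 1| = |r - 1| * (r + 1) := by
    rw [← hu', show r * r - 1 = (r - 1) * (r + 1) by ring, abs_mul, abs_of_pos (by linarith : 0 < r + 1)]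
  have h3 : |r - 1| * (r + 1) ≤ (r - 1) ^ 2 / (2 * s) + s * (r + 1) ^ 2 / 2 := by
    rw [← sq_abs (r - 1), div_add_div _ _ (by positivity) two_ne_zero, le_div_iff₀ (by positivity)]
    nlinarith [sq_nonneg (|r - 1| - s * (r + 1))]
  have h4 : (r + 1) ^ 2 / 2 ≤ u + 1 := by nlinarith [sq_nonneg (r - 1)]
  have h5 : (r - 1) ^ 2 / (2 * s) ≤ (u * Real.log u - u + 1) / (2 * s) := by gcongr
  have h6 := mul_le_mul_of_nonneg_left h4 hs.le
  rw [h2]
  linarith [mul_div_assoc s ((r + 1) ^ 2) 2]

lemma abs_quad_le {J : Fin n → Fin n → ℝ} {lam c : ℝ} (hup : QuadLe J lam)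
    (hlo : QuadLe (fun i j => -J i j) c) (x : Conf n) :
    -(c * n) ≤ ∑ i, ∑ j, J i j * spin x i * spin x j ∧
      ∑ i, ∑ j, J i j * spin x i * spin x j ≤ lam * n := by
  have hs : ∑ i, spin x i ^ 2 = (n:ℝ) := by
    simp [← sq_abs (spin x _), abs_spin]
  have h1 := hup (spin x)
  have h2 := hlo (spin x)
  simp only [neg_mul, sum_neg_distrib, hs] at h2
  rw [hs] at h1
  exact ⟨by linarith, h1⟩

lemma log_inv_gibbs_le (β : ℝ) (g : Edge n → ℝ) {lam c : ℝ} (hup : QuadLe (skJ β g) lam)
    (hlo : QuadLe (fun i j => -skJ β g i j) c) (x : Conf n) :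
    -Real.log (gibbs β g x) ≤ (1 + (lam + c) / 2) * n := by
  have hb : ∀ y : Conf n, -(c * n / 2) ≤ β * energy g y ∧ β * energy g y ≤ lam * n / 2 := by
    intro y
    have := abs_quad_le hup hlo y
    rw [← expo_skJ, expo]
    simp only [Pi.zero_apply, zero_mul, sum_const_zero, add_zero]
    constructor <;> linarith [this.1, this.2]
  have hZ : ∑ y : Conf n, Real.exp (β * energy g y) ≤ (2:ℝ) ^ n * Real.exp (lam * n / 2) :=
    calc _ ≤ ∑ _y : Conf n, Real.exp (lam * n / 2) :=
          sum_le_sum fun y _ => Real.exp_le_exp.2 (hb y).2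
      _ = _ := by simp
  have hZ0 : 0 < ∑ y : Conf n, Real.exp (β * energy g y) :=
    sum_pos (fun y _ => Real.exp_pos _) univ_nonempty
  rw [gibbs, Real.log_div (Real.exp_pos _).ne' hZ0.ne', Real.log_exp]
  have h1 := Real.log_le_log hZ0 hZ
  rw [Real.log_mul (by positivity) (Real.exp_pos _).ne', Real.log_pow, Real.log_exp] at h1
  have h2 : (n:ℝ) * Real.log 2 ≤ n := by
    have := Real.log_two_lt_d9
    nlinarith [Nat.cast_nonneg (α := ℝ) n]
  linarith [(hb x).1]

/-- Exponential decay of entropy along the heat semigroup. -/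
lemma entropy_decay (β : ℝ) (g : Edge n → ℝ) {K : ℝ} (hK : 0 < K)
    (h : EntTensor (skJ β g) 0 K) {f : Conf n → ℝ} (hf : avg β g f = 1)
    (hpos : ∀ s : ℝ, 0 ≤ s → ∀ x, 0 < semi β g s f x) {t : ℝ} (ht : 0 ≤ t) :
    avg β g (fun x => semi β g t f x * Real.log (semi β g t f x)) ≤
      Real.exp (-t / K) * avg β g (fun x => f x * Real.log (f x)) := by
  set φ := fun s => avg β g (fun x => semi β g s f x * Real.log (semi β g s f x))
  set ψ := fun s => avg β g (fun x => gen β g (semi β g s f) x * Real.log (semi β g s f x))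
  have hd : ∀ s, 0 ≤ s → HasDerivAt φ (ψ s) s := by
    intro s hs
    have := HasDerivAt.fun_sum (u := (univ : Finset (Conf n))) fun x _ =>
      ((hasDerivAt_pi.1 (hasDerivAt_semi_apply β g f s) x).mul
        ((hasDerivAt_pi.1 (hasDerivAt_semi_apply β g f s) x).log (hpos s hs x).ne')).const_mul
        (gibbs β g x)
    refine this.congr_deriv ?_
    have h0 : avg β g (gen β g (semi β g s f)) = 0 := by
      have := gen_symm β g 1 (semi β g s f)
      simpa [gen_one, avg] using this
    simp only [ψ, avg] at h0 ⊢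
    simp only [mul_add, sum_add_distrib, add_eq_left]
    rw [← h0]
    refine sum_congr rfl fun x _ => ?_
    have := (hpos s hs x).ne'
    field_simp
  have hψ : ∀ s, 0 ≤ s → K * ψ s ≤ -φ s := by
    intro s hs
    have he := h _ (hpos s hs)
    rw [ent, ev_skJ, ev_skJ, avg_semi, hf, Real.log_one, mul_zero, sub_zero] at he
    have hp : ψ s = -∑ i, avg β g (fun x => (semi β g s f x - heatBath β g i (semi β g s f) x) *
        Real.log (semi β g s f x)) := by
      simp only [ψ, avg, gen_apply, sum_mul, mul_sum]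
      rw [sum_comm, ← sum_neg_distrib]
      refine sum_congr rfl fun i _ => ?_
      rw [← sum_neg_distrib]
      exact sum_congr rfl fun x _ => by ring
    have hle := sum_le_sum fun i (_ : i ∈ univ) => entAt_le_production β g i (hpos s hs)
    have := mul_le_mul_of_nonneg_left hle hK.le
    change φ s ≤ _ at he
    nlinarith
  set F := fun s => Real.exp (s / K) * φ s
  have hF : ∀ s, 0 ≤ s → HasDerivAt F (Real.exp (s / K) * (φ s / K + ψ s)) s := by
    intro s hs
    refine ((((hasDerivAt_id s).div_const K).exp).mul (hd s hs)).congr_deriv ?_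
    simp only [id]
    ring
  have hanti : AntitoneOn F (Set.Ici 0) := by
    refine antitoneOn_of_deriv_nonpos (convex_Ici 0)
      (fun s hs => (hF s hs).continuousAt.continuousWithinAt)
      (fun s hs => (hF s (interior_subset hs)).differentiableAt.differentiableWithinAt)
      fun s hs => ?_
    rw [(hF s (interior_subset hs)).deriv]
    refine mul_nonpos_of_nonneg_of_nonpos (Real.exp_pos _).le ?_
    rw [div_add' _ _ _ hK.ne']
    exact div_nonpos_of_nonpos_of_nonneg (by linarith [hψ s (interior_subset hs)]) hK.le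
  have key : F t ≤ F 0 := hanti Set.self_mem_Ici ht ht
  simp only [F, φ, zero_div, Real.exp_zero, one_mul, semi_zero] at key
  simp only [one_apply_eq_self] at key
  rw [neg_div, Real.exp_neg, inv_mul_eq_div, le_div_iff₀' (Real.exp_pos _)]
  exact key

/-- Tensorisation with constant `K` gives total variation `1/4` by time `K (log n + O(1))`. -/
theorem mixing_of_entTensor (β : ℝ) (g : Edge n → ℝ) {K lam c : ℝ} (hn : 0 < n) (hK : 0 < K)
    (h : EntTensor (skJ β g) 0 K) (hup : QuadLe (skJ β g) lam)
    (hlo : QuadLe (fun i j => -skJ β g i j) c) {t : ℝ}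
    (ht : K * (Real.log n + Real.log (64 * (1 + (lam + c) / 2))) ≤ t) (x : Conf n) :
    tvDist β g t x ≤ 1 / 4 := by
  have hn' : (0:ℝ) < n := Nat.cast_pos.2 hn
  have hlc : 0 ≤ lam + c := by
    have := abs_quad_le hup hlo x
    nlinarith [this.1, this.2]
  have ht0 : 0 ≤ t := le_trans (mul_nonneg hK.le (add_nonneg (Real.log_nonneg (by exact_mod_cast hn))
    (Real.log_nonneg (by nlinarith)))) ht
  set μ := gibbs β g
  have hμ := gibbs_pos β g
  set f : Conf n → ℝ := (1 / (2 * μ x)) • Pi.single x 1 + (1 / 2 : ℝ) • (1 : Conf n → ℝ)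
  have hst : ∀ s y, semi β g s f y = semi β g s (Pi.single x 1) y / (2 * μ x) + 1 / 2 := by
    intro s y
    simp [f, semi_one, div_eq_inv_mul]
  have hpos : ∀ s : ℝ, 0 ≤ s → ∀ y, 0 < semi β g s f y := by
    intro s hs y
    rw [hst]
    have h0 := semi_nonneg β g hs (f := Pi.single x 1)
      (Pi.single_nonneg.2 zero_le_one : (0 : Conf n → ℝ) ≤ Pi.single x 1) y
    have := div_nonneg h0 (mul_pos two_pos (hμ x)).le
    linarith
  have hmean : avg β g f = 1 := by
    simp only [avg, f, Pi.add_apply, Pi.smul_apply, Pi.one_apply, smul_eq_mul, mul_add,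
      sum_add_distrib, ← sum_mul]
    rw [sum_gibbs, sum_eq_single x (fun y _ hy => by simp [Pi.single_eq_of_ne hy]) (by simp)]
    have := (hμ x).ne'
    simp only [Pi.single_eq_same, μ] at *
    field_simp
    norm_num
  have hE0 : avg β g (fun y => f y * Real.log (f y)) ≤ (1 + (lam + c) / 2) * n := by
    have hb : ∀ y, 0 < f y ∧ f y ≤ 1 / μ x := fun y => by
      have h1 : μ x ≤ 1 := by
        rw [← sum_gibbs (β := β) (g := g)]
        exact single_le_sum (fun z _ => (hμ z).le) (mem_univ x)
      have h2 : (1:ℝ) ≤ 1 / μ x := by rw [le_div_iff₀ (hμ x)]; linarith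
      refine ⟨by simpa [semi_zero] using hpos 0 le_rfl y, ?_⟩
      have e : 1 / (2 * μ x) = (1 / μ x) / 2 := by ring
      by_cases hy : y = x
      · subst hy; simp only [f, Pi.add_apply, Pi.smul_apply, Pi.one_apply, smul_eq_mul,
          Pi.single_eq_same, mul_one, e]
        linarith
      · simp only [f, Pi.add_apply, Pi.smul_apply, Pi.one_apply, smul_eq_mul,
          Pi.single_eq_of_ne hy, mul_zero, mul_one]
        linarith
    calc avg β g (fun y => f y * Real.log (f y))
        ≤ avg β g (fun y => f y * Real.log (1 / μ x)) := sum_le_sum fun y _ =>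
          mul_le_mul_of_nonneg_left (mul_le_mul_of_nonneg_left
            (Real.log_le_log (hb y).1 (hb y).2) (hb y).1.le) (hμ y).le
      _ = Real.log (1 / μ x) := by
          simp only [avg, ← mul_assoc, ← sum_mul]
          rw [show (∑ y, gibbs β g y * f y) = 1 from hmean, one_mul]
      _ ≤ _ := by rw [one_div, Real.log_inv]; exact log_inv_gibbs_le β g hup hlo x
  have hE : avg β g (fun y => semi β g t f y * Real.log (semi β g t f y)) ≤ 1 / 64 := by
    refine (entropy_decay β g hK h hmean hpos ht0).trans ?_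
    refine (mul_le_mul_of_nonneg_left hE0 (Real.exp_pos _).le).trans ?_
    have hM : 0 < 64 * (1 + (lam + c) / 2) := by linarith
    have h1 : Real.exp (-t / K) ≤ (n * (64 * (1 + (lam + c) / 2)))⁻¹ := by
      rw [← Real.exp_log (inv_pos.2 (mul_pos hn' hM)), Real.exp_le_exp, Real.log_inv,
        Real.log_mul hn'.ne' hM.ne', div_le_iff₀ hK]
      linarith
    refine (mul_le_mul_of_nonneg_right h1 (by positivity)).trans (le_of_eq ?_)
    field_simp
  have htv : tvDist β g t x = avg β g (fun y => |semi β g t f y - 1|) := by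
    simp only [tvDist, avg, sum_div]
    refine sum_congr rfl fun y _ => ?_
    have hk : μ x * kernelAt β g t x y = μ y * semi β g t (Pi.single x 1) y := by
      have := semi_symm β g (Pi.single x 1) (Pi.single y 1) t
      simp only [avg] at this
      rw [sum_eq_single y (fun z _ hz => by simp [Pi.single_eq_of_ne hz]) (by simp),
        sum_eq_single x (fun z _ hz => by simp [Pi.single_eq_of_ne hz]) (by simp)] at this
      simpa [kernelAt, semi] using this.symm
    rw [hst]
    have hx := (hμ x).ne'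
    have e : semi β g t (Pi.single x 1) y / (2 * μ x) + 1 / 2 - 1 =
        (kernelAt β g t x y - μ y) / (2 * μ y) := by
      have hy := (hμ y).ne'
      have ek : kernelAt β g t x y = μ y * semi β g t (Pi.single x 1) y / μ x := by
        rw [← hk]; exact (mul_div_cancel_left₀ _ hx).symm
      rw [ek]
      simp only [μ]
      field_simp
      ring
    rw [e, abs_div, abs_of_pos (mul_pos two_pos (hμ y))]
    have hy := (hμ y).ne'
    simp only [μ] at *
    field_simp
  rw [htv]
  have hb : avg β g (fun y => |semi β g t f y - 1|) ≤ avg β g (fun y =>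
      (semi β g t f y * Real.log (semi β g t f y) - semi β g t f y + 1) / (2 * (1 / 16)) +
        1 / 16 * (semi β g t f y + 1)) :=
    sum_le_sum fun y _ =>
      mul_le_mul_of_nonneg_left (sub_one_abs_le (hpos t ht0 y) (by norm_num)) (hμ y).le
  have he : avg β g (fun y =>
      (semi β g t f y * Real.log (semi β g t f y) - semi β g t f y + 1) / (2 * (1 / 16)) +
        1 / 16 * (semi β g t f y + 1)) =
      8 * avg β g (fun y => semi β g t f y * Real.log (semi β g t f y))
        - 8 * avg β g (semi β g t f) + 8 + 1 / 16 * (avg β g (semi β g t f) + 1) := by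
    simp only [avg]
    refine Eq.trans (sum_congr rfl fun y _ => show _ = 8 * (gibbs β g y *
      (semi β g t f y * Real.log (semi β g t f y))) + (-(127 / 16)) * (gibbs β g y * semi β g t f y)
        + (129 / 16) * gibbs β g y by ring) ?_
    simp only [sum_add_distrib, ← mul_sum, sum_gibbs]
    ring
  rw [he, avg_semi, hmean] at hb
  linarith

/-- The same, as `t_mix ≤ A log n`. -/
theorem mixing_log_of_entTensor (β : ℝ) (g : Edge n → ℝ) {K lam c : ℝ} (hn : 2 ≤ n) (hK : 0 < K)
    (h : EntTensor (skJ β g) 0 K) (hup : QuadLe (skJ β g) lam)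
    (hlo : QuadLe (fun i j => -skJ β g i j) c) {t : ℝ}
    (ht : K * (1 + Real.log (64 * (1 + (lam + c) / 2)) / Real.log 2) * Real.log n ≤ t)
    (x : Conf n) : tvDist β g t x ≤ 1 / 4 := by
  refine mixing_of_entTensor β g (by omega) hK h hup hlo (le_trans ?_ ht) x
  have h2 : Real.log 2 ≤ Real.log n := Real.log_le_log two_pos (by exact_mod_cast hn)
  have hlc : 0 ≤ lam + c := by
    have := abs_quad_le hup hlo x
    have hn' : (2:ℝ) ≤ n := by exact_mod_cast hn
    nlinarith [this.1, this.2]
  have hL : 0 ≤ Real.log (64 * (1 + (lam + c) / 2)) := Real.log_nonneg (by linarith)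
  have hl2 := Real.log_pos (one_lt_two (α := ℝ))
  rw [mul_assoc]
  refine mul_le_mul_of_nonneg_left ?_ hK.le
  rw [add_mul, one_mul, div_mul_eq_mul_div]
  gcongr
  rw [le_div_iff₀ hl2]
  exact mul_le_mul_of_nonneg_left h2 hL

end Vale.Agent.P150.Gap
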