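import Mathlib

/-!
The two-spin lemma behind the second-order expansion of `E[(Hf)²]` for heat-bath dynamics.
-/

namespace Vale.Agent.P150.Gap

/-- Sum over the four sign pairs. -/
def psum (F : ℝ → ℝ → ℝ) : ℝ := F 1 1 + F 1 (-1) + F (-1) 1 + F (-1) (-1)

lemma psum_mono {F G : ℝ → ℝ → ℝ}
    (h : ∀ x y : ℝ, (x = 1 ∨ x = -1) → (y = 1 ∨ y = -1) → F x y ≤ G x y) :
    psum F ≤ psum G := by
  unfold psum
  linarith [h 1 1 (.inl rfl) (.inl rfl), h 1 (-1) (.inl rfl) (.inr rfl),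
    h (-1) 1 (.inr rfl) (.inl rfl), h (-1) (-1) (.inr rfl) (.inr rfl)]

lemma poly_bound {t p q R AB c : ℝ} (ht : |t| ≤ 1 / 10) (hAB : |AB| ≤ 1) (hc : |c| ≤ 1) :
    -(t ^ 2 * (1 + 4 * |t|) * (p ^ 2 + q ^ 2)) + (R + t * (p + q) / 2) ^ 2 / 2 ≤
      R ^ 2 * (1 + t * AB + t ^ 2 * c) + t * (p + q) * R * (1 - t * AB) +
        t ^ 2 * ((p - q) ^ 2 / 4 - p * q) - 3 / 4 * AB * t ^ 3 * (p - q) ^ 2 -
        c * t ^ 4 * (p - q) ^ 2 / 4 := by
  set X := R + t * (p + q) / 2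
  set T := |t|
  have hT : 0 ≤ T := abs_nonneg _
  have ht2 : t ^ 2 = T ^ 2 := (sq_abs t).symm
  have h1 : |t * AB + t ^ 2 * c| ≤ 2 * T := by
    refine (abs_add_le _ _).trans ?_
    rw [abs_mul, abs_mul, abs_of_nonneg (sq_nonneg t), ht2]
    nlinarith [abs_nonneg AB, abs_nonneg c, mul_nonneg hT hT]
  have hXR : R = X - t * (p + q) / 2 := by simp [X]
  have hR : R ^ 2 ≤ 2 * X ^ 2 + t ^ 2 * (p + q) ^ 2 / 2 := by
    rw [hXR]; nlinarith [sq_nonneg (X + t * (p + q) / 2)]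
  have e1 : -(2 * T * (2 * X ^ 2 + t ^ 2 * (p + q) ^ 2 / 2)) ≤ R ^ 2 * (t * AB + t ^ 2 * c) := by
    have := abs_le.1 h1
    nlinarith [mul_le_mul_of_nonneg_left hR (by positivity : (0:ℝ) ≤ 2 * T), sq_nonneg R]
  have e2 : -(T * X ^ 2 / 2 + T ^ 3 * (p + q) ^ 2) ≤ -(t ^ 2 * (p + q) * R * AB) := by
    have hX : |R| ≤ |X| + T * |p + q| / 2 := by
      have h := abs_sub X (t * (p + q) / 2)
      rwa [show X - t * (p + q) / 2 = R by simp [X], abs_div, abs_mul, abs_two] at h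
    have h3 : |t ^ 2 * (p + q) * R * AB| ≤ T ^ 2 * |p + q| * (|X| + T * |p + q| / 2) := by
      rw [abs_mul, abs_mul, abs_mul, abs_of_nonneg (sq_nonneg t), ht2]
      calc T ^ 2 * |p + q| * |R| * |AB| ≤ T ^ 2 * |p + q| * |R| * 1 := by gcongr
        _ ≤ _ := by rw [mul_one]; gcongr
    have := (abs_le.1 h3).2
    have hsq : T ^ 2 * |p + q| * (|X| + T * |p + q| / 2) + T * (|X| - T * |p + q|) ^ 2 / 2 =
        T * X ^ 2 / 2 + T ^ 3 * (p + q) ^ 2 := by rw [← sq_abs X, ← sq_abs (p + q)]; ring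
    linarith [mul_nonneg hT (sq_nonneg (|X| - T * |p + q|))]
  have e3 : 0 ≤ t ^ 2 * (p - q) ^ 2 * (1 - 3 / 4 * AB * t - c * t ^ 2 / 4) := by
    refine mul_nonneg (by positivity) ?_
    have h4 : |AB * t| ≤ T := by rw [abs_mul]; exact mul_le_of_le_one_left hT hAB
    have h5 : |c * t ^ 2| ≤ t ^ 2 := by
      rw [abs_mul, abs_of_nonneg (sq_nonneg t)]; exact mul_le_of_le_one_left (sq_nonneg t) hc
    nlinarith [abs_le.1 h4, abs_le.1 h5]
  have e4 : T ^ 3 * (p + q) ^ 2 ≤ 2 * (T ^ 3 * (p ^ 2 + q ^ 2)) := by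
    nlinarith [mul_nonneg (pow_nonneg hT 3) (sq_nonneg (p - q))]
  have key : R ^ 2 * (1 + t * AB + t ^ 2 * c) + t * (p + q) * R * (1 - t * AB) +
      t ^ 2 * ((p - q) ^ 2 / 4 - p * q) - 3 / 4 * AB * t ^ 3 * (p - q) ^ 2 -
      c * t ^ 4 * (p - q) ^ 2 / 4 + t ^ 2 * (p ^ 2 + q ^ 2) =
      X ^ 2 + R ^ 2 * (t * AB + t ^ 2 * c) + -(t ^ 2 * (p + q) * R * AB) +
      t ^ 2 * (p - q) ^ 2 * (1 - 3 / 4 * AB * t - c * t ^ 2 / 4) := by simp only [X]; ring
  have e5 : T * t ^ 2 * (p + q) ^ 2 = T ^ 3 * (p + q) ^ 2 := by rw [ht2]; ring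
  have e6 : 4 * T * t ^ 2 * (p ^ 2 + q ^ 2) = 4 * (T ^ 3 * (p ^ 2 + q ^ 2)) := by rw [ht2]; ring
  linarith [mul_nonneg (show (0:ℝ) ≤ 1 / 2 - 5 * T by linarith) (sq_nonneg X), sq_nonneg X,
    mul_nonneg hT (sq_nonneg X)]

/-- The exact polynomial identity. -/
lemma bracket_eq (A B t U V S T R : ℝ) (hR : R = (S + T) / 2)
    (hT : T = S + t * (A * U - B * V)) :
    psum (fun x y => (x * y * (1 - t * (x * y)) +
        (1 + A * x) * (1 + B * y) * (t * (1 + t * (x * y - A * y - B * x)))) *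
        ((U + S * y) * (V + T * x))) =
      4 * (R ^ 2 * (1 + t * (A * B) + t ^ 2 * (1 - A ^ 2 - B ^ 2)) +
        t * (A * U + B * V) * R * (1 - t * (A * B)) +
        t ^ 2 * ((A * U - B * V) ^ 2 / 4 - A * U * (B * V)) -
        3 / 4 * (A * B) * t ^ 3 * (A * U - B * V) ^ 2 -
        (1 - A ^ 2 - B ^ 2) * t ^ 4 * (A * U - B * V) ^ 2 / 4) := by
  subst hR hT
  simp only [psum]; ring

lemma rho_bound {A B t J x y : ℝ} (hA : |A| ≤ 1) (hB : |B| ≤ 1) (hJ : |J| ≤ 1 / 20)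
    (hJt : |t - J| ≤ 3 * |J| ^ 3) (hx : x = 1 ∨ x = -1) (hy : y = 1 ∨ y = -1) :
    |J * (1 - t ^ 2) * (1 + t * (x * y)) / ((1 + A * t * y) * (1 + B * t * x)) -
      t * (1 + t * (x * y - A * y - B * x))| ≤ 18 * |J| ^ 3 := by
  have hT : |t| ≤ 1.008 * |J| := by
    have := abs_sub_abs_le_abs_sub t J
    nlinarith [abs_nonneg J, mul_le_mul hJ hJ (abs_nonneg J) (by norm_num)]
  have hT3 : |t| ^ 3 ≤ 1.025 * |J| ^ 3 :=
    (pow_le_pow_left₀ (abs_nonneg t) hT 3).trans (by nlinarith [pow_nonneg (abs_nonneg J) 3])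
  have ht : |t| ≤ 1 / 19 := by linarith
  have hx1 : |x| = 1 := by rcases hx with rfl | rfl <;> norm_num
  have hy1 : |y| = 1 := by rcases hy with rfl | rfl <;> norm_num
  have ha : |A * t * y| ≤ 1 / 19 := by
    rw [abs_mul, abs_mul, hy1, mul_one]; exact (mul_le_of_le_one_left (abs_nonneg t) hA).trans ht
  have hb : |B * t * x| ≤ 1 / 19 := by
    rw [abs_mul, abs_mul, hx1, mul_one]; exact (mul_le_of_le_one_left (abs_nonneg t) hB).trans ht
  have hden : 8 / 9 ≤ (1 + A * t * y) * (1 + B * t * x) := by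
    nlinarith [abs_le.1 ha, abs_le.1 hb]
  set D := (1 + A * t * y) * (1 + B * t * x)
  have hD : 0 < D := by linarith
  set G := x * y - A * y - B * x
  set M := G * (A * y + B * x) + A * B * (x * y)
  have key : J * (1 - t ^ 2) * (1 + t * (x * y)) - t * (1 + t * G) * D =
      (J - t) * ((1 - t ^ 2) * (1 + t * (x * y))) - t ^ 3 * (1 + M) -
        t ^ 4 * (x * y + G * (A * B * (x * y))) := by
    simp only [D, G, M]; ring
  rw [show J * (1 - t ^ 2) * (1 + t * (x * y)) / D - t * (1 + t * G) =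
      (J * (1 - t ^ 2) * (1 + t * (x * y)) - t * (1 + t * G) * D) / D by field_simp,
    abs_div, abs_of_pos hD, div_le_iff₀ hD, key]
  have hxy : |x * y| = 1 := by rw [abs_mul, hx1, hy1, one_mul]
  have hAy : |A * y| ≤ 1 := by rw [abs_mul, hy1, mul_one]; exact hA
  have hBx : |B * x| ≤ 1 := by rw [abs_mul, hx1, mul_one]; exact hB
  have hG : |G| ≤ 3 := by
    have := abs_sub (x * y - A * y) (B * x); have := abs_sub (x * y) (A * y); linarith
  have hABxy : |A * B * (x * y)| ≤ 1 := by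
    rw [abs_mul, hxy, mul_one, abs_mul]; exact mul_le_one₀ hA (abs_nonneg _) hB
  have hM : |M| ≤ 7 := by
    refine (abs_add_le _ _).trans ?_
    rw [abs_mul]
    have := abs_add_le (A * y) (B * x)
    nlinarith [abs_nonneg G]
  have hN : |x * y + G * (A * B * (x * y))| ≤ 4 := by
    refine (abs_add_le _ _).trans ?_
    rw [abs_mul G]; nlinarith [abs_nonneg G]
  have hP : |(1 - t ^ 2) * (1 + t * (x * y))| ≤ 20 / 19 := by
    rw [abs_mul]
    refine (mul_le_mul (b := 1) ?_ ((abs_add_le _ _).trans (c := 20/19) ?_) (abs_nonneg _) ?_).trans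
      (by norm_num)
    · rw [abs_le]; constructor <;> nlinarith [sq_abs t, abs_nonneg t]
    · rw [abs_one, abs_mul, hxy, mul_one]; linarith
    · norm_num
  have q1 : |(J - t) * ((1 - t ^ 2) * (1 + t * (x * y)))| ≤ 3 * |J| ^ 3 * (20 / 19) := by
    rw [abs_mul, abs_sub_comm J t]; exact mul_le_mul hJt hP (abs_nonneg _) (by positivity)
  have q2 : |t ^ 3 * (1 + M)| ≤ |t| ^ 3 * 8 := by
    rw [abs_mul, abs_pow]; gcongr
    linarith [abs_add_le (1:ℝ) M, abs_one (α := ℝ)]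
  have q3 : |t ^ 4 * (x * y + G * (A * B * (x * y)))| ≤ |t| ^ 3 * (4 / 19) := by
    rw [abs_mul, abs_pow, pow_succ, mul_assoc]; gcongr
    calc |t| * |x * y + G * (A * B * (x * y))| ≤ 1 / 19 * 4 :=
          mul_le_mul ht hN (abs_nonneg _) (by norm_num)
      _ = _ := by norm_num
  have q4 := abs_sub ((J - t) * ((1 - t ^ 2) * (1 + t * (x * y))) - t ^ 3 * (1 + M))
    (t ^ 4 * (x * y + G * (A * B * (x * y))))
  have q5 := abs_sub ((J - t) * ((1 - t ^ 2) * (1 + t * (x * y)))) (t ^ 3 * (1 + M))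
  have q6 := mul_le_mul_of_nonneg_left hden (by positivity : 0 ≤ 18 * |J| ^ 3)
  linarith [pow_nonneg (abs_nonneg J) 3]

lemma penalty_bound {A t J y : ℝ} (hA : |A| ≤ 1) (hJ : |J| ≤ 1 / 20)
    (hJt : |t - J| ≤ 3 * |J| ^ 3) (hy : y = 1 ∨ y = -1) :
    t ^ 2 * A ^ 2 + 14 * |J| ^ 3 ≤ (1 + A * t * y) * (1 - t ^ 2) *
      (J ^ 2 * ((A + t * y) / (1 + A * t * y)) ^ 2 + 30 * |J| ^ 3) := by
  have hT : |t| ≤ 1.008 * |J| := by
    have := abs_sub_abs_le_abs_sub t J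
    nlinarith [abs_nonneg J, mul_le_mul hJ hJ (abs_nonneg J) (by norm_num)]
  have ht : |t| ≤ 1 / 19 := by linarith
  set s := t * y
  have hs : |s| = |t| := by rcases hy with rfl | rfl <;> simp [s]
  have e : A * t * y = A * s := by simp only [s]; ring
  rw [e]
  have has : |A * s| ≤ |t| := by rw [abs_mul, hs]; exact mul_le_of_le_one_left (abs_nonneg t) hA
  have hden : 0 < 1 + A * s := by linarith [neg_abs_le (A * s)]
  have hA2 : A ^ 2 ≤ 1 := by rw [← sq_abs]; exact pow_le_one₀ (abs_nonneg A) hA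
  have ht2 : t ^ 2 ≤ |t| / 19 := by rw [← sq_abs]; nlinarith [abs_nonneg t]
  have h1 : A ^ 2 - 5 * |t| ≤ (1 - t ^ 2) * (A + s) ^ 2 / (1 + A * s) := by
    rw [le_div_iff₀ hden]
    have ha := abs_le.1 has
    have h0 : A ^ 2 - 2 * |t| ≤ (A + s) ^ 2 := by nlinarith [abs_le.1 has, sq_nonneg s]
    rcases le_or_gt (A ^ 2 - 5 * |t|) 0 with hneg | hpos
    · refine (mul_nonpos_of_nonpos_of_nonneg hneg hden.le).trans ?_
      exact mul_nonneg (by nlinarith [abs_nonneg t]) (sq_nonneg _)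
    · calc (A ^ 2 - 5 * |t|) * (1 + A * s) ≤ (A ^ 2 - 5 * |t|) * (1 + |t|) :=
            mul_le_mul_of_nonneg_left (by linarith) hpos.le
        _ ≤ (1 - t ^ 2) * (A ^ 2 - 2 * |t|) := by
            nlinarith [mul_le_mul hA2 ht2 (sq_nonneg t) zero_le_one,
              mul_le_mul_of_nonneg_right hA2 (abs_nonneg t), sq_abs t, abs_nonneg t]
        _ ≤ _ := mul_le_mul_of_nonneg_left h0 (by nlinarith [abs_nonneg t])
  have h2 : t ^ 2 ≤ J ^ 2 + 7 * |J| ^ 4 := by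
    have h3 : t ^ 2 - J ^ 2 ≤ |t - J| * |t + J| := by
      rw [← abs_mul]; exact le_trans (le_of_eq (by ring)) (le_abs_self _)
    have h4 : |t + J| ≤ 2.01 * |J| := by linarith [abs_add_le t J, abs_nonneg J]
    nlinarith [mul_le_mul hJt h4 (abs_nonneg _) (by positivity), pow_nonneg (abs_nonneg J) 4]
  have h5 : (8/9 : ℝ) ≤ (1 + A * s) * (1 - t ^ 2) := by
    nlinarith [abs_le.1 has, abs_nonneg t]
  have hJ3 := pow_nonneg (abs_nonneg J) 3
  calc t ^ 2 * A ^ 2 + 14 * |J| ^ 3 ≤ J ^ 2 * A ^ 2 + 7 * |J| ^ 4 + 14 * |J| ^ 3 := by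
        nlinarith [mul_le_mul_of_nonneg_right h2 (sq_nonneg A),
          mul_le_mul_of_nonneg_left hA2 (by positivity : (0:ℝ) ≤ 7 * |J| ^ 4)]
    _ ≤ J ^ 2 * (A ^ 2 - 5 * |t|) + 30 * |J| ^ 3 * (8 / 9) := by
        nlinarith [mul_le_mul_of_nonneg_left hT (sq_nonneg J), sq_abs J,
          mul_le_mul_of_nonneg_left hJ hJ3]
    _ ≤ J ^ 2 * ((1 - t ^ 2) * (A + s) ^ 2 / (1 + A * s)) +
        30 * |J| ^ 3 * ((1 + A * s) * (1 - t ^ 2)) := by gcongr
    _ = _ := by field_simp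

/-- Lower bound for one term of the pair sum, with the exact second-order terms isolated. -/
noncomputable def lowTerm (A B t J U S V T x y : ℝ) : ℝ :=
  (1 - A ^ 2) * (1 - B ^ 2) * (1 - t ^ 2) * ((x * y * (1 - t * (x * y)) +
        (1 + A * x) * (1 + B * y) * (t * (1 + t * (x * y - A * y - B * x)))) *
        ((U + S * y) * (V + T * x)) -
      9 * |J| ^ 3 * ((1 + A * x) * (1 + B * y) * ((U + S * y) ^ 2 + (V + T * x) ^ 2))) +
    (t ^ 2 * A ^ 2 + 14 * |J| ^ 3) *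
      ((1 - A ^ 2) * ((1 + A * x) * (1 + B * y) * (U + S * y) ^ 2)) +
    (t * (x * y - A * y)) * ((J ^ 2 * ((A + t * y) / (1 + A * t * y)) ^ 2 + 30 * |J| ^ 3) *
      ((1 - A ^ 2) * (1 - t ^ 2) * ((1 + A * x) * (1 + B * y) * (U + S * y) ^ 2))) +
    (t ^ 2 * B ^ 2 + 14 * |J| ^ 3) *
      ((1 - B ^ 2) * ((1 + A * x) * (1 + B * y) * (V + T * x) ^ 2)) +
    (t * (x * y - B * x)) * ((J ^ 2 * ((B + t * x) / (1 + B * t * x)) ^ 2 + 30 * |J| ^ 3) *
      ((1 - B ^ 2) * (1 - t ^ 2) * ((1 + A * x) * (1 + B * y) * (V + T * x) ^ 2)))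

lemma sum_lowTerm_eq (A B t J U S V T : ℝ) :
    psum (lowTerm A B t J U S V T) =
      (1 - A ^ 2) * (1 - B ^ 2) * (1 - t ^ 2) * (psum (fun x y => (x * y * (1 - t * (x * y)) +
        (1 + A * x) * (1 + B * y) * (t * (1 + t * (x * y - A * y - B * x)))) *
        ((U + S * y) * (V + T * x))) -
        9 * |J| ^ 3 * (psum (fun x y => (1 + A * x) * (1 + B * y) * (U + S * y) ^ 2) +
          psum fun x y => (1 + A * x) * (1 + B * y) * (V + T * x) ^ 2)) +
      (t ^ 2 * A ^ 2 + 14 * |J| ^ 3) *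
        ((1 - A ^ 2) * psum fun x y => (1 + A * x) * (1 + B * y) * (U + S * y) ^ 2) +
      (t ^ 2 * B ^ 2 + 14 * |J| ^ 3) *
        ((1 - B ^ 2) * psum fun x y => (1 + A * x) * (1 + B * y) * (V + T * x) ^ 2) := by
  simp only [psum, lowTerm]
  generalize (J ^ 2 * ((A + t * 1) / (1 + A * t * 1)) ^ 2 + 30 * |J| ^ 3) = k1
  generalize (J ^ 2 * ((A + t * -1) / (1 + A * t * -1)) ^ 2 + 30 * |J| ^ 3) = k2
  generalize (J ^ 2 * ((B + t * 1) / (1 + B * t * 1)) ^ 2 + 30 * |J| ^ 3) = k3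
  generalize (J ^ 2 * ((B + t * -1) / (1 + B * t * -1)) ^ 2 + 30 * |J| ^ 3) = k4
  generalize |J| ^ 3 = J3
  ring

lemma sum_final {A B t J3 U V P1 P2 Br α β k E : ℝ} (hα : 0 ≤ α) (hβ : 0 ≤ β) (hα1 : α ≤ 1)
    (hβ1 : β ≤ 1) (hk0 : 0 ≤ k) (hk1 : k ≤ 1) (hA2 : A ^ 2 ≤ 1) (hB2 : B ^ 2 ≤ 1)
    (hP1 : 4 * (β * U ^ 2) ≤ P1) (hP2 : 4 * (α * V ^ 2) ≤ P2)
    (hbr : -(t ^ 2 * (1 + 4 * |t|) * ((A * U) ^ 2 + (B * V) ^ 2)) + E ^ 2 / 2 ≤ Br)
    (ht3 : 4 * |t| ^ 3 ≤ 5 * J3) :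
    α * β * k * (2 * E ^ 2) ≤ α * β * k * (4 * Br - 9 * J3 * (P1 + P2)) + (t ^ 2 * A ^ 2 + 14 * J3) * (α * P1) +
      (t ^ 2 * B ^ 2 + 14 * J3) * (β * P2) := by
  have q1 : 0 ≤ P1 := le_trans (by positivity) hP1
  have q2 : 0 ≤ P2 := le_trans (by positivity) hP2
  have hJ3 : 0 ≤ J3 := by linarith [pow_nonneg (abs_nonneg t) 3]
  have k2 : 0 ≤ α * β * k := by positivity
  have r1 : α * β * k * P1 ≤ α * P1 :=
    mul_le_mul_of_nonneg_right ((mul_le_of_le_one_right (by positivity) hk1).trans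
      (mul_le_of_le_one_right hα hβ1)) q1
  have r2 : α * β * k * P2 ≤ β * P2 :=
    mul_le_mul_of_nonneg_right ((mul_le_of_le_one_right (by positivity) hk1).trans
      (mul_le_of_le_one_left hβ hα1)) q2
  have r3 : α * β * k * (4 * ((A * U) ^ 2 + (B * V) ^ 2)) ≤
      A ^ 2 * (α * P1) + B ^ 2 * (β * P2) := by
    calc _ ≤ α * β * (4 * ((A * U) ^ 2 + (B * V) ^ 2)) :=
          mul_le_mul_of_nonneg_right (mul_le_of_le_one_right (by positivity) hk1) (by positivity)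
      _ = A ^ 2 * (α * (4 * (β * U ^ 2))) + B ^ 2 * (β * (4 * (α * V ^ 2))) := by ring
      _ ≤ _ := by gcongr
  have r4 : A ^ 2 * (α * P1) + B ^ 2 * (β * P2) ≤ α * P1 + β * P2 :=
    add_le_add (mul_le_of_le_one_left (by positivity) hA2)
      (mul_le_of_le_one_left (by positivity) hB2)
  have r6 := mul_le_mul_of_nonneg_left r3 (by positivity : 0 ≤ t ^ 2 * (1 + 4 * |t|))
  have r7 := mul_le_mul_of_nonneg_left (add_le_add r1 r2) (by positivity : 0 ≤ 9 * J3)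
  have r8 : 4 * |t| ^ 3 * (A ^ 2 * (α * P1) + B ^ 2 * (β * P2)) ≤ 5 * J3 * (α * P1 + β * P2) :=
    mul_le_mul ht3 r4 (by positivity) (by positivity)
  have r9 := mul_le_mul_of_nonneg_left hbr k2
  have e : t ^ 2 * |t| = |t| ^ 3 := by rw [← sq_abs t]; ring
  have r10 : t ^ 2 * |t| * (A ^ 2 * (α * P1) + B ^ 2 * (β * P2)) =
      |t| ^ 3 * (A ^ 2 * (α * P1) + B ^ 2 * (β * P2)) := by rw [e]
  linarith

lemma abs_le_of_close {t J : ℝ} (hJ : |J| ≤ 1 / 20) (hJt : |t - J| ≤ 3 * |J| ^ 3) :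
    |t| ≤ 1.008 * |J| ∧ |t| ≤ 1 / 19 := by
  have := abs_sub_abs_le_abs_sub t J
  have h : |t| ≤ 1.008 * |J| := by
    nlinarith [abs_nonneg J, mul_le_mul hJ hJ (abs_nonneg J) (by norm_num)]
  exact ⟨h, by linarith⟩

lemma sum_lowTerm_ge {A B t J U S V T : ℝ} (hA : |A| < 1) (hB : |B| < 1) (hJ : |J| ≤ 1 / 20)
    (hJt : |t - J| ≤ 3 * |J| ^ 3) (hST : T = S + t * (A * U - B * V)) :
    (1 - A ^ 2) * (1 - B ^ 2) * (1 - t ^ 2) *
        (2 * ((S + T) / 2 + t * (A * U + B * V) / 2) ^ 2) ≤ psum (lowTerm A B t J U S V T) := by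
  have hA2 : A ^ 2 ≤ 1 := (sq_le_one_iff_abs_le_one A).2 hA.le
  have hB2 : B ^ 2 ≤ 1 := (sq_le_one_iff_abs_le_one B).2 hB.le
  obtain ⟨hT, ht⟩ := abs_le_of_close hJ hJt
  rw [sum_lowTerm_eq, bracket_eq A B t U V S T _ rfl hST]
  refine sum_final (U := U) (V := V) (by linarith) (by linarith) (by linarith [sq_nonneg A])
    (by linarith [sq_nonneg B]) (by nlinarith [sq_abs t, abs_nonneg t])
    (by linarith [sq_nonneg t]) hA2 hB2 ?_ ?_ ?_ ?_
  · simp only [psum]; nlinarith [sq_nonneg (S + B * U)]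
  · simp only [psum]; nlinarith [sq_nonneg (T + A * V)]
  · exact poly_bound (p := A * U) (q := B * V) (by linarith)
      (by rw [abs_mul]; exact mul_le_one₀ hA.le (abs_nonneg _) hB.le)
      (abs_le.2 ⟨by linarith, by nlinarith [sq_nonneg A, sq_nonneg B]⟩)
  · have := pow_le_pow_left₀ (abs_nonneg t) hT 3
    nlinarith [pow_nonneg (abs_nonneg J) 3]

lemma main_comb {W z J F G D1 D2 P Q w1 w2 L1 L2 k r1 r2 M1 M2 ρ : ℝ}
    (m1 : W * z * P * (D1 * D2) = k * M1)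
    (m2 : z * (J * Q) * (D1 * D2) = k * (M2 + ρ))
    (m3 : w1 * D1 ^ 2 = r1) (m4 : w2 * D2 ^ 2 = r2) :
    W * z * (P * (D1 * F * (D2 * G)) + J * (Q * (D1 * F * (D2 * G))) + L1 * (w1 * (D1 * F) ^ 2) +
        L2 * (w2 * (D2 * G) ^ 2)) =
      k * ((M1 + W * M2) * (F * G) + W * (ρ * (F * G))) + z * (L1 * (r1 * (W * F ^ 2))) +
        z * (L2 * (r2 * (W * G ^ 2))) := by
  linear_combination (F * G) * m1 + (W * (F * G)) * m2 + (W * z * L1 * F ^ 2) * m3 +
    (W * z * L2 * G ^ 2) * m4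

lemma final_comb {A B t x y a b k M W J3 c1 c2 L1 L2 F G R : ℝ}
    (e2 : a * b * k * W * -(9 * J3 * (F ^ 2 + G ^ 2)) ≤ a * b * k * W * R)
    (e3 : c1 * (a * (W * F ^ 2)) ≤ (1 + A * t * y) * k * L1 * (a * (W * F ^ 2)))
    (e4 : c2 * (b * (W * G ^ 2)) ≤ (1 + B * t * x) * k * L2 * (b * (W * G ^ 2))) :
    a * b * k * (M * (F * G) - 9 * J3 * (W * (F ^ 2 + G ^ 2))) + c1 * (a * (W * F ^ 2)) +
        t * (x * y - A * y) * (L1 * (a * k * (W * F ^ 2))) + c2 * (b * (W * G ^ 2)) +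
        t * (x * y - B * x) * (L2 * (b * k * (W * G ^ 2))) ≤
      a * b * k * (M * (F * G) + W * R) + (1 + t * (x * y)) * (L1 * (a * k * (W * F ^ 2))) +
        (1 + t * (x * y)) * (L2 * (b * k * (W * G ^ 2))) := by
  linarith

lemma term_eq {A B t J x y F G τ τ' ρ : ℝ} (hxx : x ^ 2 = 1) (hyy : y ^ 2 = 1)
    (d1 : 1 + A * t * y ≠ 0) (d2 : 1 + B * t * x ≠ 0)
    (n1 : τ * (1 + A * t * y) = A + t * y) (n2 : τ' * (1 + B * t * x) = B + t * x)
    (n3 : ρ * ((1 + A * t * y) * (1 + B * t * x)) = J * (1 - t ^ 2) * (1 + t * (x * y)) -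
      t * (1 + t * (x * y - A * y - B * x)) * ((1 + A * t * y) * (1 + B * t * x))) :
    (1 + A * x) * (1 + B * y) * (1 + t * (x * y)) *
      ((x - τ) * (y - τ') * ((1 + A * t * y) * F * ((1 + B * t * x) * G)) +
        J * ((1 - τ ^ 2) * (1 - τ' ^ 2) * ((1 + A * t * y) * F * ((1 + B * t * x) * G))) +
        (J ^ 2 * τ ^ 2 + 30 * |J| ^ 3) * ((1 - τ ^ 2) * ((1 + A * t * y) * F) ^ 2) +
        (J ^ 2 * τ' ^ 2 + 30 * |J| ^ 3) * ((1 - τ' ^ 2) * ((1 + B * t * x) * G) ^ 2)) =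
      (1 - A ^ 2) * (1 - B ^ 2) * (1 - t ^ 2) * ((x * y * (1 - t * (x * y)) +
        (1 + A * x) * (1 + B * y) * (t * (1 + t * (x * y - A * y - B * x)))) * (F * G) +
        (1 + A * x) * (1 + B * y) * (ρ * (F * G))) +
      (1 + t * (x * y)) * ((J ^ 2 * τ ^ 2 + 30 * |J| ^ 3) *
        ((1 - A ^ 2) * (1 - t ^ 2) * ((1 + A * x) * (1 + B * y) * F ^ 2))) +
      (1 + t * (x * y)) * ((J ^ 2 * τ' ^ 2 + 30 * |J| ^ 3) *
        ((1 - B ^ 2) * (1 - t ^ 2) * ((1 + A * x) * (1 + B * y) * G ^ 2))) := by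
  have x1 : (1 + A * x) * ((x - τ) * (1 + A * t * y)) = (1 - A ^ 2) * x * (1 - t * (x * y)) := by
    linear_combination -(1 + A * x) * n1 + (A + t * y) * hxx
  have x2 : (1 + B * y) * ((y - τ') * (1 + B * t * x)) = (1 - B ^ 2) * y * (1 - t * (x * y)) := by
    linear_combination -(1 + B * y) * n2 + (B + t * x) * hyy
  have tx : (1 + t * (x * y)) * (1 - t * (x * y)) ^ 2 = (1 - t ^ 2) * (1 - t * (x * y)) := by
    linear_combination (-(1 - t * (x * y)) * t ^ 2 * y ^ 2) * hxx +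
      (-(1 - t * (x * y)) * t ^ 2) * hyy
  have m3 : (1 - τ ^ 2) * (1 + A * t * y) ^ 2 = (1 - A ^ 2) * (1 - t ^ 2) := by
    linear_combination -(τ * (1 + A * t * y) + (A + t * y)) * n1 + (A ^ 2 * t ^ 2 - t ^ 2) * hyy
  have m4 : (1 - τ' ^ 2) * (1 + B * t * x) ^ 2 = (1 - B ^ 2) * (1 - t ^ 2) := by
    linear_combination -(τ' * (1 + B * t * x) + (B + t * x)) * n2 + (B ^ 2 * t ^ 2 - t ^ 2) * hxx
  have m1 : (1 + A * x) * (1 + B * y) * (1 + t * (x * y)) * ((x - τ) * (y - τ')) *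
      ((1 + A * t * y) * (1 + B * t * x)) =
      (1 - A ^ 2) * (1 - B ^ 2) * (1 - t ^ 2) * (x * y * (1 - t * (x * y))) := by
    linear_combination (1 + t * (x * y)) * ((1 + B * y) * ((y - τ') * (1 + B * t * x))) * x1 +
      (1 + t * (x * y)) * ((1 - A ^ 2) * x * (1 - t * (x * y))) * x2 +
      ((1 - A ^ 2) * (1 - B ^ 2) * x * y) * tx
  have m2 : (1 + t * (x * y)) * (J * ((1 - τ ^ 2) * (1 - τ' ^ 2))) *
      ((1 + A * t * y) * (1 + B * t * x)) =
      (1 - A ^ 2) * (1 - B ^ 2) * (1 - t ^ 2) * (t * (1 + t * (x * y - A * y - B * x)) + ρ) := by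
    refine mul_right_cancel₀ (mul_ne_zero d1 d2) ?_
    linear_combination ((1 + t * (x * y)) * J * ((1 - τ' ^ 2) * (1 + B * t * x) ^ 2)) * m3 +
      ((1 + t * (x * y)) * J * ((1 - A ^ 2) * (1 - t ^ 2))) * m4 -
      (1 - A ^ 2) * (1 - B ^ 2) * (1 - t ^ 2) * n3
  exact main_comb m1 m2 m3 m4

lemma rho_term {J ρ F G : ℝ} (hρ : |ρ| ≤ 18 * |J| ^ 3) :
    -(9 * |J| ^ 3 * (F ^ 2 + G ^ 2)) ≤ ρ * (F * G) := by
  have h1 : |ρ * (F * G)| ≤ 18 * |J| ^ 3 * ((F ^ 2 + G ^ 2) / 2) := by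
    rw [abs_mul]
    refine mul_le_mul hρ ?_ (abs_nonneg _) (by positivity)
    rw [abs_le]; constructor <;> nlinarith [sq_nonneg (F + G), sq_nonneg (F - G)]
  linarith [(abs_le.1 h1).1]

lemma lowTerm_le {A B t J U S V T x y : ℝ} (hA : |A| < 1) (hB : |B| < 1) (hJ : |J| ≤ 1 / 20)
    (hJt : |t - J| ≤ 3 * |J| ^ 3) (hx : x = 1 ∨ x = -1) (hy : y = 1 ∨ y = -1)
    (hd1 : 0 < 1 + A * t * y) (hd2 : 0 < 1 + B * t * x) :
    lowTerm A B t J U S V T x y ≤ (1 + A * x) * (1 + B * y) * (1 + t * (x * y)) *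
      ((x - (A + t * y) / (1 + A * t * y)) * (y - (B + t * x) / (1 + B * t * x)) *
          ((1 + A * t * y) * (U + S * y) * ((1 + B * t * x) * (V + T * x))) +
        J * ((1 - ((A + t * y) / (1 + A * t * y)) ^ 2) * (1 - ((B + t * x) / (1 + B * t * x)) ^ 2) *
          ((1 + A * t * y) * (U + S * y) * ((1 + B * t * x) * (V + T * x)))) +
        (J ^ 2 * ((A + t * y) / (1 + A * t * y)) ^ 2 + 30 * |J| ^ 3) *
          ((1 - ((A + t * y) / (1 + A * t * y)) ^ 2) * ((1 + A * t * y) * (U + S * y)) ^ 2) +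
        (J ^ 2 * ((B + t * x) / (1 + B * t * x)) ^ 2 + 30 * |J| ^ 3) *
          ((1 - ((B + t * x) / (1 + B * t * x)) ^ 2) * ((1 + B * t * x) * (V + T * x)) ^ 2)) := by
  have hxx : x ^ 2 = 1 := by rcases hx with rfl | rfl <;> norm_num
  have hyy : y ^ 2 = 1 := by rcases hy with rfl | rfl <;> norm_num
  have hAx : 0 ≤ 1 + A * x := by
    rcases hx with rfl | rfl <;> linarith [le_abs_self A, neg_abs_le A]
  have hBy : 0 ≤ 1 + B * y := by
    rcases hy with rfl | rfl <;> linarith [le_abs_self B, neg_abs_le B]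
  have hA2 : 0 ≤ 1 - A ^ 2 := by linarith [(sq_le_one_iff_abs_le_one A).2 hA.le]
  have hB2 : 0 ≤ 1 - B ^ 2 := by linarith [(sq_le_one_iff_abs_le_one B).2 hB.le]
  have ht2 : 0 ≤ 1 - t ^ 2 := by
    linarith [(sq_le_one_iff_abs_le_one t).2 ((abs_le_of_close hJ hJt).2.trans (by norm_num))]
  have n3 := fun (ρ : ℝ) (h : ρ = J * (1 - t ^ 2) * (1 + t * (x * y)) /
      ((1 + A * t * y) * (1 + B * t * x)) - t * (1 + t * (x * y - A * y - B * x))) =>
    show ρ * ((1 + A * t * y) * (1 + B * t * x)) = J * (1 - t ^ 2) * (1 + t * (x * y)) -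
      t * (1 + t * (x * y - A * y - B * x)) * ((1 + A * t * y) * (1 + B * t * x)) by
      rw [h, sub_mul, div_mul_cancel₀ _ (mul_ne_zero hd1.ne' hd2.ne')]
  rw [term_eq hxx hyy hd1.ne' hd2.ne' (div_mul_cancel₀ _ hd1.ne') (div_mul_cancel₀ _ hd2.ne')
    (n3 _ rfl)]
  exact final_comb
    (mul_le_mul_of_nonneg_left (rho_term (rho_bound hA.le hB.le hJ hJt hx hy)) (by positivity))
    (mul_le_mul_of_nonneg_right (penalty_bound hA.le hJ hJt hy) (by positivity))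
    (mul_le_mul_of_nonneg_right (penalty_bound hB.le hJ hJt hx) (by positivity))

lemma cross_le {A B t C : ℝ} (hA : |A| < 1) (hB : |B| < 1) (ht : |t| ≤ 1 / 19) :
    psum (fun x y => (1 + A * x) * (1 + B * y) * (1 + t * (x * y)) *
      ((1 - ((A + t * y) / (1 + A * t * y)) ^ 2) * (1 - ((B + t * x) / (1 + B * t * x)) ^ 2) *
        C ^ 2 / 4)) ≤ (1 - A ^ 2) * (1 - B ^ 2) * (1 - t ^ 2) * (2 * C ^ 2) := by
  have hab : 0 ≤ (1 - A ^ 2) * (1 - B ^ 2) := mul_nonneg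
    (by linarith [(sq_le_one_iff_abs_le_one A).2 hA.le])
    (by linarith [(sq_le_one_iff_abs_le_one B).2 hB.le])
  have ht2 : 0 ≤ 1 - t ^ 2 := by nlinarith [sq_abs t, abs_nonneg t]
  have hd : ∀ {E y : ℝ}, |E| < 1 → (y = 1 ∨ y = -1) → 18 / 19 ≤ 1 + E * t * y := by
    intro E y hE hy
    have : |E * t * y| ≤ |t| := by
      rcases hy with rfl | rfl <;> simpa [abs_mul] using
        mul_le_of_le_one_left (abs_nonneg t) hE.le
    linarith [neg_abs_le (E * t * y)]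
  calc _ ≤ psum (fun x y => (1 + A * x) * (1 + B * y) *
        ((1 - A ^ 2) * (1 - B ^ 2) * (1 - t ^ 2) * (C ^ 2 / 2))) := psum_mono fun x y hx hy => by
          have d1 := hd hA hy
          have d2 := hd hB hx
          have hAx : 0 ≤ 1 + A * x := by
            rcases hx with rfl | rfl <;> linarith [le_abs_self A, neg_abs_le A]
          have hBy : 0 ≤ 1 + B * y := by
            rcases hy with rfl | rfl <;> linarith [le_abs_self B, neg_abs_le B]
          have hxx : x ^ 2 = 1 := by rcases hx with rfl | rfl <;> norm_num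
          have hyy : y ^ 2 = 1 := by rcases hy with rfl | rfl <;> norm_num
          have e1 : 1 - ((A + t * y) / (1 + A * t * y)) ^ 2 =
              (1 - A ^ 2) * (1 - t ^ 2) / (1 + A * t * y) ^ 2 := by
            field_simp
            linear_combination (A ^ 2 * t ^ 2 - t ^ 2) * hyy
          have e2 : 1 - ((B + t * x) / (1 + B * t * x)) ^ 2 =
              (1 - B ^ 2) * (1 - t ^ 2) / (1 + B * t * x) ^ 2 := by
            field_simp
            linear_combination (B ^ 2 * t ^ 2 - t ^ 2) * hxx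
          have hz : (1 + t * (x * y)) * (1 - t ^ 2) ≤
              2 * ((1 + A * t * y) ^ 2 * (1 + B * t * x) ^ 2) := by
            have h1 : (18 / 19 : ℝ) ^ 2 * (18 / 19) ^ 2 ≤
                (1 + A * t * y) ^ 2 * (1 + B * t * x) ^ 2 := by gcongr
            have h2 : t * (x * y) ≤ |t| := by
              rcases hx with rfl | rfl <;> rcases hy with rfl | rfl <;>
                linarith [le_abs_self t, neg_abs_le t]
            nlinarith [sq_nonneg t, abs_le.1 ht]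
          rw [e1, e2, mul_assoc _ (1 + t * (x * y))]
          refine mul_le_mul_of_nonneg_left ?_ (mul_nonneg hAx hBy)
          rw [show (1 + t * (x * y)) * ((1 - A ^ 2) * (1 - t ^ 2) / (1 + A * t * y) ^ 2 *
              ((1 - B ^ 2) * (1 - t ^ 2) / (1 + B * t * x) ^ 2) * C ^ 2 / 4) =
              (1 + t * (x * y)) * (1 - t ^ 2) * ((1 - A ^ 2) * (1 - B ^ 2) * (1 - t ^ 2) *
                C ^ 2 / 4) / ((1 + A * t * y) ^ 2 * (1 + B * t * x) ^ 2) by field_simp,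
            div_le_iff₀ (by positivity)]
          calc _ ≤ 2 * ((1 + A * t * y) ^ 2 * (1 + B * t * x) ^ 2) *
              ((1 - A ^ 2) * (1 - B ^ 2) * (1 - t ^ 2) * C ^ 2 / 4) :=
                mul_le_mul_of_nonneg_right hz (by positivity)
            _ = _ := by ring
    _ = _ := by simp only [psum]; ring

/-- Algebraic form of the pair lemma: `A, B, t` are the hyperbolic tangents of the two fields and
the coupling. -/
lemma pair_alg {A B t J u v C : ℝ} (hA : |A| < 1) (hB : |B| < 1) (hJ : |J| ≤ 1 / 20)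
    (hJt : |t - J| ≤ 3 * |J| ^ 3) :
    psum (fun x y => (1 + A * x) * (1 + B * y) * (1 + t * (x * y)) *
      ((1 - ((A + t * y) / (1 + A * t * y)) ^ 2) * (1 - ((B + t * x) / (1 + B * t * x)) ^ 2) *
        C ^ 2 / 4)) ≤
    psum fun x y => (1 + A * x) * (1 + B * y) * (1 + t * (x * y)) *
      ((x - (A + t * y) / (1 + A * t * y)) * (y - (B + t * x) / (1 + B * t * x)) *
          ((u + C * y) * (v + C * x)) +
        J * ((1 - ((A + t * y) / (1 + A * t * y)) ^ 2) * (1 - ((B + t * x) / (1 + B * t * x)) ^ 2) *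
          ((u + C * y) * (v + C * x))) +
        (J ^ 2 * ((A + t * y) / (1 + A * t * y)) ^ 2 + 30 * |J| ^ 3) *
          ((1 - ((A + t * y) / (1 + A * t * y)) ^ 2) * (u + C * y) ^ 2) +
        (J ^ 2 * ((B + t * x) / (1 + B * t * x)) ^ 2 + 30 * |J| ^ 3) *
          ((1 - ((B + t * x) / (1 + B * t * x)) ^ 2) * (v + C * x) ^ 2)) := by
  obtain ⟨hT, ht⟩ := abs_le_of_close hJ hJt
  have hd : ∀ {E y : ℝ}, |E| < 1 → (y = 1 ∨ y = -1) → 0 < 1 + E * t * y := by
    intro E y hE hy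
    have : |E * t * y| ≤ |t| := by
      rcases hy with rfl | rfl <;> simpa [abs_mul] using
        mul_le_of_le_one_left (abs_nonneg t) hE.le
    linarith [neg_abs_le (E * t * y)]
  have da := hd hA (.inl rfl); have da' := hd hA (.inr rfl)
  have db := hd hB (.inl rfl); have db' := hd hB (.inr rfl)
  obtain ⟨U, hU⟩ : ∃ U, U = ((u + C) / (1 + A * t * 1) + (u - C) / (1 + A * t * -1)) / 2 := ⟨_, rfl⟩
  obtain ⟨S, hS⟩ : ∃ S, S = ((u + C) / (1 + A * t * 1) - (u - C) / (1 + A * t * -1)) / 2 := ⟨_, rfl⟩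
  obtain ⟨V, hV⟩ : ∃ V, V = ((v + C) / (1 + B * t * 1) + (v - C) / (1 + B * t * -1)) / 2 := ⟨_, rfl⟩
  obtain ⟨T, hT'⟩ : ∃ T, T = ((v + C) / (1 + B * t * 1) - (v - C) / (1 + B * t * -1)) / 2 := ⟨_, rfl⟩
  have eu : ∀ y : ℝ, (y = 1 ∨ y = -1) → u + C * y = (1 + A * t * y) * (U + S * y) := by
    intro y hy
    have h1 : U + S = (u + C) / (1 + A * t * 1) := by rw [hU, hS]; ring
    have h2 : U - S = (u - C) / (1 + A * t * -1) := by rw [hU, hS]; ring
    rw [eq_div_iff da.ne'] at h1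
    rw [eq_div_iff da'.ne'] at h2
    rcases hy with rfl | rfl
    · linear_combination -h1
    · linear_combination -h2
  have ev : ∀ x : ℝ, (x = 1 ∨ x = -1) → v + C * x = (1 + B * t * x) * (V + T * x) := by
    intro x hx
    have h1 : V + T = (v + C) / (1 + B * t * 1) := by rw [hV, hT']; ring
    have h2 : V - T = (v - C) / (1 + B * t * -1) := by rw [hV, hT']; ring
    rw [eq_div_iff db.ne'] at h1
    rw [eq_div_iff db'.ne'] at h2
    rcases hx with rfl | rfl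
    · linear_combination -h1
    · linear_combination -h2
  have hST : T = S + t * (A * U - B * V) := by
    linear_combination (eu 1 (.inl rfl) - eu (-1) (.inr rfl)) / 2 -
      (ev 1 (.inl rfl) - ev (-1) (.inr rfl)) / 2
  have hC1 : C = S + t * (A * U) := by
    linear_combination (eu 1 (.inl rfl) - eu (-1) (.inr rfl)) / 2
  have hX : (S + T) / 2 + t * (A * U + B * V) / 2 = C := by
    linear_combination -hC1 + hST / 2
  refine le_trans (cross_le hA hB ht) (le_trans (le_of_eq (by rw [hX]))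
    ((sum_lowTerm_ge hA hB hJ hJt hST).trans (psum_mono fun x y hx hy => ?_)))
  rw [eu y hy, ev x hx]
  exact lowTerm_le hA hB hJ hJt hx hy (hd hA hy) (hd hB hx)

lemma abs_tanh_sub_self {J : ℝ} (hJ : |J| ≤ 1 / 20) : |Real.tanh J - J| ≤ 3 * |J| ^ 3 := by
  set e := Real.exp (2 * J)
  have ht : Real.tanh J = (e - 1) / (e + 1) := by
    rw [Real.tanh_eq_sinh_div_cosh, Real.sinh_eq, Real.cosh_eq]
    have he : e = Real.exp J * Real.exp J := by simp [e, ← Real.exp_add]; ring_nf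
    rw [he, Real.exp_neg]; field_simp
  have hb := Real.exp_bound (x := 2 * J) (by rw [abs_mul, abs_two]; linarith) (n := 3) (by norm_num)
  simp [Finset.sum_range_succ, Nat.factorial, abs_mul] at hb
  have he1 : 1.8 ≤ e + 1 := by
    have := Real.add_one_le_exp (2 * J); linarith [neg_abs_le J]
  rw [ht, show (e - 1) / (e + 1) - J = (e - 1 - J * (e + 1)) / (e + 1) by field_simp, abs_div,
    abs_of_pos (by linarith : 0 < e + 1), div_le_iff₀ (by linarith)]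
  set r := e - (1 + 2 * J + (2 * J) ^ 2 / 2)
  have hr : |r| ≤ 3 * |J| ^ 3 := by
    refine hb.trans ?_; nlinarith [pow_nonneg (abs_nonneg J) 3]
  rw [show e - 1 - J * (e + 1) = r * (1 - J) - 2 * J ^ 3 by simp only [r]; ring]
  refine (abs_sub _ _).trans ?_
  rw [abs_mul, abs_mul, abs_two, abs_pow]
  have : |1 - J| ≤ 21 / 20 := by
    rw [abs_le]; constructor <;> linarith [le_abs_self J, neg_abs_le J]
  nlinarith [mul_le_mul hr this (abs_nonneg _) (by positivity : (0:ℝ) ≤ 3 * |J| ^ 3),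
    mul_le_mul_of_nonneg_left he1 (by positivity : 0 ≤ 3 * |J| ^ 3), pow_nonneg (abs_nonneg J) 3]

lemma abs_tanh_lt_one (a : ℝ) : |Real.tanh a| < 1 := Real.abs_tanh_lt_one a

lemma tanh_add_pm (a J : ℝ) {y : ℝ} (hy : y = 1 ∨ y = -1) :
    Real.tanh (a + J * y) =
      (Real.tanh a + Real.tanh J * y) / (1 + Real.tanh a * Real.tanh J * y) := by
  rcases hy with rfl | rfl <;>
  · simp only [Real.tanh_eq_sinh_div_cosh, mul_one, mul_neg, Real.sinh_add, Real.cosh_add,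
      Real.sinh_neg, Real.cosh_neg]
    have := Real.cosh_pos a; have := Real.cosh_pos J
    field_simp

lemma exp_eq_tanh (a : ℝ) {x : ℝ} (hx : x = 1 ∨ x = -1) :
    Real.exp (a * x) = Real.cosh a * (1 + Real.tanh a * x) := by
  rw [mul_add, mul_one, ← mul_assoc, Real.tanh_eq_sinh_div_cosh,
    mul_div_cancel₀ _ (Real.cosh_pos a).ne']
  rcases hx with rfl | rfl <;> simp only [mul_one, mul_neg]
  · rw [Real.cosh_add_sinh]
  · rw [← sub_eq_add_neg, Real.cosh_sub_sinh]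

/-- **The pair lemma.** For two spins with law `∝ exp(a x + b y + J x y)` and derivatives
`u + C y`, `v + C x`, the first-order expansion of the cross term of `E[(Hf)²]` holds up to a
second-order error that vanishes where the conditional variance is maximal, with a quarter of
the squared second derivative to spare. -/
theorem pair_lemma {a b J u v C : ℝ} (hJ : |J| ≤ 1 / 20) :
    psum (fun x y => Real.exp (a * x + b * y + J * (x * y)) *
      ((1 - Real.tanh (a + J * y) ^ 2) * (1 - Real.tanh (b + J * x) ^ 2) * C ^ 2 / 4)) ≤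
    psum fun x y => Real.exp (a * x + b * y + J * (x * y)) *
      ((x - Real.tanh (a + J * y)) * (y - Real.tanh (b + J * x)) * ((u + C * y) * (v + C * x)) +
        J * ((1 - Real.tanh (a + J * y) ^ 2) * (1 - Real.tanh (b + J * x) ^ 2) *
          ((u + C * y) * (v + C * x))) +
        (J ^ 2 * Real.tanh (a + J * y) ^ 2 + 30 * |J| ^ 3) *
          ((1 - Real.tanh (a + J * y) ^ 2) * (u + C * y) ^ 2) +
        (J ^ 2 * Real.tanh (b + J * x) ^ 2 + 30 * |J| ^ 3) *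
          ((1 - Real.tanh (b + J * x) ^ 2) * (v + C * x) ^ 2)) := by
  have h := pair_alg (u := u) (v := v) (C := C) (abs_tanh_lt_one a) (abs_tanh_lt_one b) hJ
    (abs_tanh_sub_self hJ)
  have hk : 0 ≤ Real.cosh a * Real.cosh b * Real.cosh J := by positivity
  have key : ∀ x y : ℝ, (x = 1 ∨ x = -1) → (y = 1 ∨ y = -1) →
      Real.exp (a * x + b * y + J * (x * y)) = Real.cosh a * Real.cosh b * Real.cosh J *
        ((1 + Real.tanh a * x) * (1 + Real.tanh b * y) * (1 + Real.tanh J * (x * y))) := by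
    intro x y hx hy
    have hxy : x * y = 1 ∨ x * y = -1 := by
      rcases hx with rfl | rfl <;> rcases hy with rfl | rfl <;> norm_num
    rw [Real.exp_add, Real.exp_add, exp_eq_tanh a hx, exp_eq_tanh b hy, exp_eq_tanh J hxy]; ring
  refine le_trans (le_of_eq ?_) ((mul_le_mul_of_nonneg_left h hk).trans (le_of_eq ?_))
  all_goals
    simp only [psum]
    simp only [tanh_add_pm a J (.inl rfl), tanh_add_pm a J (.inr rfl), tanh_add_pm b J (.inl rfl),
      tanh_add_pm b J (.inr rfl), key 1 1 (.inl rfl) (.inl rfl), key 1 (-1) (.inl rfl) (.inr rfl),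
      key (-1) 1 (.inr rfl) (.inl rfl), key (-1) (-1) (.inr rfl) (.inr rfl)]
    ring

end Vale.Agent.P150.Gap
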