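import Vale.Agent.P150.Gap.Model
import Vale.Agent.P150.Gap.PairLemma

/-!
A Poincaré inequality, uniform in the external field, for heat-bath dynamics of an Ising model
whose coupling matrix has quadratic form below one.
-/

open Finset

namespace Vale.Agent.P150.Gap

variable {n : ℕ}

/-- The spin value of a Boolean. -/
def sgn (b : Bool) : ℝ := if b then 1 else -1

/-- The local field at site `i`. -/
noncomputable def localField (J : Fin n → Fin n → ℝ) (h : Fin n → ℝ) (i : Fin n) (x : Conf n) : ℝ :=
  h i + ∑ k, J i k * spin x k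

/-- The conditional mean of the spin at `i`. -/
noncomputable def mag (J : Fin n → Fin n → ℝ) (h : Fin n → ℝ) (i : Fin n) (x : Conf n) : ℝ :=
  Real.tanh (localField J h i x)

/-- The discrete derivative at site `i`. -/
noncomputable def dd (f : Conf n → ℝ) (i : Fin n) (x : Conf n) : ℝ :=
  (f (Function.update x i true) - f (Function.update x i false)) / 2

/-- `(1 - Q_i) f`. -/
noncomputable def proj (J : Fin n → Fin n → ℝ) (h : Fin n → ℝ) (i : Fin n) (f : Conf n → ℝ)
    (x : Conf n) : ℝ :=
  (spin x i - mag J h i x) * dd f i x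

/-- `E[w_i D_i φ D_i f]`. -/
noncomputable def form (J : Fin n → Fin n → ℝ) (h : Fin n → ℝ) (i : Fin n) (φ f : Conf n → ℝ) : ℝ :=
  ev J h fun x => (1 - mag J h i x ^ 2) * (dd φ i x * dd f i x)

lemma sgn_pm (b : Bool) : sgn b = 1 ∨ sgn b = -1 := by cases b <;> simp [sgn]

lemma sgn_apply (x : Conf n) (i : Fin n) : sgn (x i) = spin x i := rfl

lemma spin_update_self (x : Conf n) (i : Fin n) (b : Bool) :
    spin (Function.update x i b) i = sgn b := by simp [spin, sgn]

lemma spin_update_ne (x : Conf n) {i k : Fin n} (hk : k ≠ i) (b : Bool) :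
    spin (Function.update x i b) k = spin x k := by simp [spin, hk]

lemma spin_update (x : Conf n) (i k : Fin n) (b : Bool) :
    spin (Function.update x i b) k = spin x k + (if k = i then sgn b - spin x i else 0) := by
  rcases eq_or_ne k i with rfl | hk
  · simp [spin_update_self]
  · simp [spin_update_ne x hk, hk]

lemma sum_row_update (a : Fin n → ℝ) (x : Conf n) (i : Fin n) (b : Bool) :
    ∑ k, a k * spin (Function.update x i b) k =
      ∑ k, a k * spin x k + a i * (sgn b - spin x i) := by
  simp [spin_update, mul_add, sum_add_distrib]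

lemma field_update_ne (J : Fin n → Fin n → ℝ) (h : Fin n → ℝ) (i j : Fin n) (x : Conf n)
    (b : Bool) :
    localField J h i (Function.update x j b) =
      localField J h i x + J i j * (sgn b - spin x j) := by
  simp only [localField, sum_row_update]; ring

lemma field_update {J : Fin n → Fin n → ℝ} (hJ : IsCoupling J) (h : Fin n → ℝ) (i : Fin n)
    (x : Conf n) (b : Bool) : localField J h i (Function.update x i b) = localField J h i x := by
  rw [field_update_ne, hJ.diag]; ring

lemma dd_update (f : Conf n → ℝ) (i : Fin n) (x : Conf n) (b : Bool) :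
    dd f i (Function.update x i b) = dd f i x := by simp [dd]

lemma mag_update {J : Fin n → Fin n → ℝ} (hJ : IsCoupling J) (h : Fin n → ℝ) (i : Fin n)
    (x : Conf n) (b : Bool) : mag J h i (Function.update x i b) = mag J h i x := by
  rw [mag, field_update hJ, mag]

lemma expo_update {J : Fin n → Fin n → ℝ} (hJ : IsCoupling J) (h : Fin n → ℝ) (i : Fin n)
    (x : Conf n) (b : Bool) :
    expo J h (Function.update x i b) = expo J h x + (sgn b - spin x i) * localField J h i x := by
  set d := sgn b - spin x i
  have h1 : ∑ k, ∑ l, J k l * spin (Function.update x i b) k * spin (Function.update x i b) l =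
      ∑ k, (∑ l, J k l * spin x l + J k i * d) * spin (Function.update x i b) k := by
    refine sum_congr rfl fun k _ => ?_
    rw [← sum_row_update, sum_mul]
    exact sum_congr rfl fun l _ => by ring
  have h2 : ∑ k, ∑ l, J k l * spin x k * spin x l = ∑ k, (∑ l, J k l * spin x l) * spin x k :=
    sum_congr rfl fun k _ => by rw [sum_mul]; exact sum_congr rfl fun l _ => by ring
  have h3 : ∑ k, J k i * d * spin x k = d * ∑ k, J i k * spin x k := by
    rw [mul_sum]; exact sum_congr rfl fun k _ => by rw [hJ.symm k i]; ring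
  rw [expo, expo, h1, h2, sum_row_update (fun k => ∑ l, J k l * spin x l + J k i * d),
    sum_row_update h, localField]
  simp only [hJ.diag, add_mul, sum_add_distrib, h3, zero_mul, add_zero]
  ring

lemma wt_pos (J : Fin n → Fin n → ℝ) (h : Fin n → ℝ) (x : Conf n) : 0 < wt J h x := Real.exp_pos _

lemma mu_pos (J : Fin n → Fin n → ℝ) (h : Fin n → ℝ) (x : Conf n) : 0 < mu J h x :=
  div_pos (wt_pos J h x) (sum_pos (fun y _ => wt_pos J h y) univ_nonempty)

lemma sum_mu (J : Fin n → Fin n → ℝ) (h : Fin n → ℝ) : ∑ x, mu J h x = 1 := by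
  simp only [mu, ← sum_div]
  exact div_self (sum_pos (fun y _ => wt_pos J h y) univ_nonempty).ne'

lemma mag_sq_lt (J : Fin n → Fin n → ℝ) (h : Fin n → ℝ) (i : Fin n) (x : Conf n) :
    mag J h i x ^ 2 < 1 := (sq_lt_one_iff_abs_lt_one _).2 (Real.abs_tanh_lt_one _)

lemma exp_mul_one_sub_tanh (y : ℝ) :
    Real.exp y * (1 - Real.tanh y) = Real.exp (-y) * (1 + Real.tanh y) := by
  rw [Real.tanh_eq_sinh_div_cosh]
  have := Real.cosh_pos y
  field_simp
  rw [← Real.cosh_add_sinh, ← Real.cosh_sub_sinh]; ring

lemma exists_balance {J : Fin n → Fin n → ℝ} (hJ : IsCoupling J) (h : Fin n → ℝ) (i : Fin n)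
    (x : Conf n) :
    ∃ K, mu J h (Function.update x i true) * (1 - mag J h i x) = K ∧
      mu J h (Function.update x i false) * (1 + mag J h i x) = K := by
  refine ⟨_, rfl, ?_⟩
  have e : ∀ b, wt J h (Function.update x i b) =
      Real.exp (expo J h x - spin x i * localField J h i x) *
        Real.exp (sgn b * localField J h i x) := by
    intro b; rw [wt, expo_update hJ, ← Real.exp_add]; ring_nf
  have k := exp_mul_one_sub_tanh (localField J h i x)
  have t : sgn true = 1 := rfl
  have f : sgn false = -1 := rfl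
  simp only [mu, e, t, f, one_mul, neg_mul, mag]
  linear_combination -(Real.exp (expo J h x - spin x i * localField J h i x) /
    ∑ y, wt J h y) * k

lemma cond_eq {J : Fin n → Fin n → ℝ} (hJ : IsCoupling J) (h : Fin n → ℝ) (i : Fin n)
    (f : Conf n → ℝ) (x : Conf n) : f x - cond J h i f x = proj J h i f x := by
  obtain ⟨K, h1, h2⟩ := exists_balance hJ h i x
  have hne : mu J h x + mu J h (flipAt i x) ≠ 0 :=
    (add_pos (mu_pos J h x) (mu_pos J h _)).ne'
  rw [cond, sub_div' hne, div_eq_iff hne, proj, dd]
  rcases Bool.eq_false_or_eq_true (x i) with hx | hx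
  · have e : Function.update x i true = x := by rw [← hx]; simp
    have e' : flipAt i x = Function.update x i false := by simp [flipAt, hx]
    rw [e] at h1 ⊢
    rw [e']
    simp only [spin, hx, if_true]
    linear_combination (f x - f (Function.update x i false)) / 2 * (h2 - h1)
  · have e : Function.update x i false = x := by rw [← hx]; simp
    have e' : flipAt i x = Function.update x i true := by simp [flipAt, hx]
    rw [e] at h2 ⊢
    rw [e']
    simp only [spin, hx, Bool.false_eq_true, if_false]
    linear_combination (f (Function.update x i true) - f x) / 2 * (h2 - h1)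

lemma upd_comm (x : Conf n) {i j : Fin n} (hij : i ≠ j) (s t : Bool) :
    Function.update (Function.update x j t) i s = Function.update (Function.update x i s) j t := by
  funext k
  rcases eq_or_ne k i with rfl | hk
  · simp [hij]
  · rcases eq_or_ne k j with rfl | hk'
    · simp [hk]
    · simp [hk, hk']

lemma sum_two (G : Conf n → ℝ) (i : Fin n) :
    ∑ x, G x = (∑ x, (G (Function.update x i true) + G (Function.update x i false))) / 2 := by
  have hinv : Function.Involutive (flipAt (n := n) i) := by
    intro x; funext j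
    rcases eq_or_ne j i with rfl | hj
    · simp [flipAt]
    · simp [flipAt, hj]
  have h1 : ∑ x, G (flipAt i x) = ∑ x, G x := Equiv.sum_comp hinv.toPerm G
  have h2 : ∀ x, G (Function.update x i true) + G (Function.update x i false) =
      G x + G (flipAt i x) := by
    intro x
    rcases Bool.eq_false_or_eq_true (x i) with hx | hx
    · have e : Function.update x i true = x := by rw [← hx]; simp
      simp [flipAt, hx, e]
    · have e : Function.update x i false = x := by rw [← hx]; simp
      simp [flipAt, hx, e, add_comm]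
  rw [sum_congr rfl fun x _ => h2 x, sum_add_distrib, h1]; ring

lemma ev_proj {J : Fin n → Fin n → ℝ} (hJ : IsCoupling J) (h : Fin n → ℝ) (i : Fin n)
    (f : Conf n → ℝ) : ev J h (proj J h i f) = 0 := by
  rw [ev, sum_two _ i]
  refine div_eq_zero_iff.2 (.inl (sum_eq_zero fun x _ => ?_))
  obtain ⟨K, h1, h2⟩ := exists_balance hJ h i x
  simp only [proj, mag_update hJ, dd_update, spin_update_self, sgn, if_true, Bool.false_eq_true,
    if_false]
  linear_combination dd f i x * (h1 - h2)

lemma ev_mul_proj {J : Fin n → Fin n → ℝ} (hJ : IsCoupling J) (h : Fin n → ℝ) (i : Fin n)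
    (φ f : Conf n → ℝ) : ev J h (fun x => φ x * proj J h i f x) = form J h i φ f := by
  rw [form, ev, ev, sum_two _ i, sum_two (fun x => mu J h x * _) i]
  refine congrArg (· / 2) (sum_congr rfl fun x _ => ?_)
  obtain ⟨K, h1, h2⟩ := exists_balance hJ h i x
  simp only [proj, mag_update hJ, dd_update, spin_update_self, sgn, if_true, Bool.false_eq_true,
    if_false]
  simp only [dd]
  linear_combination ((φ (Function.update x i true) - (1 + mag J h i x) *
      ((φ (Function.update x i true) - φ (Function.update x i false)) / 2)) *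
      ((f (Function.update x i true) - f (Function.update x i false)) / 2)) * h1 -
    ((φ (Function.update x i false) + (1 - mag J h i x) *
      ((φ (Function.update x i true) - φ (Function.update x i false)) / 2)) *
      ((f (Function.update x i true) - f (Function.update x i false)) / 2)) * h2

lemma ev_proj_sq {J : Fin n → Fin n → ℝ} (hJ : IsCoupling J) (h : Fin n → ℝ) (i : Fin n)
    (f : Conf n → ℝ) : ev J h (fun x => proj J h i f x * proj J h i f x) = form J h i f f := by
  rw [ev_mul_proj hJ]
  refine sum_congr rfl fun x _ => ?_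
  have e : dd (proj J h i f) i x = dd f i x := by
    simp only [dd, proj, mag_update hJ, Function.update_idem, spin_update_self, sgn, if_true,
      Bool.false_eq_true, if_false]
    ring
  simp only [e]

lemma ev_add (J : Fin n → Fin n → ℝ) (h : Fin n → ℝ) (f g : Conf n → ℝ) :
    ev J h (fun x => f x + g x) = ev J h f + ev J h g := by
  simp only [ev, mul_add, sum_add_distrib]

lemma ev_smul (J : Fin n → Fin n → ℝ) (h : Fin n → ℝ) (c : ℝ) (f : Conf n → ℝ) :
    ev J h (fun x => c * f x) = c * ev J h f := by
  simp only [ev, mul_sum]; exact sum_congr rfl fun x _ => by ring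

lemma ev_sum (J : Fin n → Fin n → ℝ) (h : Fin n → ℝ) {ι : Type*} (s : Finset ι)
    (f : ι → Conf n → ℝ) : ev J h (fun x => ∑ k ∈ s, f k x) = ∑ k ∈ s, ev J h (f k) := by
  simp only [ev, mul_sum]; exact sum_comm

lemma ev_const (J : Fin n → Fin n → ℝ) (h : Fin n → ℝ) (c : ℝ) : ev J h (fun _ => c) = c := by
  simp only [ev, ← sum_mul, sum_mu, one_mul]

lemma ev_mono (J : Fin n → Fin n → ℝ) (h : Fin n → ℝ) {f g : Conf n → ℝ} (H : ∀ x, f x ≤ g x) :
    ev J h f ≤ ev J h g :=
  sum_le_sum fun x _ => mul_le_mul_of_nonneg_left (H x) (mu_pos J h x).le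

lemma dir_eq_form {J : Fin n → Fin n → ℝ} (hJ : IsCoupling J) (h : Fin n → ℝ) (f : Conf n → ℝ) :
    dir J h f = ∑ i, form J h i f f := by
  simp only [dir, cond_eq hJ, mul_sum, ev_sum]
  exact sum_congr rfl fun i _ => ev_mul_proj hJ h i f f

/-- The penalty of the site `i` in the pair lemma for the pair `i, j`. -/
noncomputable def pen (J : Fin n → Fin n → ℝ) (h : Fin n → ℝ) (i j : Fin n) (f : Conf n → ℝ)
    (x : Conf n) : ℝ :=
  (J i j ^ 2 * mag J h i x ^ 2 + 30 * |J i j| ^ 3) * ((1 - mag J h i x ^ 2) * dd f i x ^ 2)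

/-- The cross term of the pair `i, j` with its compensations. -/
noncomputable def pairTerm (J : Fin n → Fin n → ℝ) (h : Fin n → ℝ) (i j : Fin n) (f : Conf n → ℝ)
    (x : Conf n) : ℝ :=
  proj J h i f x * proj J h j f x +
    J i j * ((1 - mag J h i x ^ 2) * (1 - mag J h j x ^ 2) * (dd f i x * dd f j x)) +
    pen J h i j f x + pen J h j i f x

/-- The squared second derivative spared by the pair lemma. -/
noncomputable def cross (J : Fin n → Fin n → ℝ) (h : Fin n → ℝ) (i j : Fin n) (f : Conf n → ℝ)
    (x : Conf n) : ℝ :=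
  (1 - mag J h i x ^ 2) * (1 - mag J h j x ^ 2) * dd (dd f i) j x ^ 2 / 4

lemma cross_nonneg (J : Fin n → Fin n → ℝ) (h : Fin n → ℝ) (i j : Fin n) (f : Conf n → ℝ)
    (x : Conf n) : 0 ≤ cross J h i j f x := by
  have := mag_sq_lt J h i x
  have := mag_sq_lt J h j x
  exact div_nonneg (mul_nonneg (mul_nonneg (by linarith) (by linarith)) (sq_nonneg _)) (by norm_num)

lemma cross_self (J : Fin n → Fin n → ℝ) (h : Fin n → ℝ) (i : Fin n) (f : Conf n → ℝ)
    (x : Conf n) : cross J h i i f x = 0 := by
  have : dd (dd f i) i x = 0 := by rw [dd, dd_update, dd_update, sub_self, zero_div]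
  simp [cross, this]

lemma wt_update_two {J : Fin n → Fin n → ℝ} (hJ : IsCoupling J) (h : Fin n → ℝ) {i j : Fin n}
    (hij : i ≠ j) (x : Conf n) : ∃ K, 0 < K ∧ ∀ s t : Bool,
      mu J h (Function.update (Function.update x j t) i s) = K *
        Real.exp ((localField J h i x - J i j * spin x j) * sgn s +
          (localField J h j x - J i j * spin x i) * sgn t + J i j * (sgn s * sgn t)) := by
  refine ⟨Real.exp (expo J h x - spin x j * localField J h j x -
    spin x i * localField J h i x + J i j * spin x i * spin x j) / ∑ y, wt J h y,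
    div_pos (Real.exp_pos _) (sum_pos (fun y _ => wt_pos J h y) univ_nonempty), fun s t => ?_⟩
  rw [mu, wt, expo_update hJ, expo_update hJ, field_update_ne, spin_update_ne x hij,
    div_mul_eq_mul_div, ← Real.exp_add]
  congr 2
  ring

lemma ev_cross_le_pairTerm {J : Fin n → Fin n → ℝ} (hJ : IsCoupling J) (h : Fin n → ℝ)
    {i j : Fin n} (hij : i ≠ j) (hd : |J i j| ≤ 1 / 20) (f : Conf n → ℝ) :
    ev J h (cross J h i j f) ≤ ev J h (pairTerm J h i j f) := by
  rw [ev, sum_two _ i, sum_two _ j, ev, sum_two (fun x => mu J h x * pairTerm J h i j f x) i,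
    sum_two (fun x => mu J h (Function.update x i true) * _ + _) j]
  refine div_le_div_of_nonneg_right (div_le_div_of_nonneg_right (sum_le_sum fun x _ => ?_)
    zero_le_two) zero_le_two
  obtain ⟨K, hK, hmu⟩ := wt_update_two hJ h hij x
  set a := localField J h i x - J i j * spin x j with ha
  set b := localField J h j x - J i j * spin x i with hb
  have key := pair_lemma (a := a) (b := b)
    (u := (dd f i (Function.update x j true) + dd f i (Function.update x j false)) / 2)
    (v := (dd f j (Function.update x i true) + dd f j (Function.update x i false)) / 2)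
    (C := (dd f i (Function.update x j true) - dd f i (Function.update x j false)) / 2) hd
  have hCC : dd f i (Function.update x j true) - dd f i (Function.update x j false) =
      dd f j (Function.update x i true) - dd f j (Function.update x i false) := by
    simp only [dd, upd_comm x hij]
    ring
  have mi : ∀ s t : Bool, mag J h i (Function.update (Function.update x j t) i s) =
      Real.tanh (a + J i j * sgn t) := by
    intro s t; rw [mag_update hJ, mag, field_update_ne, ha]; ring_nf
  have mj : ∀ s t : Bool, mag J h j (Function.update (Function.update x j t) i s) =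
      Real.tanh (b + J i j * sgn s) := by
    intro s t
    rw [mag, field_update_ne, field_update hJ, spin_update_ne x hij, hJ.symm j i, hb]
    ring_nf
  have di : ∀ s t : Bool, dd f i (Function.update (Function.update x j t) i s) =
      (dd f i (Function.update x j true) + dd f i (Function.update x j false)) / 2 +
      (dd f i (Function.update x j true) - dd f i (Function.update x j false)) / 2 * sgn t := by
    intro s t; rw [dd_update]; cases t <;> simp only [sgn, if_true, Bool.false_eq_true, if_false] <;> ring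
  have dj : ∀ s t : Bool, dd f j (Function.update (Function.update x j t) i s) =
      (dd f j (Function.update x i true) + dd f j (Function.update x i false)) / 2 +
      (dd f i (Function.update x j true) - dd f i (Function.update x j false)) / 2 * sgn s := by
    intro s t
    rw [upd_comm x hij, dd_update, hCC]
    cases s <;> simp only [sgn, if_true, Bool.false_eq_true, if_false] <;> ring
  have si : ∀ s t : Bool, spin (Function.update (Function.update x j t) i s) i = sgn s :=
    fun s t => spin_update_self _ i s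
  have sj : ∀ s t : Bool, spin (Function.update (Function.update x j t) i s) j = sgn t := by
    intro s t; rw [spin_update_ne _ hij.symm, spin_update_self]
  have dc : ∀ s t : Bool, dd (dd f i) j (Function.update (Function.update x j t) i s) =
      (dd f i (Function.update x j true) - dd f i (Function.update x j false)) / 2 := by
    intro s t
    have e : ∀ b, dd f i (Function.update (Function.update (Function.update x j t) i s) j b) =
        dd f i (Function.update x j b) := fun b => by
      rw [← upd_comm _ hij s b, dd_update, Function.update_idem]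
    rw [dd, e, e]
  refine le_trans (le_of_eq ?_) ((mul_le_mul_of_nonneg_left key hK.le).trans (le_of_eq ?_))
  all_goals
    simp only [psum, pairTerm, cross, pen, proj, dc, mi, mj, di, dj, si, sj, hmu, hJ.symm j i, sgn,
      if_true, Bool.false_eq_true, if_false]
    ring

lemma pen_bound {J : Fin n → Fin n → ℝ} (h : Fin n → ℝ) {R d : ℝ}
    (hR : ∀ i, ∑ j, J i j ^ 2 ≤ R) (hd : ∀ i j, |J i j| ≤ d) (i : Fin n) (f : Conf n → ℝ)
    (x : Conf n) :
    ∑ j, pen J h i j f x ≤
      (R * mag J h i x ^ 2 + 30 * d * R) * ((1 - mag J h i x ^ 2) * dd f i x ^ 2) := by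
  simp only [pen, ← sum_mul, sum_add_distrib, ← mul_sum]
  refine mul_le_mul_of_nonneg_right (add_le_add
    (mul_le_mul_of_nonneg_right (hR i) (sq_nonneg _)) ?_)
    (mul_nonneg (by linarith [mag_sq_lt J h i x]) (sq_nonneg _))
  rw [mul_assoc]
  refine mul_le_mul_of_nonneg_left ?_ (by norm_num)
  calc ∑ j, |J i j| ^ 3 ≤ ∑ j, d * J i j ^ 2 := sum_le_sum fun j _ => by
        rw [pow_succ', sq_abs]; exact mul_le_mul_of_nonneg_right (hd i j) (sq_nonneg _)
    _ ≤ d * R := by
        rw [← mul_sum]
        exact mul_le_mul_of_nonneg_left (hR i) ((abs_nonneg _).trans (hd i i))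

/-- `E[(Hf)²]` with its first-order and second-order terms, and the spared squares. -/
lemma ev_sq_ge_cross {J : Fin n → Fin n → ℝ} (hJ : IsCoupling J) (hd : ∀ i j, |J i j| ≤ 1 / 20)
    (h : Fin n → ℝ) (f : Conf n → ℝ) :
    (∑ i, form J h i f f) + ∑ i, ∑ j, ev J h (cross J h i j f) ≤
      ev J h (fun x => (∑ i, proj J h i f x) * ∑ i, proj J h i f x) +
        (∑ i, ∑ j, ev J h (fun x => J i j *
          ((1 - mag J h i x ^ 2) * (1 - mag J h j x ^ 2) * (dd f i x * dd f j x)))) +
        2 * ∑ i, ∑ j, ev J h (pen J h i j f) := by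
  have hpair : ∀ i j, ev J h (cross J h i j f) ≤ ev J h (pairTerm J h i j f) -
      if i = j then form J h i f f else 0 := by
    intro i j
    rcases eq_or_ne i j with rfl | hij
    · have e : cross J h i i f = fun _ => 0 := funext (cross_self J h i f)
      rw [e, ev_const]
      refine le_of_eq ?_
      rw [if_pos rfl, ← ev_proj_sq hJ, sub_eq_add_neg, eq_comm, add_neg_eq_zero]
      exact congrArg (ev J h) (funext fun x => by simp [pairTerm, pen, hJ.diag])
    · rw [if_neg hij, sub_zero]
      exact ev_cross_le_pairTerm hJ h hij (hd i j) f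
  have hsum := sum_le_sum fun i (_ : i ∈ univ) => sum_le_sum fun j (_ : j ∈ univ) => hpair i j
  have hpt : ∀ i j, ev J h (pairTerm J h i j f) =
      ev J h (fun x => proj J h i f x * proj J h j f x) + ev J h (fun x => J i j *
        ((1 - mag J h i x ^ 2) * (1 - mag J h j x ^ 2) * (dd f i x * dd f j x))) +
      ev J h (pen J h i j f) + ev J h (pen J h j i f) := fun i j => by
    rw [← ev_add, ← ev_add, ← ev_add]; rfl
  simp only [sum_sub_distrib, sum_ite_eq, mem_univ, if_true, hpt, sum_add_distrib] at hsum
  rw [sum_comm (f := fun i j => ev J h (pen J h j i f))] at hsum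
  have hsq : ∑ i, ∑ j, ev J h (fun x => proj J h i f x * proj J h j f x) =
      ev J h (fun x => (∑ i, proj J h i f x) * ∑ i, proj J h i f x) := by
    simp only [← ev_sum]
    exact congrArg (ev J h) (funext fun x => (sum_mul_sum _ _ _ _).symm)
  linarith

/-- `E[(Hf)²] ≥ κ E[f Hf]`. -/
lemma ev_sq_ge {J : Fin n → Fin n → ℝ} {lam R d c : ℝ} (hJ : IsCoupling J) (hq : QuadLe J lam)
    (hR : ∀ i, ∑ j, J i j ^ 2 ≤ R) (hd : ∀ i j, |J i j| ≤ d) (hd0 : d ≤ 1 / 20) (hm1 : lam ≤ c)
    (hm2 : 2 * R ≤ c) (h : Fin n → ℝ) (f : Conf n → ℝ) :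
    (1 - (c + 60 * d * R)) * ∑ i, form J h i f f ≤
      ev J h (fun x => (∑ i, proj J h i f x) * ∑ i, proj J h i f x) := by
  have hsum := ev_sq_ge_cross hJ (fun i j => (hd i j).trans hd0) h f
  have hcross : 0 ≤ ∑ i, ∑ j, ev J h (cross J h i j f) := sum_nonneg fun i _ => sum_nonneg fun j _ =>
    sum_nonneg fun x _ => mul_nonneg (mu_pos J h x).le (cross_nonneg J h i j f x)
  set T := ∑ i, ∑ j, ev J h (fun x => J i j *
    ((1 - mag J h i x ^ 2) * (1 - mag J h j x ^ 2) * (dd f i x * dd f j x)))
  have hT : T + 2 * ∑ i, ∑ j, ev J h (pen J h i j f) ≤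
      (c + 60 * d * R) * ∑ i, form J h i f f := by
    simp only [T, form, ← ev_sum, ← ev_smul, ← ev_add]
    refine ev_mono J h fun x => ?_
    have q := hq fun i => (1 - mag J h i x ^ 2) * dd f i x
    calc _ ≤ lam * ∑ i, ((1 - mag J h i x ^ 2) * dd f i x) ^ 2 + 2 * ∑ i,
          (R * mag J h i x ^ 2 + 30 * d * R) * ((1 - mag J h i x ^ 2) * dd f i x ^ 2) := by
          refine add_le_add (le_trans (le_of_eq ?_) q)
            (mul_le_mul_of_nonneg_left (sum_le_sum fun i _ => pen_bound h hR hd i f x) zero_le_two)
          exact sum_congr rfl fun i _ => sum_congr rfl fun j _ => by ring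
      _ ≤ _ := by
          rw [mul_sum, mul_sum, mul_sum, ← sum_add_distrib]
          refine sum_le_sum fun i _ => ?_
          have hm := (mag_sq_lt J h i x).le
          have : 0 ≤ (1 - mag J h i x ^ 2) * dd f i x ^ 2 *
              ((c - lam) * (1 - mag J h i x ^ 2) + (c - 2 * R) * mag J h i x ^ 2) :=
            mul_nonneg (mul_nonneg (by linarith) (sq_nonneg _))
              (add_nonneg (mul_nonneg (by linarith) (by linarith))
                (mul_nonneg (by linarith) (sq_nonneg _)))
          linarith
  linarith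

lemma dd_sum {ι : Type*} (s : Finset ι) (F : ι → Conf n → ℝ) (i : Fin n) (x : Conf n) :
    dd (fun y => ∑ k ∈ s, F k y) i x = ∑ k ∈ s, dd (F k) i x := by
  simp only [dd, ← sum_sub_distrib, sum_div]

lemma const_of_dd_eq_zero {φ : Conf n → ℝ} (hz : ∀ i x, dd φ i x = 0) (x y : Conf n) :
    φ x = φ y := by
  have hu : ∀ i x b b', φ (Function.update x i b) = φ (Function.update x i b') := by
    intro i x b b'
    have := hz i x
    simp only [dd] at this
    cases b <;> cases b' <;> first | rfl | linarith
  suffices H : ∀ s : Finset (Fin n), φ (fun k => if k ∈ s then y k else x k) = φ x by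
    simpa using (H univ).symm
  intro s
  induction s using Finset.induction_on with
  | empty => simp
  | @insert i s hi ih =>
    rw [← ih]
    set z : Conf n := fun k => if k ∈ s then y k else x k
    have e : (fun k => if k ∈ insert i s then y k else x k) = Function.update z i (y i) := by
      funext k
      rcases eq_or_ne k i with rfl | hk
      · simp
      · simp [z, hk]
    rw [e, hu i z (y i) (z i), Function.update_eq_self]

lemma form_cauchy (J : Fin n → Fin n → ℝ) (h : Fin n → ℝ) (i : Fin n) (φ g : Conf n → ℝ) (k : ℝ)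
    (hk : 0 < k) :
    2 * form J h i g φ ≤ form J h i g g / k + k * form J h i φ φ := by
  simp only [form, div_eq_inv_mul, ← ev_smul, ← ev_add]
  refine ev_mono J h fun x => ?_
  have h0 : 0 ≤ (1 - mag J h i x ^ 2) * (k⁻¹ * (dd g i x - k * dd φ i x) ^ 2) :=
    mul_nonneg (by linarith [mag_sq_lt J h i x]) (by positivity)
  calc _ ≤ 2 * ((1 - mag J h i x ^ 2) * (dd g i x * dd φ i x)) +
        (1 - mag J h i x ^ 2) * (k⁻¹ * (dd g i x - k * dd φ i x) ^ 2) := le_add_of_nonneg_right h0
    _ = _ := by field_simp; ring

/-- From `E[(Hf)²] ≥ κ E[f Hf]` to the Poincaré inequality. -/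
lemma poincare_of_sq {J : Fin n → Fin n → ℝ} (hJ : IsCoupling J) (h : Fin n → ℝ) {κ : ℝ}
    (hκ : 0 < κ) (H : ∀ f, κ * ∑ i, form J h i f f ≤
      ev J h (fun x => (∑ i, proj J h i f x) * ∑ i, proj J h i f x)) (f : Conf n → ℝ) :
    κ * var J h f ≤ dir J h f := by
  set L : (Conf n → ℝ) →ₗ[ℝ] (Conf n → ℝ) :=
    { toFun := fun φ x => (∑ i, proj J h i φ x) + ev J h φ
      map_add' := by
        intro φ ψ; funext x
        simp only [Pi.add_apply, proj, dd]
        rw [show ev J h (φ + ψ) = ev J h φ + ev J h ψ from ev_add J h φ ψ, add_add_add_comm,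
          ← sum_add_distrib]
        congr 1
        exact sum_congr rfl fun i _ => by ring
      map_smul' := by
        intro c φ; funext x
        simp only [Pi.smul_apply, smul_eq_mul, RingHom.id_apply, proj, dd]
        rw [show ev J h (c • φ) = c * ev J h φ from ev_smul J h c φ, mul_add, mul_sum]
        congr 1
        exact sum_congr rfl fun i _ => by ring } with hL
  have hevL : ∀ φ, ev J h (L φ) = ev J h φ := by
    intro φ
    show ev J h (fun x => (∑ i, proj J h i φ x) + ev J h φ) = _
    simp [ev_add, ev_sum, ev_proj hJ, ev_const]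
  have hinj : Function.Injective L := by
    rw [injective_iff_map_eq_zero]
    intro φ hφ
    have h0 : ev J h φ = 0 := by
      rw [← hevL, hφ]; exact ev_const J h 0
    have hP : ∀ x, ∑ i, proj J h i φ x = 0 := fun x => by
      have := congrFun hφ x
      simpa [hL, h0] using this
    have hz : ∑ i, form J h i φ φ = 0 := by
      rw [← dir_eq_form hJ]
      simp only [dir, cond_eq hJ, hP, mul_zero]
      exact ev_const J h 0
    have hdd : ∀ i x, dd φ i x = 0 := by
      intro i x
      have hnn : ∀ i x, 0 ≤ mu J h x * ((1 - mag J h i x ^ 2) * (dd φ i x * dd φ i x)) :=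
        fun i x => mul_nonneg (mu_pos J h x).le
          (mul_nonneg (by linarith [mag_sq_lt J h i x]) (mul_self_nonneg _))
      have h1 := (sum_eq_zero_iff_of_nonneg fun i _ => sum_nonneg fun x _ => hnn i x).1 hz i
        (mem_univ i)
      have h2 := (sum_eq_zero_iff_of_nonneg fun x _ => hnn i x).1 h1 x (mem_univ x)
      simpa [(mu_pos J h x).ne', sub_eq_zero, (mag_sq_lt J h i x).ne'] using h2
    funext x
    have : ev J h φ = φ x := by
      rw [← ev_const J h (φ x)]
      exact congrArg (ev J h) (funext fun y => const_of_dd_eq_zero hdd y x)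
    simpa [h0] using this.symm
  obtain ⟨φ, hφ⟩ := LinearMap.injective_iff_surjective.1 hinj (fun x => f x - ev J h f)
  have hm : ev J h (fun x => f x - ev J h f) = 0 := by
    simp [sub_eq_add_neg, ev_add, ev_const]
  have h0 : ev J h φ = 0 := by rw [← hevL, hφ, hm]
  have hP : ∀ x, f x - ev J h f = ∑ i, proj J h i φ x := fun x => by
    have := congrFun hφ x
    simpa [hL, h0] using this.symm
  have hvar : var J h f = ev J h (fun x => (f x - ev J h f) * (f x - ev J h f)) := by
    set m := ev J h f
    have e : (fun x => (f x - m) * (f x - m)) = fun x => f x ^ 2 + (-2 * m * f x + m ^ 2) := by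
      funext x; ring
    rw [e, ev_add, ev_add, ev_smul, ev_const, var]; ring
  have hsq := H φ
  simp only [← hP] at hsq
  rw [← hvar] at hsq
  have hg : var J h f = ∑ i, form J h i f φ := by
    have e : var J h f = ev J h (fun x => f x * ∑ i, proj J h i φ x) := by
      rw [hvar, show (fun x => (f x - ev J h f) * (f x - ev J h f)) =
        fun x => f x * (∑ i, proj J h i φ x) + -ev J h f * ∑ i, proj J h i φ x from
          funext fun x => by
            nth_rw 2 [hP]
            ring, ev_add, ev_smul, ev_sum J h univ]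
      simp [ev_proj hJ]
    rw [e]
    simp only [mul_sum, ev_sum]
    exact sum_congr rfl fun i _ => ev_mul_proj hJ h i f φ
  have hc : 2 * var J h f ≤ dir J h f / κ + κ * ∑ i, form J h i φ φ := by
    rw [hg, dir_eq_form hJ, mul_sum, mul_sum, sum_div, ← sum_add_distrib]
    exact sum_le_sum fun i _ => form_cauchy J h i φ f κ hκ
  calc κ * var J h f ≤ κ * (dir J h f / κ) := mul_le_mul_of_nonneg_left (by linarith) hκ.le
    _ = dir J h f := mul_div_cancel₀ _ hκ.ne'

lemma poincare_of_bounds {J : Fin n → Fin n → ℝ} {lam R d c : ℝ} (hJ : IsCoupling J)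
    (hq : QuadLe J lam) (hR : ∀ i, ∑ j, J i j ^ 2 ≤ R) (hd : ∀ i j, |J i j| ≤ d)
    (hd0 : d ≤ 1 / 20) (hm1 : lam ≤ c) (hm2 : 2 * R ≤ c) (hlt : c + 60 * d * R < 1)
    (h : Fin n → ℝ) (f : Conf n → ℝ) : (1 - (c + 60 * d * R)) * var J h f ≤ dir J h f :=
  poincare_of_sq hJ h (by linarith) (ev_sq_ge hJ hq hR hd hd0 hm1 hm2 h) f

lemma dir_linear_le {J : Fin n → Fin n → ℝ} (hJ : IsCoupling J) (h v : Fin n → ℝ) :
    dir J h (fun x => ∑ i, v i * spin x i) ≤ ∑ i, v i ^ 2 := by
  rw [dir_eq_form hJ]
  refine sum_le_sum fun i _ => ?_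
  have e : ∀ x, dd (fun y => ∑ k, v k * spin y k) i x = v i := by
    intro x; simp only [dd, sum_row_update, sgn, if_true, Bool.false_eq_true, if_false]; ring
  simp only [form, e]
  refine (ev_mono J h fun x => ?_).trans_eq (ev_const J h _)
  calc (1 - mag J h i x ^ 2) * (v i * v i) ≤ 1 * (v i * v i) :=
        mul_le_mul_of_nonneg_right (by linarith [sq_nonneg (mag J h i x)]) (mul_self_nonneg _)
    _ = v i ^ 2 := by ring

/-- **Uniform gap and covariance bound.** -/
theorem covLe_of_bounds {J : Fin n → Fin n → ℝ} {lam R d c : ℝ} (hJ : IsCoupling J)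
    (hq : QuadLe J lam) (hR : ∀ i, ∑ j, J i j ^ 2 ≤ R) (hd : ∀ i j, |J i j| ≤ d)
    (hd0 : d ≤ 1 / 20) (hm1 : lam ≤ c) (hm2 : 2 * R ≤ c) (hlt : c + 60 * d * R < 1) :
    (∀ h f, (1 - (c + 60 * d * R)) * var J h f ≤ dir J h f) ∧
      ∀ th ∈ Set.Icc (0:ℝ) 1, CovLe (fun i j => th * J i j) (1 / (1 - (c + 60 * d * R))) := by
  refine ⟨poincare_of_bounds hJ hq hR hd hd0 hm1 hm2 hlt, fun th hth h v => ?_⟩
  rcases Nat.eq_zero_or_pos n with rfl | hn
  · simp [var, ev_const]
  have hR0 : 0 ≤ R := (sum_nonneg fun j _ => sq_nonneg (J ⟨0, hn⟩ j)).trans (hR ⟨0, hn⟩)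
  have hc : 0 ≤ c := le_trans (mul_nonneg zero_le_two hR0) hm2
  have hJ' : IsCoupling fun i j => th * J i j :=
    ⟨fun i j => by simp [hJ.symm i j], fun i => by simp [hJ.diag]⟩
  have hq' : QuadLe (fun i j => th * J i j) (th * lam) := fun w => by
    simp only [mul_assoc th, ← mul_sum]
    exact mul_le_mul_of_nonneg_left (hq w) hth.1
  have hR' : ∀ i, ∑ j, (th * J i j) ^ 2 ≤ R := fun i =>
    le_trans (sum_le_sum fun j _ => by
      rw [mul_pow]; exact mul_le_of_le_one_left (sq_nonneg _) (pow_le_one₀ hth.1 hth.2)) (hR i)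
  have hd' : ∀ i j, |th * J i j| ≤ d := fun i j => by
    rw [abs_mul, abs_of_nonneg hth.1]
    exact (mul_le_of_le_one_left (abs_nonneg _) hth.2).trans (hd i j)
  have hm1' : th * lam ≤ c := by
    rcases le_or_gt lam 0 with hl | hl
    · exact (mul_nonpos_of_nonneg_of_nonpos hth.1 hl).trans hc
    · exact (mul_le_of_le_one_left hl.le hth.2).trans hm1
  have hp := poincare_of_bounds hJ' hq' hR' hd' hd0 hm1' hm2 hlt h fun x => ∑ i, v i * spin x i
  rw [one_div, inv_mul_eq_div, le_div_iff₀ (by linarith), mul_comm]
  exact hp.trans (dir_linear_le hJ' h v)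

end Vale.Agent.P150.Gap
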