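import Vale.Agent.P150.Gap.EntTools

/-!
A uniform covariance bound along `θ J`, `θ ∈ [0,1]`, gives approximate tensorisation of entropy,
by discrete Hubbard-Stratonovich steps.
-/

open Finset Filter

namespace Vale.Agent.P150.Gap

namespace EntW

variable {n m : ℕ}

/-- `Σ_i A k i x_i`. -/
noncomputable def lin (A : Fin m → Fin n → ℝ) (k : Fin m) (x : Conf n) : ℝ :=
  ∑ i, A k i * spin x i

/-- The signed sum of the linear forms. -/
noncomputable def za (A : Fin m → Fin n → ℝ) (z : Conf m) (x : Conf n) : ℝ :=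
  ∑ k, spin z k * lin A k x

/-- The field carried by a sign vector. -/
noncomputable def shift (A : Fin m → Fin n → ℝ) (z : Conf m) (i : Fin n) : ℝ :=
  ∑ k, spin z k * A k i

/-- Weight after `j` steps. -/
noncomputable def stepW (A : Fin m → Fin n → ℝ) (j : ℕ) (h : Fin n → ℝ) (x : Conf n) : ℝ :=
  fieldW h x * (∏ k, Real.cosh (lin A k x)) ^ j

variable {A : Fin m → Fin n → ℝ}

theorem stepW_pos (j : ℕ) (h : Fin n → ℝ) (x : Conf n) : 0 < stepW A j h x :=
  mul_pos (fieldW_pos h x) (pow_pos (Finset.prod_pos fun _ _ => Real.cosh_pos _) j)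

theorem fieldW_add (h v : Fin n → ℝ) (x : Conf n) :
    fieldW (fun i => h i + v i) x = fieldW h x * Real.exp (∑ i, v i * spin x i) := by
  simp only [fieldW, ← Real.exp_add, add_mul, Finset.sum_add_distrib]

theorem stepW_add (j : ℕ) (h v : Fin n → ℝ) (x : Conf n) :
    stepW A j (fun i => h i + v i) x = stepW A j h x * Real.exp (∑ i, v i * spin x i) := by
  simp only [stepW, fieldW_add]; ring

theorem sum_shift (z : Conf m) (x : Conf n) : ∑ i, shift A z i * spin x i = za A z x := by
  simp only [shift, za, lin, Finset.mul_sum, Finset.sum_mul]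
  rw [Finset.sum_comm]
  exact Finset.sum_congr rfl fun k _ => Finset.sum_congr rfl fun i _ => by ring

theorem sum_exp_za (x : Conf n) :
    ∑ z, Real.exp (za A z x) = 2 ^ m * ∏ k, Real.cosh (lin A k x) := by
  have h1 : ∀ z : Conf m, Real.exp (za A z x)
      = ∏ k, Real.exp ((if z k then (1 : ℝ) else -1) * lin A k x) :=
    fun z => by rw [za, Real.exp_sum]; rfl
  rw [Finset.sum_congr rfl fun z _ => h1 z,
    ← Fintype.prod_sum fun (k : Fin m) (b : Bool) => Real.exp ((if b then (1 : ℝ) else -1) * lin A k x)]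
  rw [show (2 : ℝ) ^ m = ∏ _k : Fin m, (2 : ℝ) by simp, ← Finset.prod_mul_distrib]
  refine Finset.prod_congr rfl fun k _ => ?_
  simp [Real.cosh_eq]
  ring

theorem sum_spin_mul {k l : Fin m} (hkl : k ≠ l) : ∑ z : Conf m, spin z k * spin z l = 0 := by
  have h := sum_flip k fun z : Conf m => spin z k * spin z l
  simp only [spin_flip_self, spin_flip_ne hkl.symm, neg_mul, Finset.sum_neg_distrib] at h
  linarith

theorem sum_signed_sq (c : Fin m → ℝ) :
    ∑ z : Conf m, (∑ k, spin z k * c k) ^ 2 = 2 ^ m * ∑ k, c k ^ 2 := by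
  simp only [sq]
  simp only [Finset.sum_mul_sum]
  rw [Finset.sum_comm, Finset.mul_sum]
  refine Finset.sum_congr rfl fun k _ => ?_
  rw [Finset.sum_comm, Finset.sum_eq_single k]
  · have : ∀ z : Conf m, spin z k * c k * (spin z k * c k) = c k * c k := fun z => by
      cases hz : z k <;> simp [spin, hz]
    simp [this]
  · intro l _ hl
    rw [show (∑ z : Conf m, spin z k * c k * (spin z l * c l))
        = (∑ z : Conf m, spin z k * spin z l) * (c k * c l) by
      rw [Finset.sum_mul]; exact Finset.sum_congr rfl fun z _ => by ring,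
      sum_spin_mul hl.symm, zero_mul]
  · simp

theorem congr_pr {W V : Conf n → ℝ} (h : pr W = pr V) :
    E W = E V ∧ En W = En V ∧ RR W = RR V := by
  have hE : E W = E V := by funext f; simp [E, h]
  refine ⟨hE, ?_, ?_⟩
  · funext f; simp [En, hE]
  · funext f; simp [RR, hE, cnd, h]

theorem pr_const_mul {c : ℝ} (hc : c ≠ 0) (W : Conf n → ℝ) :
    pr (fun x => c * W x) = pr W := by
  funext x; simp only [pr, Z, ← Finset.mul_sum]; exact mul_div_mul_left _ _ hc

theorem C2_sum_right {ι : Type*} (W : Conf n → ℝ) (f : Conf n → ℝ) (s : Finset ι)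
    (c : ι → ℝ) (g : ι → Conf n → ℝ) :
    C2 W f (fun x => ∑ k ∈ s, c k * g k x) = ∑ k ∈ s, c k * C2 W f (g k) := by
  have h1 : (fun x => f x * ∑ k ∈ s, c k * g k x)
      = fun x => ∑ k ∈ s, c k * (f x * g k x) := by
    funext x; rw [Finset.mul_sum]; exact Finset.sum_congr rfl fun k _ => by ring
  simp only [C2]
  rw [h1, E_finset_sum, E_finset_sum, Finset.mul_sum, ← Finset.sum_sub_distrib]
  refine Finset.sum_congr rfl fun k _ => ?_
  rw [E_mul_left, E_mul_left]
  ring

/-- Entropy controls the linear covariances. -/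
theorem sum_sq_cov_le {U : Conf n → ℝ} (hU : ∀ x, 0 < U x) {f : Conf n → ℝ} (hf : ∀ x, 0 < f x)
    {C : ℝ} (hC : 0 < C)
    (hS : ∀ v : Fin n → ℝ, C2 (fun x => U x * Real.exp (∑ i, v i * spin x i))
      (fun x => ∑ i, (v i) * spin x i) (fun x => ∑ i, (v i) * spin x i) ≤ C * ∑ i, v i ^ 2 ∧
      ∀ t : ℝ, C2 (fun x => U x * Real.exp (t * ∑ i, v i * spin x i))
      (fun x => ∑ i, (v i) * spin x i) (fun x => ∑ i, (v i) * spin x i) ≤ C * ∑ i, v i ^ 2) :
    ∑ i, C2 U f (fun x => spin x i) ^ 2 ≤ 2 * C * E U f * En U f := by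
  set u : Fin n → ℝ := fun i => C2 U f (fun x => spin x i) with hu
  have hm : 0 < E U f := E_pos hU hf
  have h := C2_le_En hU hf (g := fun x => ∑ i, u i * spin x i) (hS u).2
    (t := (C * E U f)⁻¹) (by positivity)
  rw [C2_sum_right] at h
  have hsq : ∑ i, u i * C2 U f (fun x => spin x i) = ∑ i, u i ^ 2 :=
    Finset.sum_congr rfl fun i _ => by simp only [hu]; ring
  rw [hsq] at h
  have h2 : (C * E U f)⁻¹ * ∑ i, u i ^ 2
      = (∑ i, u i ^ 2) / (C * E U f) := by rw [inv_mul_eq_div]
  have h3 : E U f * (C * (∑ i, u i ^ 2) * (C * E U f)⁻¹ ^ 2 / 2)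
      = (∑ i, u i ^ 2) / (C * E U f) / 2 := by field_simp
  rw [h2, h3] at h
  have h4 : (∑ i, u i ^ 2) / (2 * C * E U f) ≤ En U f := by
    have : (∑ i, u i ^ 2) / (2 * C * E U f) = (∑ i, u i ^ 2) / (C * E U f) / 2 := by
      field_simp
    linarith
  rw [div_le_iff₀ (by positivity)] at h4
  linarith

/-- One step. -/
theorem step_le {δ L C : ℝ} (hδ0 : 0 ≤ δ) (hδ : δ ≤ 1 / 24) (hL : 0 ≤ L) (hC : 0 < C)
    (hza : ∀ z x, |za A z x| ≤ δ)
    (hA : ∀ v : Fin n → ℝ, ∑ k, (∑ i, A k i * v i) ^ 2 ≤ L * ∑ i, v i ^ 2)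
    (j : ℕ) (hcov : ∀ h v : Fin n → ℝ, C2 (stepW A j h) (fun x => ∑ i, v i * spin x i)
      (fun x => ∑ i, v i * spin x i) ≤ C * ∑ i, v i ^ 2)
    (h : Fin n → ℝ) {f : Conf n → ℝ} (hf : ∀ x, 0 < f x) :
    En (stepW A (j + 1) h) f
      ≤ (∑ z, wgt (fun z => stepW A j (fun i => h i + shift A z i)) z
            * En (stepW A j (fun i => h i + shift A z i)) f)
        + (1 + 64 * δ) * Real.exp (6 * δ) * L * C * En (stepW A (j + 1) h) f
        + 30 * Real.exp (6 * δ) * δ ^ 3 * E (stepW A (j + 1) h) f := by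
  set U := stepW A j h with hUdef
  set W' := stepW A (j + 1) h with hW'def
  set V : Conf m → Conf n → ℝ := fun z => stepW A j (fun i => h i + shift A z i) with hVdef
  have hU : ∀ x, 0 < U x := stepW_pos j h
  have hW' : ∀ x, 0 < W' x := stepW_pos (j + 1) h
  have hV : ∀ z x, 0 < V z x := fun z => stepW_pos j _
  have hVz : ∀ z x, V z x = U x * Real.exp (za A z x) := fun z x => by
    simp only [hVdef, hUdef, stepW_add, sum_shift]
  have hsum : (fun y => ∑ z, V z y) = fun y => 2 ^ m * W' y := by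
    funext y
    simp only [hVz, ← Finset.mul_sum, sum_exp_za, hW'def, hUdef, stepW, pow_succ]
    ring
  have hpr : pr (fun y => ∑ z, V z y) = pr W' := by
    rw [hsum]; exact pr_const_mul (by positivity) W'
  obtain ⟨hE', hEn', -⟩ := congr_pr hpr
  have hexp : ∀ z x, Real.exp (-δ) ≤ Real.exp (za A z x) ∧ Real.exp (za A z x) ≤ Real.exp δ :=
    fun z x => ⟨Real.exp_le_exp.2 (abs_le.1 (hza z x)).1, Real.exp_le_exp.2 (abs_le.1 (hza z x)).2⟩
  have e2 : Real.exp δ / Real.exp (-δ) = Real.exp (2 * δ) := by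
    rw [← Real.exp_sub]; congr 1; ring
  -- comparisons of normalised weights
  have hVU : ∀ z x, pr (V z) x ≤ Real.exp (2 * δ) * pr U x := by
    intro z x; rw [← e2]
    exact pr_le_of_bounds hU (Real.exp_pos _)
      (fun x => by rw [hVz, mul_comm]; exact mul_le_mul_of_nonneg_left (hexp z x).1 (hU x).le)
      (fun x => by rw [hVz, mul_comm (Real.exp δ)]; exact mul_le_mul_of_nonneg_left (hexp z x).2 (hU x).le) x
  have hUV : ∀ z x, pr U x ≤ Real.exp (2 * δ) * pr (V z) x := by
    intro z x; rw [← e2]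
    refine pr_le_of_bounds (hV z) (Real.exp_pos _) (fun x => ?_) (fun x => ?_) x
    · rw [hVz, Real.exp_neg, inv_mul_le_iff₀ (Real.exp_pos δ), mul_comm (Real.exp δ) (U x)]
      exact mul_le_mul_of_nonneg_left (hexp z x).2 (hU x).le
    · rw [hVz, ← mul_assoc, mul_comm (Real.exp δ) (U x), mul_assoc, ← Real.exp_add]
      exact le_mul_of_one_le_right (hU x).le (Real.one_le_exp (by linarith [(abs_le.1 (hza z x)).1]))
  have hprW : ∀ x, pr W' x = ∑ z, wgt V z * pr (V z) x := fun x => by
    rw [← congrFun hpr x, pr_mix hV]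
  have hWU : ∀ x, pr W' x ≤ Real.exp (2 * δ) * pr U x := fun x => by
    rw [hprW]
    calc ∑ z, wgt V z * pr (V z) x ≤ ∑ z, wgt V z * (Real.exp (2 * δ) * pr U x) :=
          Finset.sum_le_sum fun z _ => mul_le_mul_of_nonneg_left (hVU z x) (wgt_nonneg hV z)
      _ = _ := by rw [← Finset.sum_mul, sum_wgt hV, one_mul]
  have hUW : ∀ x, pr U x ≤ Real.exp (2 * δ) * pr W' x := fun x => by
    rw [hprW, Finset.mul_sum]
    calc pr U x = ∑ z, wgt V z * pr U x := by rw [← Finset.sum_mul, sum_wgt hV, one_mul]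
      _ ≤ _ := Finset.sum_le_sum fun z _ =>
        (mul_le_mul_of_nonneg_left (hUV z x) (wgt_nonneg hV z)).trans (le_of_eq (by ring))
  set M := E W' f with hMdef
  have hM : 0 < M := E_pos hW' hf
  set mU := E U f with hmUdef
  have hmU : 0 < mU := E_pos hU hf
  have hf0 : ∀ x, 0 ≤ f x := fun x => (hf x).le
  have hmUM : mU ≤ Real.exp (2 * δ) * M := E_le_of_ratio hUW hf0
  have hMmU : M ≤ Real.exp (2 * δ) * mU := E_le_of_ratio hWU hf0
  have hEnU : En U f ≤ Real.exp (2 * δ) * En W' f := En_le_of_ratio hU hW' hUW hf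
  -- means of the components
  have hmz : ∀ z, |E (V z) f - M| ≤ 8 * δ * M := by
    intro z
    have h1 := E_le_of_ratio (hVU z) hf0
    have h2 := E_le_of_ratio (hUV z) hf0
    have he : Real.exp (2 * δ) * Real.exp (2 * δ) = Real.exp (4 * δ) := by
      rw [← Real.exp_add]; congr 1; ring
    have ha : E (V z) f ≤ Real.exp (4 * δ) * M := by
      rw [← he, mul_assoc]; exact h1.trans (mul_le_mul_of_nonneg_left hmUM (Real.exp_pos _).le)
    have hb : M ≤ Real.exp (4 * δ) * E (V z) f := by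
      rw [← he, mul_assoc]; exact hMmU.trans (mul_le_mul_of_nonneg_left h2 (Real.exp_pos _).le)
    have h4 := Real.abs_exp_sub_one_le (x := 4 * δ) (by rw [abs_of_nonneg (by linarith)]; linarith)
    rw [abs_of_nonneg (by linarith : (0 : ℝ) ≤ 4 * δ)] at h4
    have h5 := (abs_le.1 h4).2
    have h6 : 1 ≤ Real.exp (4 * δ) := Real.one_le_exp (by linarith)
    rw [abs_le]
    constructor
    · nlinarith [mul_nonneg (sub_nonneg.2 h6) hM.le]
    · nlinarith
  -- the variance of the component means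
  set D : Conf m → ℝ := fun z => E U fun x => Real.exp (za A z x) with hD
  have hDpos : ∀ z, 0 < D z := fun z => E_pos hU fun x => Real.exp_pos _
  have hDlo : ∀ z, Real.exp (-δ) ≤ D z := fun z =>
    (E_const hU _).ge.trans (E_mono hU fun x => (hexp z x).1)
  have hDZ : ∀ z, D z = Z (V z) / Z U := fun z => by
    simp only [hD, E, pr, Z, Finset.sum_div]
    exact Finset.sum_congr rfl fun x _ => by rw [hVz]; ring
  have hwD : ∀ z, wgt V z = D z / ∑ z', D z' := fun z => by
    simp only [hDZ, ← Finset.sum_div, wgt]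
    rw [div_div_div_cancel_right₀ (Z_pos hU).ne']
  have hmD : ∀ z, (E (V z) f - mU) * D z = C2 U f (fun x => Real.exp (za A z x)) := fun z => by
    have : E (V z) f = (E U fun x => f x * Real.exp (za A z x)) / D z := by
      rw [hDZ]; simp only [E, pr, Finset.sum_div]
      refine Finset.sum_congr rfl fun x _ => ?_
      have := (Z_pos hU).ne'; have := (Z_pos (hV z)).ne'
      rw [hVz]; field_simp
    rw [sub_mul, this, div_mul_cancel₀ _ (hDpos z).ne', C2]
  set c : Fin m → ℝ := fun k => C2 U f (lin A k) with hc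
  have hcovz : ∀ z, C2 U f (fun x => Real.exp (za A z x)) ^ 2
      ≤ (∑ k, spin z k * c k) ^ 2 + 12 * δ ^ 3 * mU ^ 2 := by
    intro z
    have hlin : C2 U f (za A z) = ∑ k, spin z k * c k :=
      C2_sum_right U f univ (fun k => spin z k) (fun k => lin A k)
    have hL1 : |∑ k, spin z k * c k| ≤ 2 * δ * mU := hlin ▸ abs_C2_le hU hf0 (hza z)
    set r := C2 U f (fun x => Real.exp (za A z x) - 1 - za A z x) with hr
    have hr1 : |r| ≤ 2 * δ ^ 2 * mU := abs_C2_le hU hf0 fun x =>
      (Real.abs_exp_sub_one_sub_id_le ((hza z x).trans (by linarith))).trans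
        (by rw [← sq_abs]; exact pow_le_pow_left₀ (abs_nonneg _) (hza z x) 2)
    have hsplit : C2 U f (fun x => Real.exp (za A z x)) = (∑ k, spin z k * c k) + r := by
      rw [← hlin, hr]
      simp only [C2, mul_sub, mul_one, E_sub, E_const hU]
      ring
    rw [hsplit]
    set a := ∑ k, spin z k * c k
    have h1 : a * r ≤ (2 * δ * mU) * (2 * δ ^ 2 * mU) :=
      (le_abs_self _).trans (by rw [abs_mul]; exact mul_le_mul hL1 hr1 (abs_nonneg _) (by positivity))
    have h2 : r ^ 2 ≤ (2 * δ ^ 2 * mU) ^ 2 := by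
      rw [← sq_abs]; exact pow_le_pow_left₀ (abs_nonneg _) hr1 2
    nlinarith [mul_nonneg (mul_nonneg (pow_nonneg hδ0 3) (sq_nonneg mU))
      (by linarith : (0 : ℝ) ≤ 1 - δ)]
  have hSD : Real.exp (-δ) * 2 ^ m ≤ ∑ z, D z :=
    calc Real.exp (-δ) * 2 ^ m = ∑ _z : Conf m, Real.exp (-δ) := by simp [mul_comm]
      _ ≤ _ := Finset.sum_le_sum fun z _ => hDlo z
  have hVar : ∑ z, wgt V z * (E (V z) f - mU) ^ 2
      ≤ Real.exp (2 * δ) * ((∑ k, c k ^ 2) + 12 * δ ^ 3 * mU ^ 2) := by
    have hterm : ∀ z, wgt V z * (E (V z) f - mU) ^ 2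
        ≤ ((∑ k, spin z k * c k) ^ 2 + 12 * δ ^ 3 * mU ^ 2)
          * (Real.exp (2 * δ) / 2 ^ m) := by
      intro z
      have hsD : 0 < ∑ z', D z' := Finset.sum_pos (fun z' _ => hDpos z') univ_nonempty
      calc wgt V z * (E (V z) f - mU) ^ 2
          = ((E (V z) f - mU) * D z) ^ 2 / (D z * ∑ z', D z') := by
            have := (hDpos z).ne'
            rw [hwD]; field_simp
        _ ≤ ((∑ k, spin z k * c k) ^ 2 + 12 * δ ^ 3 * mU ^ 2)
              / (Real.exp (-δ) * (Real.exp (-δ) * 2 ^ m)) := by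
            rw [hmD]
            exact div_le_div₀ (by positivity) (hcovz z) (by positivity)
              (mul_le_mul (hDlo z) hSD (by positivity) (hDpos z).le)
        _ = _ := by
            rw [← mul_assoc, ← Real.exp_add, show -δ + -δ = -(2 * δ) by ring, Real.exp_neg]
            field_simp
    calc _ ≤ _ := Finset.sum_le_sum fun z _ => hterm z
      _ = _ := by
        rw [← Finset.sum_mul, Finset.sum_add_distrib, sum_signed_sq]
        simp only [Finset.sum_const, Finset.card_univ, Fintype.card_fun, Fintype.card_bool,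
          Fintype.card_fin, nsmul_eq_mul, Nat.cast_pow, Nat.cast_ofNat]
        field_simp
  -- entropic stability
  have hc2 : ∑ k, c k ^ 2 ≤ L * (2 * C * mU * En U f) := by
    have h1 : ∀ k, c k = ∑ i, A k i * C2 U f (fun x => spin x i) := fun k =>
      C2_sum_right U f univ (fun i => A k i) (fun i x => spin x i)
    have h2 := sum_sq_cov_le hU hf hC fun v => ⟨by
      have e : (fun x => U x * Real.exp (∑ i, v i * spin x i))
          = stepW A j (fun i => h i + v i) := by funext x; rw [hUdef, stepW_add]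
      rw [e]; exact hcov _ v, fun t => by
      have e : (fun x => U x * Real.exp (t * ∑ i, v i * spin x i))
          = stepW A j (fun i => h i + t * v i) := by
        funext x
        rw [hUdef, stepW_add, Finset.mul_sum]
        simp only [mul_assoc]
      rw [e]; exact hcov _ v⟩
    simp only [h1]
    exact (hA _).trans (mul_le_mul_of_nonneg_left h2 hL)
  -- assembly
  have hmean : ∑ z, wgt V z * E (V z) f = M := by rw [← E_mix hV, hE']
  have hgap := phi_gap_le (wgt V) (fun z => E (V z) f) (wgt_nonneg hV) (sum_wgt hV)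
    (η := 8 * δ) (by linarith) (by rw [hmean]; exact hM) (fun z => by rw [hmean]; exact hmz z) mU
  rw [hmean] at hgap
  have hmix : En W' f = (∑ z, wgt V z * En (V z) f)
      + ((∑ z, wgt V z * (E (V z) f * Real.log (E (V z) f))) - M * Real.log M) := by
    have := En_mix hV f
    rw [hE', hEn'] at this
    exact this
  have hnum : ∑ z, wgt V z * (E (V z) f - mU) ^ 2
      ≤ Real.exp (6 * δ) * M * (2 * L * C * En W' f + 12 * δ ^ 3 * M) := by
    have hx : 0 ≤ Real.exp (2 * δ) := (Real.exp_pos _).le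
    have hEnU0 : 0 ≤ En W' f := by
      have hk : ∀ x, f x * Real.log M + f x - M ≤ f x * Real.log (f x) := fun x => by
        linarith [klf_nonneg (hf x) hM]
      have := E_mono hW' hk
      rw [E_sub, E_add, E_mul_right, E_const hW', ← hMdef] at this
      unfold En; rw [← hMdef]; linarith
    have h1 : L * (2 * C * mU * En U f)
        ≤ L * (2 * C * (Real.exp (2 * δ) * M) * (Real.exp (2 * δ) * En W' f)) := by
      refine mul_le_mul_of_nonneg_left ?_ hL
      calc 2 * C * mU * En U f ≤ 2 * C * mU * (Real.exp (2 * δ) * En W' f) :=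
            mul_le_mul_of_nonneg_left hEnU (by positivity)
        _ ≤ _ := mul_le_mul_of_nonneg_right
            (mul_le_mul_of_nonneg_left hmUM (by positivity)) (mul_nonneg hx hEnU0)
    have h2 : 12 * δ ^ 3 * mU ^ 2 ≤ 12 * δ ^ 3 * (Real.exp (2 * δ) * M) ^ 2 :=
      mul_le_mul_of_nonneg_left (pow_le_pow_left₀ hmU.le hmUM 2) (by positivity)
    have he : Real.exp (6 * δ) = Real.exp (2 * δ) * Real.exp (2 * δ) * Real.exp (2 * δ) := by
      rw [← Real.exp_add, ← Real.exp_add]; congr 1; ring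
    refine hVar.trans ((mul_le_mul_of_nonneg_left (add_le_add (hc2.trans h1) h2) hx).trans
      (le_of_eq ?_))
    rw [he]; ring
  have hg2 : (1 / 2 + 4 * (8 * δ)) * (∑ z, wgt V z * (E (V z) f - mU) ^ 2) / M
      ≤ (1 / 2 + 4 * (8 * δ)) * (Real.exp (6 * δ) * (2 * L * C * En W' f + 12 * δ ^ 3 * M)) := by
    rw [div_le_iff₀ hM]
    refine (mul_le_mul_of_nonneg_left hnum (by linarith)).trans (le_of_eq ?_)
    ring
  have hg3 : (1 / 2 + 4 * (8 * δ)) * (Real.exp (6 * δ) * (12 * δ ^ 3 * M))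
      ≤ 30 * Real.exp (6 * δ) * δ ^ 3 * M := by
    have : 0 ≤ Real.exp (6 * δ) * δ ^ 3 * M := by positivity
    nlinarith
  change En W' f ≤ (∑ z, wgt V z * En (V z) f) + _ + _
  nlinarith [hgap, hg2, hg3, hmix]

/-- Iteration of the steps. -/
theorem path_le {δ L C : ℝ} (hδ0 : 0 ≤ δ) (hδ : δ ≤ 1 / 24) (hL : 0 ≤ L) (hC : 0 < C)
    (hza : ∀ z x, |za A z x| ≤ δ)
    (hA : ∀ v : Fin n → ℝ, ∑ k, (∑ i, A k i * v i) ^ 2 ≤ L * ∑ i, v i ^ 2)
    (N : ℕ) (hcov : ∀ j < N, ∀ h v : Fin n → ℝ, C2 (stepW A j h) (fun x => ∑ i, v i * spin x i)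
      (fun x => ∑ i, v i * spin x i) ≤ C * ∑ i, v i ^ 2)
    (hx : (1 + 64 * δ) * Real.exp (6 * δ) * L * C < 1) {f : Conf n → ℝ} (hf : ∀ x, 0 < f x)
    (h : Fin n → ℝ) :
    En (stepW A N h) f ≤ (1 / (1 - (1 + 64 * δ) * Real.exp (6 * δ) * L * C)) ^ N *
      (RR (stepW A N h) f + N * (30 * Real.exp (6 * δ) * δ ^ 3) * E (stepW A N h) f) := by
  set x := (1 + 64 * δ) * Real.exp (6 * δ) * L * C with hxdef
  set err := 30 * Real.exp (6 * δ) * δ ^ 3 with herr
  set K := 1 / (1 - x) with hK
  have hx0 : 0 ≤ x := by positivity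
  have hK1 : 1 ≤ K := by rw [hK, le_div_iff₀ (by linarith)]; linarith
  have herr0 : 0 ≤ err := by positivity
  induction N generalizing h with
  | zero =>
    have e : stepW A 0 h = fieldW h := by funext y; simp [stepW]
    rw [e]
    simpa using En_fieldW_le h hf
  | succ j ih =>
    set V : Conf m → Conf n → ℝ := fun z => stepW A j (fun i => h i + shift A z i) with hVdef
    have hV : ∀ z x, 0 < V z x := fun z => stepW_pos j _
    have hsum : (fun y => ∑ z, V z y) = fun y => 2 ^ m * stepW A (j + 1) h y := by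
      funext y
      simp only [hVdef, stepW_add, sum_shift, ← Finset.mul_sum, sum_exp_za, stepW, pow_succ]
      ring
    have hpr : pr (fun y => ∑ z, V z y) = pr (stepW A (j + 1) h) := by
      rw [hsum]; exact pr_const_mul (by positivity) _
    obtain ⟨hE', -, hR'⟩ := congr_pr hpr
    have hs := step_le hδ0 hδ hL hC hza hA j (hcov j (Nat.lt_succ_self j)) h hf
    have hz : ∀ z, En (V z) f ≤ K ^ j * (RR (V z) f + j * err * E (V z) f) := fun z =>
      ih (fun j' hj' => hcov j' (Nat.lt_succ_of_lt hj')) (fun i => h i + shift A z i)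
    have hmix : ∑ z, wgt V z * En (V z) f
        ≤ K ^ j * (RR (stepW A (j + 1) h) f + j * err * E (stepW A (j + 1) h) f) := by
      calc ∑ z, wgt V z * En (V z) f
          ≤ ∑ z, wgt V z * (K ^ j * (RR (V z) f + j * err * E (V z) f)) :=
            Finset.sum_le_sum fun z _ => mul_le_mul_of_nonneg_left (hz z) (wgt_nonneg hV z)
        _ = K ^ j * ((∑ z, wgt V z * RR (V z) f) + j * err * ∑ z, wgt V z * E (V z) f) := by
            rw [mul_add, Finset.mul_sum, ← mul_assoc (K ^ j), Finset.mul_sum,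
              ← Finset.sum_add_distrib]
            exact Finset.sum_congr rfl fun z _ => by ring
        _ ≤ _ := by
            rw [← E_mix hV, hE', ← hR']
            exact mul_le_mul_of_nonneg_left
              (add_le_add (RR_mix_le hV hf) le_rfl) (by positivity)
    have hM : 0 ≤ E (stepW A (j + 1) h) f := (E_pos (stepW_pos _ _) hf).le
    have hKj : (1 : ℝ) ≤ K ^ j := one_le_pow₀ hK1
    rw [← hxdef, ← herr] at hs
    have hs' : En (stepW A (j + 1) h) f * (1 - x)
        ≤ K ^ j * (RR (stepW A (j + 1) h) f + (j + 1 : ℕ) * err * E (stepW A (j + 1) h) f) := by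
      push_cast
      have := mul_le_mul_of_nonneg_right hKj (mul_nonneg herr0 hM)
      nlinarith [hs, hmix, this]
    calc En (stepW A (j + 1) h) f
        = En (stepW A (j + 1) h) f * (1 - x) * K := by rw [hK]; field_simp [show 1 - x ≠ 0 by linarith]
      _ ≤ _ := (mul_le_mul_of_nonneg_right hs' (by linarith)).trans (le_of_eq (by ring))

theorem cosh_bounds (t : ℝ) :
    Real.exp (t ^ 2 / 2 - t ^ 4 / 4) ≤ Real.cosh t ∧ Real.cosh t ≤ Real.exp (t ^ 2 / 2) := by
  refine ⟨?_, Real.cosh_le_exp_half_sq t⟩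
  have h1 : 1 + t ^ 2 / 2 ≤ Real.cosh t := by
    have e : Real.cosh |t| = 1 + 2 * Real.sinh (|t| / 2) ^ 2 := by
      have h2 := Real.cosh_two_mul (|t| / 2)
      rw [show 2 * (|t| / 2) = |t| by ring, Real.cosh_sq] at h2
      linarith
    rw [Real.cosh_abs] at e
    have h3 : |t| / 2 ≤ Real.sinh (|t| / 2) := Real.self_le_sinh_iff.2 (by positivity)
    have h4 := pow_le_pow_left₀ (by positivity) h3 2
    rw [div_pow, sq_abs] at h4
    linarith
  refine le_trans ?_ h1
  have hy : (0 : ℝ) < 1 + t ^ 2 / 2 := by positivity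
  rw [← Real.le_log_iff_exp_le hy]
  refine le_trans ?_ (Real.one_sub_inv_le_log_of_pos hy)
  rw [le_sub_iff_add_le, ← le_sub_iff_add_le', inv_eq_one_div, div_le_iff₀ hy]
  nlinarith [sq_nonneg (t ^ 3)]

end EntW

open EntW

/-- A covariance bound in all fields along `θ J` gives approximate tensorisation of entropy. -/
theorem entTensor_of_covLe {n : ℕ} {J : Fin n → Fin n → ℝ} (hJ : IsCoupling J) {lam c C : ℝ}
    (hup : QuadLe J lam) (hlo : QuadLe (fun i j => -J i j) c) (hlc : 0 ≤ lam + c) (hC : 0 ≤ C)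
    (hcov : ∀ th ∈ Set.Icc (0 : ℝ) 1, CovLe (fun i j => th * J i j) C) (h : Fin n → ℝ) :
    EntTensor J h (Real.exp ((lam + c) * C)) := by
  classical
  intro f hf
  have hpsd : (Matrix.of J + c • (1 : Matrix (Fin n) (Fin n) ℝ)).PosSemidef := by
    refine Matrix.PosSemidef.of_dotProduct_mulVec_nonneg ?_ fun v => ?_
    · ext i j
      simp [Matrix.one_apply, eq_comm, hJ.symm i j]
    · have hv := hlo v
      simp only [neg_mul, Finset.sum_neg_distrib] at hv
      simp only [dotProduct, Matrix.mulVec, Pi.star_apply, star_trivial, Matrix.add_apply,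
        Matrix.smul_apply, Matrix.of_apply, smul_eq_mul, add_mul, Finset.sum_add_distrib, mul_add,
        Finset.mul_sum, Matrix.one_apply, mul_ite, ite_mul, mul_one, mul_zero, zero_mul,
        Finset.sum_ite_eq, Finset.mem_univ, if_true]
      have e1 : ∑ i, ∑ j, v i * (J i j * v j) = ∑ i, ∑ j, J i j * v i * v j :=
        Finset.sum_congr rfl fun i _ => Finset.sum_congr rfl fun j _ => by ring
      have e2 : ∑ i, v i * (c * v i) = c * ∑ i, v i ^ 2 := by
        rw [Finset.mul_sum]; exact Finset.sum_congr rfl fun i _ => by ring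
      linarith
  obtain ⟨m, B, hB⟩ := Matrix.posSemidef_iff_eq_sum_vecMulVec.1 hpsd
  have hsq : ∀ v : Fin n → ℝ, ∑ k, (∑ i, B k i * v i) ^ 2
      = (∑ i, ∑ j, J i j * v i * v j) + c * ∑ i, v i ^ 2 := by
    intro v
    have hij : ∀ i j, ∑ k, B k i * B k j = J i j + c * if i = j then 1 else 0 := fun i j => by
      simpa [Matrix.sum_apply, Matrix.vecMulVec_apply, Matrix.one_apply]
        using (congrFun (congrFun hB i) j).symm
    simp only [sq, Finset.sum_mul_sum]
    rw [Finset.sum_comm, Finset.mul_sum, ← Finset.sum_add_distrib]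
    refine Finset.sum_congr rfl fun i _ => ?_
    rw [Finset.sum_comm]
    have : ∀ j, ∑ k, B k i * v i * (B k j * v j) = (∑ k, B k i * B k j) * (v i * v j) := fun j => by
      rw [Finset.sum_mul]; exact Finset.sum_congr rfl fun k _ => by ring
    simp only [this, hij, add_mul, Finset.sum_add_distrib, mul_ite, mul_one, mul_zero, ite_mul,
      zero_mul, Finset.sum_ite_eq, Finset.mem_univ, if_true]
    congr 1
    exact Finset.sum_congr rfl fun j _ => by ring
  have hq : ∀ v : Fin n → ℝ, ∑ k, (∑ i, B k i * v i) ^ 2 ≤ (lam + c) * ∑ i, v i ^ 2 := fun v => by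
    rw [hsq, add_mul]; linarith [hup v]
  set D : ℝ := ∑ k, ∑ i, |B k i| with hDdef
  have hD0 : 0 ≤ D := by positivity
  have hb : ∀ k x, |∑ i, B k i * spin x i| ≤ D := fun k x =>
    calc |∑ i, B k i * spin x i| ≤ ∑ i, |B k i * spin x i| := Finset.abs_sum_le_sum_abs _ _
      _ = ∑ i, |B k i| := Finset.sum_congr rfl fun i _ => by
          cases hx : x i <;> simp [spin, hx]
      _ ≤ D := Finset.single_le_sum (f := fun k => ∑ i, |B k i|) (fun _ _ => by positivity) (mem_univ k)
  -- the bound as a continuous function of `u = N^(-1/2)`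
  let ε : ℝ → ℝ := fun u => m * D ^ 4 / 4 * u ^ 2
  let Φ : ℝ → ℝ := fun u =>
    (1 + 64 * (D * u)) * Real.exp (6 * (D * u)) * (lam + c) * (Real.exp (ε u) * (C + u))
  let G : ℝ → ℝ := fun u => Real.exp (2 * ε u) * Real.exp (Φ u / (1 - u ^ 2 * Φ u)) *
    (RR (wt J h) f + (30 * Real.exp (6 * (D * u)) * D ^ 3 * u) * E (wt J h) f)
  have hΦc : Continuous Φ := by fun_prop
  have hG : Tendsto G (nhds 0) (nhds (Real.exp ((lam + c) * C) * RR (wt J h) f)) := by
    have hden : ContinuousAt (fun u => Φ u / (1 - u ^ 2 * Φ u)) 0 :=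
      hΦc.continuousAt.div (by fun_prop) (by simp)
    have hGc : ContinuousAt G 0 := by
      refine ((ContinuousAt.mul ?_ hden.rexp).mul ?_) <;> fun_prop
    have h0 : G 0 = Real.exp ((lam + c) * C) * RR (wt J h) f := by
      simp [G, Φ, ε]
    exact h0 ▸ hGc.tendsto
  have hu : Tendsto (fun N : ℕ => (Real.sqrt (N : ℝ))⁻¹) atTop (nhds 0) :=
    tendsto_inv_atTop_zero.comp (Real.tendsto_sqrt_atTop.comp tendsto_natCast_atTop_atTop)
  refine ge_of_tendsto (hG.comp hu) ?_
  have e1 : ∀ᶠ u in nhds (0 : ℝ), u ^ 2 * Φ u < 1 ∧ D * u ≤ 1 / 24 := by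
    refine ((show ContinuousAt (fun u => u ^ 2 * Φ u) 0 by fun_prop).eventually_lt_const (by simp)).and ?_
    exact (show ContinuousAt (fun u => D * u) 0 by fun_prop).eventually_le_const (by simp)
  filter_upwards [hu.eventually e1, eventually_gt_atTop 0] with N hN hNpos
  set u := (Real.sqrt (N : ℝ))⁻¹ with hudef
  have hNr : (0 : ℝ) < N := by exact_mod_cast hNpos
  have hupos : 0 < u := by rw [hudef]; positivity
  have hu2 : (N : ℝ) * u ^ 2 = 1 := by
    rw [hudef, inv_pow, Real.sq_sqrt hNr.le, mul_inv_cancel₀ hNr.ne']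
  let A : Fin m → Fin n → ℝ := fun k i => u * B k i
  have hlin : ∀ k x, lin A k x = u * ∑ i, B k i * spin x i := fun k x => by
    simp only [lin, A, Finset.mul_sum, mul_assoc]
  have hza : ∀ z x, |za A z x| ≤ D * u := fun z x =>
    calc |za A z x| ≤ ∑ k, |spin z k * lin A k x| := Finset.abs_sum_le_sum_abs _ _
      _ ≤ ∑ k, u * ∑ i, |B k i| := Finset.sum_le_sum fun k _ => by
          rw [hlin, abs_mul, abs_mul, abs_of_pos hupos]
          have : |spin z k| = 1 := by cases hz : z k <;> simp [spin, hz]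
          rw [this, one_mul]
          refine mul_le_mul_of_nonneg_left ((Finset.abs_sum_le_sum_abs _ _).trans (le_of_eq ?_))
            hupos.le
          exact Finset.sum_congr rfl fun i _ => by cases hx : x i <;> simp [spin, hx]
      _ = D * u := by rw [← Finset.mul_sum, mul_comm]
  have hA : ∀ v : Fin n → ℝ, ∑ k, (∑ i, A k i * v i) ^ 2 ≤ u ^ 2 * (lam + c) * ∑ i, v i ^ 2 := by
    intro v
    simp only [A, mul_assoc, ← Finset.mul_sum, mul_pow]
    exact mul_le_mul_of_nonneg_left (hq v) (sq_nonneg u)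
  -- comparison with the Ising weights
  have hcmp : ∀ j ≤ N, ∀ h' : Fin n → ℝ, ∀ x,
      Real.exp ((j : ℝ) * u ^ 2 / 2 * (c * n) - ε u) * wt (fun i k => (j : ℝ) * u ^ 2 * J i k) h' x
          ≤ stepW A j h' x ∧
      stepW A j h' x ≤ Real.exp ((j : ℝ) * u ^ 2 / 2 * (c * n))
          * wt (fun i k => (j : ℝ) * u ^ 2 * J i k) h' x := by
    intro j hj h' x
    have hbb := hsq fun i => spin x i
    have hn : ∑ i, spin x i ^ 2 = (n : ℝ) := by
      have : ∀ i, spin x i ^ 2 = 1 := fun i => by cases hx : x i <;> simp [spin, hx]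
      simp [this]
    rw [hn] at hbb
    have hexpo : Real.exp ((j : ℝ) * u ^ 2 / 2 * (c * n)) * wt (fun i k => (j : ℝ) * u ^ 2 * J i k) h' x
        = fieldW h' x * Real.exp ((j : ℝ) * ∑ k, lin A k x ^ 2 / 2) := by
      rw [wt, expo, fieldW, ← Real.exp_add, ← Real.exp_add]
      congr 1
      have hl : ∑ k, lin A k x ^ 2 / 2 = u ^ 2 * ((∑ k, (∑ i, B k i * spin x i) ^ 2)) / 2 := by
        rw [Finset.mul_sum, Finset.sum_div]
        exact Finset.sum_congr rfl fun k _ => by rw [hlin]; ring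
      have hd : ∑ i, ∑ k, (j : ℝ) * u ^ 2 * J i k * spin x i * spin x k
          = (j : ℝ) * u ^ 2 * ∑ i, ∑ k, J i k * spin x i * spin x k := by
        simp only [Finset.mul_sum, mul_assoc]
      rw [hl, hbb, hd]
      ring
    have hP : stepW A j h' x = fieldW h' x * ∏ k, Real.cosh (lin A k x) ^ j := by
      rw [stepW, Finset.prod_pow]
    have hfp := (fieldW_pos h' x).le
    constructor
    · rw [Real.exp_sub, div_mul_eq_mul_div, hexpo, hP, mul_div_assoc]
      refine mul_le_mul_of_nonneg_left ?_ hfp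
      rw [← Real.exp_sub]
      calc Real.exp ((j : ℝ) * ∑ k, lin A k x ^ 2 / 2 - ε u)
          ≤ Real.exp (∑ k, (j : ℝ) * (lin A k x ^ 2 / 2 - lin A k x ^ 4 / 4)) := by
            refine Real.exp_le_exp.2 ?_
            simp only [mul_sub, Finset.sum_sub_distrib, ← Finset.mul_sum]
            refine sub_le_sub_left ?_ _
            have h4 : ∀ k, lin A k x ^ 4 / 4 ≤ (u * D) ^ 4 / 4 := fun k => by
              rw [hlin, mul_pow, mul_pow]
              have := pow_le_pow_left₀ (abs_nonneg _) (hb k x) 4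
              rw [← abs_pow, abs_of_nonneg (Even.pow_nonneg (by decide) _)] at this
              nlinarith [pow_nonneg hupos.le 4]
            calc (j : ℝ) * ∑ k, lin A k x ^ 4 / 4
                ≤ (N : ℝ) * ((m : ℝ) * ((u * D) ^ 4 / 4)) := by
                  refine mul_le_mul (by exact_mod_cast hj) ?_ (by positivity) hNr.le
                  calc _ ≤ ∑ _k : Fin m, (u * D) ^ 4 / 4 := Finset.sum_le_sum fun k _ => h4 k
                    _ = _ := by simp
              _ = ((N : ℝ) * u ^ 2) * ε u := by simp only [ε]; ring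
              _ = ε u := by rw [hu2, one_mul]
        _ ≤ _ := by
            rw [Real.exp_sum]
            refine Finset.prod_le_prod (fun k _ => (Real.exp_pos _).le) fun k _ => ?_
            rw [Real.exp_nat_mul]
            exact pow_le_pow_left₀ (Real.exp_pos _).le (cosh_bounds _).1 j
    · rw [hexpo, hP]
      refine mul_le_mul_of_nonneg_left ?_ hfp
      rw [Finset.mul_sum, Real.exp_sum]
      refine Finset.prod_le_prod (fun k _ => pow_nonneg (Real.cosh_pos _).le _) fun k _ => ?_
      rw [Real.exp_nat_mul]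
      exact pow_le_pow_left₀ (Real.cosh_pos _).le (cosh_bounds _).2 j
  have hwt : ∀ J' h' x, 0 < wt J' h' x := fun _ _ _ => Real.exp_pos (expo (n := n) _ _ _)
  have hpr1 : ∀ j ≤ N, ∀ h' x, pr (stepW A j h') x
      ≤ Real.exp (ε u) * pr (wt (fun i k => (j : ℝ) * u ^ 2 * J i k) h') x := by
    intro j hj h' x
    refine (pr_le_of_bounds (hwt _ _) (Real.exp_pos _) (fun x => (hcmp j hj h' x).1)
      (fun x => (hcmp j hj h' x).2) x).trans (le_of_eq ?_)
    rw [← Real.exp_sub, sub_sub_cancel]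
  have hcov' : ∀ j < N, ∀ h' v : Fin n → ℝ, C2 (stepW A j h') (fun x => ∑ i, v i * spin x i)
      (fun x => ∑ i, v i * spin x i) ≤ Real.exp (ε u) * (C + u) * ∑ i, v i ^ 2 := by
    intro j hj h' v
    have hth : (j : ℝ) * u ^ 2 ∈ Set.Icc (0 : ℝ) 1 :=
      ⟨by positivity, hu2 ▸ mul_le_mul_of_nonneg_right (by exact_mod_cast hj.le) (sq_nonneg u)⟩
    refine (C2_self_le_of_ratio (stepW_pos j h') (hwt _ _) (hpr1 j hj.le h') _).trans ?_
    rw [mul_assoc]
    refine mul_le_mul_of_nonneg_left ?_ (Real.exp_pos _).le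
    have := hcov _ hth h' v
    have e : C2 (wt (fun i k => (j : ℝ) * u ^ 2 * J i k) h') (fun x => ∑ i, v i * spin x i)
        (fun x => ∑ i, v i * spin x i)
        = var (fun i k => (j : ℝ) * u ^ 2 * J i k) h' (fun x => ∑ i, v i * spin x i) := by
      simp only [var, C2, sq]; rfl
    rw [e]
    refine this.trans (mul_le_mul_of_nonneg_right (by linarith) ?_)
    positivity
  have hx : (1 + 64 * (D * u)) * Real.exp (6 * (D * u)) * (u ^ 2 * (lam + c))
      * (Real.exp (ε u) * (C + u)) = u ^ 2 * Φ u := by simp only [Φ]; ring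
  have hpath := path_le (A := A) (by positivity) hN.2 (mul_nonneg (sq_nonneg u) hlc)
    (C := Real.exp (ε u) * (C + u)) (by positivity) hza hA N hcov' (by rw [hx]; exact hN.1) hf h
  rw [hx] at hpath
  -- endpoints
  have hwt1 : (fun i k => (N : ℝ) * u ^ 2 * J i k) = J := by funext i k; rw [hu2, one_mul]
  have hcmpN := hcmp N le_rfl h
  rw [hwt1] at hcmpN
  have hS := stepW_pos (A := A) N h
  have hWS : ∀ x, pr (wt J h) x ≤ Real.exp (ε u) * pr (stepW A N h) x := by
    intro x
    have := pr_le_of_bounds (W := wt J h) hS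
      (Real.exp_pos (-((N : ℝ) * u ^ 2 / 2 * (c * n))))
      (hi := Real.exp (-((N : ℝ) * u ^ 2 / 2 * (c * n) - ε u))) (fun y => ?_) (fun y => ?_) x
    · refine this.trans (le_of_eq ?_)
      rw [← Real.exp_sub]; congr 2; ring
    · rw [Real.exp_neg, inv_mul_le_iff₀ (Real.exp_pos _)]; exact (hcmpN y).2
    · rw [Real.exp_neg, le_inv_mul_iff₀ (Real.exp_pos _)]; exact (hcmpN y).1
  have hSW := hpr1 N le_rfl h
  rw [hwt1] at hSW
  have hK : (1 / (1 - u ^ 2 * Φ u)) ^ N ≤ Real.exp (Φ u / (1 - u ^ 2 * Φ u)) := by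
    have hpos : 0 < 1 - u ^ 2 * Φ u := by linarith [hN.1]
    have h1 : 1 / (1 - u ^ 2 * Φ u) ≤ Real.exp (u ^ 2 * Φ u / (1 - u ^ 2 * Φ u)) := by
      refine le_trans (le_of_eq ?_) (Real.add_one_le_exp _)
      field_simp
      ring
    refine (pow_le_pow_left₀ (by positivity) h1 N).trans (le_of_eq ?_)
    rw [← Real.exp_nat_mul, mul_div_assoc', ← mul_assoc, hu2, one_mul]
  have hR0 : 0 ≤ RR (wt J h) f := by
    refine Finset.sum_nonneg fun i _ => ?_
    rw [E_sub, E_cnd (hwt J h)]
    have := E_mono (hwt J h) (fun x => show f x * Real.log (cnd (wt J h) i f x) + f x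
        - cnd (wt J h) i f x ≤ f x * Real.log (f x) by
      linarith [klf_nonneg (hf x) (cnd_pos (hwt J h) i hf x)])
    rw [E_sub, E_add, E_cnd (hwt J h),
      ← E_cnd_mul (hwt J h) i f (fun x => Real.log (cnd (wt J h) i f x))
        (fun x => by rw [cnd_flip])] at this
    linarith
  have hEp := (E_pos (hwt J h) hf).le
  have hNu : (N : ℝ) * (30 * Real.exp (6 * (D * u)) * (D * u) ^ 3)
      = 30 * Real.exp (6 * (D * u)) * D ^ 3 * u := by
    linear_combination (30 * Real.exp (6 * (D * u)) * D ^ 3 * u) * hu2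
  rw [hNu] at hpath
  have hpos : 0 < 1 - u ^ 2 * Φ u := by linarith [hN.1]
  change En (wt J h) f ≤ G u
  calc En (wt J h) f ≤ Real.exp (ε u) * En (stepW A N h) f :=
        En_le_of_ratio (hwt J h) hS hWS hf
    _ ≤ Real.exp (ε u) * ((1 / (1 - u ^ 2 * Φ u)) ^ N *
          (Real.exp (ε u) * RR (wt J h) f + 30 * Real.exp (6 * (D * u)) * D ^ 3 * u *
            (Real.exp (ε u) * E (wt J h) f))) := by
        refine mul_le_mul_of_nonneg_left (hpath.trans (mul_le_mul_of_nonneg_left ?_ (by positivity)))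
          (Real.exp_pos _).le
        exact add_le_add (RR_le_of_ratio hS (hwt J h) hSW hf)
          (mul_le_mul_of_nonneg_left (E_le_of_ratio hSW fun x => (hf x).le) (by positivity))
    _ ≤ G u := by
        simp only [G]
        rw [show (2 : ℝ) * ε u = ε u + ε u by ring, Real.exp_add]
        have hnn : 0 ≤ Real.exp (ε u) * Real.exp (ε u) * (RR (wt J h) f
            + 30 * Real.exp (6 * (D * u)) * D ^ 3 * u * E (wt J h) f) :=
          mul_nonneg (by positivity) (add_nonneg hR0 (mul_nonneg (by positivity) hEp))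
        nlinarith [mul_le_mul_of_nonneg_right hK hnn]

end Vale.Agent.P150.Gap
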