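import Vale.Agent.P150.Gap.Poincare
import Vale.Agent.P150.Gap.EntStep
import Vale.Agent.P150.Gap.Mixing
import Vale.Agent.P150.Lower.LogTime

/-!
For every `β < 1/2` the SK heat-bath dynamics has spectral gap of order one and mixing time of
order `log n`, with probability tending to one.
-/

open MeasureTheory Filter
open scoped Topology

namespace Vale.Agent.P150.Gap

lemma quadLe_scaled {n : ℕ} {M : Fin n → Fin n → ℝ} {a b : ℝ} (ha : 0 ≤ a) (h : QuadLe M b) :
    QuadLe (fun i j => a * M i j) (a * b) := fun v => by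
  simp only [mul_assoc a, ← Finset.mul_sum]
  exact mul_le_mul_of_nonneg_left (h v) ha

/-- For every `0 < β < 1/2` there are `κ, A, c > 0` such that, with probability tending to one,
`κ ≤ gap ≤ 1`, the worst-start total variation distance is at most `1/4` from time `A log n` on,
and above `1/4` up to time `c log n`. -/
theorem below_half (β : ℝ) (hβ0 : 0 < β) (hβ : β < 1 / 2) :
    ∃ κ A c : ℝ, 0 < κ ∧ 0 < A ∧ 0 < c ∧
      Tendsto (fun n => disorder n {g | ¬
        ((∀ f : Conf n → ℝ, κ * (avg β g (fun x => f x ^ 2) - avg β g f ^ 2) ≤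
            -avg β g (fun x => f x * gen β g f x)) ∧
          (∀ lam : ℝ, (∀ f : Conf n → ℝ, lam * (avg β g (fun x => f x ^ 2) - avg β g f ^ 2) ≤
            -avg β g (fun x => f x * gen β g f x)) → lam ≤ 1) ∧
          (∀ t : ℝ, A * Real.log n ≤ t → ∀ x, tvDist β g t x ≤ 1 / 4) ∧
          ∀ t : ℝ, 0 ≤ t → t ≤ c * Real.log n → ∃ x, 1 / 4 < tvDist β g t x)})
        atTop (𝓝 0) := by
  obtain ⟨c, hc, hlow⟩ := Lower.tendsto_atLeastLogMixing hβ0.le
  set ε := (1 - 2 * β) / 20 with hε
  have hε0 : 0 < ε := by rw [hε]; linarith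
  have hε1 : ε ≤ 1 / 20 := by rw [hε]; linarith
  set L := β * (2 + ε) with hL
  set d := β * ε with hd
  set R := β ^ 2 * (1 + ε) with hR
  have hL0 : 0 < L := by rw [hL]; positivity
  have hd20 : d ≤ 1 / 20 :=
    (mul_le_mul hβ.le hε1 hε0.le (by norm_num)).trans (by norm_num)
  have hRL : 2 * R ≤ L := by
    rw [hR, hL]
    have := mul_le_mul_of_nonneg_left (show 2 * β * (1 + ε) ≤ 2 + ε by
      nlinarith [mul_le_mul_of_nonneg_right hβ.le (by linarith : (0:ℝ) ≤ 1 + ε)]) hβ0.le
    linarith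
  have hlt : L + 60 * d * R < 1 := by
    have h2 : β ^ 2 ≤ 1 / 4 := by nlinarith
    have h3 : d * R ≤ ε / 7 := by
      rw [hd, hR]
      calc β * ε * (β ^ 2 * (1 + ε)) ≤ 1 / 2 * ε * (1 / 4 * (21 / 20)) := by gcongr; linarith
        _ ≤ ε / 7 := by linarith
    have h4 : β * ε ≤ ε / 2 := by nlinarith
    rw [hL]; linarith
  set κ := 1 - (L + 60 * d * R) with hκ
  have hκ0 : 0 < κ := by rw [hκ]; linarith
  set K := Real.exp ((L + L) * (1 / κ)) with hK
  set A := K * (1 + Real.log (64 * (1 + (L + L) / 2)) / Real.log 2) with hA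
  have hlog : 0 ≤ Real.log (64 * (1 + (L + L) / 2)) := Real.log_nonneg (by linarith)
  refine ⟨κ, A, c, hκ0,
    mul_pos (Real.exp_pos _) (by have := Real.log_pos one_lt_two; positivity), hc, ?_⟩
  have hlim := ((tendsto_quadLe hε0).add (tendsto_quadLe_neg hε0)).add
    (((tendsto_rows hε0).add (tendsto_entries hε0)).add hlow)
  simp only [add_zero] at hlim
  refine tendsto_of_tendsto_of_tendsto_of_le_of_le' tendsto_const_nhds hlim
    (Eventually.of_forall fun n => bot_le) ?_
  filter_upwards [eventually_ge_atTop 2] with n hn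
  refine (measure_mono (t := (({g | ¬ QuadLe (sym g) ((2 + ε) * √n)} ∪
      {g | ¬ QuadLe (fun i j => -sym g i j) ((2 + ε) * √n)}) ∪
      (({g | ¬ ∀ i, ∑ j, sym g i j ^ 2 ≤ (1 + ε) * n} ∪
      {g | ¬ ∀ i j, |sym g i j| ≤ ε * √n}) ∪
      {g | ¬ Lower.AtLeastLogMixing β g c}))) fun g hg => ?_).trans
    ((measure_union_le _ _).trans (add_le_add (measure_union_le _ _)
      ((measure_union_le _ _).trans (add_le_add (measure_union_le _ _) le_rfl))))
  by_contra hne
  simp only [Set.mem_union, Set.mem_ofPred_eq, not_or, not_not] at hne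
  obtain ⟨⟨h1, h2⟩, ⟨h3, h4⟩, h5⟩ := hne
  have hn0 : (0:ℝ) < n := by exact_mod_cast (show 0 < n by omega)
  have hs : 0 < √(n:ℝ) := Real.sqrt_pos.2 hn0
  set b := β / √n with hb
  have hb0 : 0 ≤ b := by positivity
  have hbs : b * √n = β := div_mul_cancel₀ _ hs.ne'
  have hJ : IsCoupling (skJ β g) := by
    refine ⟨fun i j => ?_, fun i => by simp [skJ, Gap.sym]⟩
    rcases lt_trichotomy i j with h | h | h
    · simp [skJ, Gap.sym, h, h.asymm]
    · simp [h]
    · simp [skJ, Gap.sym, h, h.asymm]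
  have hbL : b * ((2 + ε) * √n) = L := by rw [hL]; linear_combination (2 + ε) * hbs
  have hup : QuadLe (skJ β g) L := by
    have := quadLe_scaled hb0 h1
    rwa [hbL] at this
  have hlo : QuadLe (fun i j => -skJ β g i j) L := by
    have := quadLe_scaled hb0 h2
    rw [hbL] at this
    simpa only [skJ, mul_neg] using this
  have hrow : ∀ i, ∑ j, skJ β g i j ^ 2 ≤ R := fun i => by
    simp only [skJ, mul_pow, ← Finset.mul_sum]
    refine (mul_le_mul_of_nonneg_left (h3 i) (sq_nonneg _)).trans (le_of_eq ?_)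
    rw [div_pow, Real.sq_sqrt hn0.le, hR]
    field_simp
  have hent : ∀ i j, |skJ β g i j| ≤ d := fun i j => by
    rw [skJ, abs_mul, abs_of_nonneg hb0, hd]
    exact (mul_le_mul_of_nonneg_left (h4 i j) hb0).trans (le_of_eq (by linear_combination ε * hbs))
  obtain ⟨hgap, hcov⟩ := covLe_of_bounds hJ hup hrow hent hd20 le_rfl hRL hlt
  have hT := entTensor_of_covLe hJ hup hlo (by linarith) (one_div_pos.2 hκ0).le hcov 0
  refine hg ⟨fun f => ?_, h5.1, fun t ht x => ?_, h5.2⟩
  · have := hgap 0 f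
    rwa [var_skJ, dir_skJ] at this
  · exact mixing_log_of_entTensor β g hn (Real.exp_pos _) hT hup hlo ht x

end Vale.Agent.P150.Gap
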