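import Vale.Agent.P150.Gap.Goe

/-!
Principal blocks of the symmetric Gaussian matrix: small blocks have small norm, large blocks
carry a positive share of the squared entries.
-/

open MeasureTheory ProbabilityTheory Real Filter
open scoped Topology ENNReal

namespace Vale.Agent.P150.Gap

variable {n : ℕ}

/-- Exponential moment of the part of the squares above `A`. -/
lemma excess_mgf (A : ℝ) :
    Integrable (fun g : Fin n → ℝ =>
        exp (1 / 4 * (∑ i, max (g i ^ 2 - A) 0 - 4 * (exp (-(A / 4)) * √2) * n))) (gauss (Fin n)) ∧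
      ∫ g : Fin n → ℝ,
        exp (1 / 4 * (∑ i, max (g i ^ 2 - A) 0 - 4 * (exp (-(A / 4)) * √2) * n))
          ∂gauss (Fin n) ≤ 1 := by
  set r := exp (-(A / 4)) * √2 with hr
  have hb : ∀ t : ℝ, exp (1 / 4 * max (t ^ 2 - A) 0)
      ≤ 1 + exp (-(A / 4)) * exp (1 / 4 * t ^ 2) := fun t => by
    rw [← exp_add]
    rcases le_total (t ^ 2 - A) 0 with h | h
    · rw [max_eq_right h, mul_zero, exp_zero]
      exact le_add_of_nonneg_right (exp_pos _).le
    · rw [max_eq_left h]
      refine le_add_of_nonneg_of_le zero_le_one (exp_le_exp.2 ?_)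
      linarith
  have hq : Integrable (fun t : ℝ => 1 + exp (-(A / 4)) * exp (1 / 4 * t ^ 2))
      (gaussianReal 0 1) :=
    (integrable_const _).add ((integrable_exp_sq (by norm_num)).const_mul _)
  have hi : Integrable (fun t : ℝ => exp (1 / 4 * max (t ^ 2 - A) 0)) (gaussianReal 0 1) :=
    hq.mono' (by fun_prop) (ae_of_all _ fun t => by
      rw [norm_eq_abs, abs_of_pos (exp_pos _)]; exact hb t)
  have h1 : ∫ t : ℝ, exp (1 / 4 * max (t ^ 2 - A) 0) ∂gaussianReal 0 1 ≤ exp r := by
    refine (integral_mono hi hq hb).trans ?_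
    rw [integral_add (integrable_const _) ((integrable_exp_sq (by norm_num)).const_mul _),
      integral_const, probReal_univ, one_smul, integral_const_mul, integral_exp_sq (by norm_num)]
    refine le_trans (le_of_eq ?_) ((add_comm _ _).trans_le (add_one_le_exp r))
    rw [hr, ← sqrt_inv]
    norm_num
  have e : ∀ g : Fin n → ℝ, exp (1 / 4 * (∑ i, max (g i ^ 2 - A) 0 - 4 * r * n))
      = exp (-r) ^ n * ∏ i, exp (1 / 4 * max (g i ^ 2 - A) 0) := fun g => by
    rw [← exp_nat_mul, ← exp_sum, ← exp_add, ← Finset.mul_sum]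
    congr 1
    ring
  simp only [e]
  refine ⟨(Integrable.fintype_prod (f := fun _ t => exp (1 / 4 * max (t ^ 2 - A) 0))
    fun _ => hi).const_mul _, ?_⟩
  rw [integral_const_mul, gauss,
    integral_fintype_prod_eq_prod (fun _ t => exp (1 / 4 * max (t ^ 2 - A) 0)), Finset.prod_const,
    Finset.card_univ, Fintype.card_fin, ← mul_pow]
  refine pow_le_one₀ (mul_nonneg (exp_pos _).le (integral_nonneg fun t => (exp_pos _).le)) ?_
  exact (mul_le_mul_of_nonneg_left h1 (exp_pos _).le).trans_eq (by rw [← exp_add]; simp)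

/-- **Small blocks**: with high probability the quadratic form is at most `δ √n |v|²` on vectors
supported on at most `η n` sites. -/
theorem tendsto_smallBlock {δ : ℝ} (hδ : 0 < δ) : ∃ η : ℝ, 0 < η ∧
    Tendsto (fun n => disorder n {g | ¬ ∀ v : Fin n → ℝ,
      ((Finset.univ.filter fun i => v i ≠ 0).card : ℝ) ≤ η * n →
      ∑ i, ∑ j, sym g i j * v i * v j ≤ δ * √n * ∑ i, v i ^ 2}) atTop (𝓝 0) := by
  set s₀ := δ ^ 2 / 16 with hs₀
  have hs : 0 < s₀ := by positivity
  obtain ⟨A, hA, hA'⟩ : ∃ A : ℝ, 0 < A ∧ 4 * (exp (-(A / 4)) * √2) ≤ s₀ / 2 := by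
    have h : Tendsto (fun A : ℝ => 4 * (exp (-(A / 4)) * √2)) atTop (𝓝 0) := by
      simpa using ((tendsto_exp_neg_atTop_nhds_zero.comp
        (tendsto_id.atTop_div_const (by norm_num : (0:ℝ) < 4))).mul_const √2).const_mul 4
    exact ((eventually_gt_atTop 0).and (h.eventually_le_const (half_pos hs))).exists
  refine ⟨s₀ / (2 * A), by positivity, ?_⟩
  have hsq : Tendsto (fun n : ℕ => δ / 2 * √(n : ℝ) - 1) atTop atTop :=
    tendsto_atTop_add_const_right _ _
      ((tendsto_sqrt_atTop.comp tendsto_natCast_atTop_atTop).const_mul_atTop (by positivity))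
  have hlim := ENNReal.tendsto_ofReal
    ((tendsto_const_nhds (x := (1 : ℝ) + 2 / (1 / 4))).div_atTop hsq)
  rw [ENNReal.ofReal_zero] at hlim
  refine tendsto_of_tendsto_of_tendsto_of_le_of_le' tendsto_const_nhds hlim
    (Eventually.of_forall fun n => bot_le) ?_
  filter_upwards [hsq.eventually_gt_atTop 0, (tendsto_natCast_atTop_atTop.const_mul_atTop
    hs).eventually_ge_atTop 1] with n hn' hn
  set W : Set (Fin n → ℝ) := {w | ∑ i, w i ^ 2 = 1 ∧
    ((Finset.univ.filter fun i => w i ≠ 0).card : ℝ) ≤ s₀ / (2 * A) * n}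
  set κ := 4 * (exp (-(A / 4)) * √2) with hκ
  set Φ := fun g : Fin n → ℝ => (s₀ - κ) * n + ∑ i, max (g i ^ 2 - A) 0 with hΦ
  obtain ⟨hEi, hEle⟩ := excess_mgf (n := n) A
  have hΦ0 : ∀ g, 0 ≤ Φ g := fun g => add_nonneg
    (mul_nonneg (by linarith) (Nat.cast_nonneg n)) (Finset.sum_nonneg fun i _ => le_max_right _ _)
  have hlin : ∀ w ∈ W, ∀ g : Fin n → ℝ, ∑ i, g i * w i ≤ √(Φ g) := by
    intro w hw g
    set F := Finset.univ.filter fun i => w i ≠ 0
    have h1 : ∑ i, g i * w i = ∑ i ∈ F, g i * w i := by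
      refine (Finset.sum_subset (Finset.subset_univ F) fun i _ hi => ?_).symm
      simp only [F, Finset.mem_filter, Finset.mem_univ, true_and, not_not] at hi
      simp [hi]
    rw [h1]
    refine (sum_mul_le_sqrt_mul_sqrt F g w).trans ?_
    refine (mul_le_of_le_one_right (sqrt_nonneg _) (sqrt_le_one.2 ?_)).trans (sqrt_le_sqrt ?_)
    · rw [← hw.1]
      exact Finset.sum_le_sum_of_subset_of_nonneg (Finset.subset_univ F) fun i _ _ => sq_nonneg _
    · calc ∑ i ∈ F, g i ^ 2 ≤ ∑ i ∈ F, (A + max (g i ^ 2 - A) 0) :=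
            Finset.sum_le_sum fun i _ => by linarith [le_max_left (g i ^ 2 - A) 0]
        _ ≤ _ := by
          rw [Finset.sum_add_distrib, Finset.sum_const, nsmul_eq_mul, hΦ]
          refine add_le_add ?_ (Finset.sum_le_sum_of_subset_of_nonneg (Finset.subset_univ F)
            fun i _ _ => le_max_right _ _)
          refine (mul_le_mul_of_nonneg_right hw.2 hA.le).trans ?_
          rw [show s₀ / (2 * A) * n * A = s₀ / 2 * n by field_simp]
          exact mul_le_mul_of_nonneg_right (by linarith) (Nat.cast_nonneg n)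
  have e : ∀ g, 1 / 4 * (Φ g - s₀ * n) = 1 / 4 * (∑ i, max (g i ^ 2 - A) 0 - κ * n) := fun g => by
    simp only [hΦ]; ring
  have hroot : 2 * √(s₀ * n) = δ / 2 * √n := by
    rw [sqrt_mul hs.le, hs₀, show δ ^ 2 / 16 = (δ / 4) ^ 2 by ring, sqrt_sq (by positivity)]; ring
  have h := prob_quad_le (T := δ * √n) (σ := s₀ * n) (a := 1 / 4) W (fun w hw => hw.1) Φ hΦ0 hlin
    (by norm_num) hn (by simpa only [e] using hEi) (by simpa only [e] using hEle) (by linarith)
  rw [disorder_eq]
  refine le_trans (measure_mono ?_) (h.trans (le_of_eq (by rw [hroot]; ring_nf)))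
  intro g hg
  simp only [Set.mem_ofPred_eq, not_forall, not_le] at hg
  obtain ⟨v, hcard, hv⟩ := hg
  obtain ⟨r, hr1, hr2⟩ := exists_unit_of_quad hv
  refine ⟨fun i => v i / r, ⟨hr1, le_trans (Nat.cast_le.2 (Finset.card_le_card fun i hi => ?_))
    hcard⟩, hr2⟩
  simp only [Finset.mem_filter, Finset.mem_univ, true_and] at hi ⊢
  exact fun h0 => hi (by simp [h0])

/-- **Large blocks**: with high probability every block of more than `η n` sites carries at least
`ρ n²` of squared entries. -/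
theorem tendsto_blockLow {η : ℝ} (hη : 0 < η) : ∃ ρ : ℝ, 0 < ρ ∧
    Tendsto (fun n => disorder n {g | ¬ ∀ S : Finset (Fin n), η * n < S.card →
      ρ * (n : ℝ) ^ 2 ≤ ∑ i ∈ S, ∑ j ∈ S, sym g i j ^ 2}) atTop (𝓝 0) := by
  set b := η ^ 2 / 16 with hbdef
  have hb : 0 < b := by positivity
  obtain ⟨A, hA, hA'⟩ : ∃ A : ℝ, 0 < A ∧ 2 * (√(1 + 2 * A))⁻¹ ≤ b := by
    have h : Tendsto (fun A : ℝ => 2 * (√(1 + 2 * A))⁻¹) atTop (𝓝 0) := by
      simpa using (tendsto_inv_atTop_zero.comp (tendsto_sqrt_atTop.comp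
        (tendsto_atTop_add_const_left atTop 1
          (tendsto_id.const_mul_atTop (two_pos : (0:ℝ) < 2))))).const_mul 2
    exact ((eventually_gt_atTop 0).and (h.eventually_le_const hb)).exists
  refine ⟨η ^ 2 / (4 * A), by positivity, ?_⟩
  have hlim : Tendsto (fun n : ℕ => ENNReal.ofReal (exp (-b) ^ n)) atTop (𝓝 0) := by
    simpa using ENNReal.tendsto_ofReal
      (tendsto_pow_atTop_nhds_zero_of_lt_one (exp_pos _).le (exp_lt_one_iff.2 (neg_lt_zero.2 hb)))
  refine tendsto_of_tendsto_of_tendsto_of_le_of_le' tendsto_const_nhds hlim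
    (Eventually.of_forall fun n => bot_le) ?_
  filter_upwards [eventually_gt_atTop 0, (tendsto_natCast_atTop_atTop.const_mul_atTop
    hη).eventually_ge_atTop 2] with n hn hn2
  have hn1 : (1 : ℝ) ≤ n := by exact_mod_cast hn
  rw [disorder_eq]
  set F := fun g : Edge n → ℝ => exp (∑ e, exp (-A * g e ^ 2) - 2 * b * (n : ℝ) ^ 2) with hF
  have hf : ∀ t : ℝ, exp (exp (-A * t ^ 2)) ≤ 1 + 2 * exp (-A * t ^ 2) := by
    intro t
    have h := convexOn_exp.2 (Set.mem_univ (0 : ℝ)) (Set.mem_univ (1 : ℝ))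
      (sub_nonneg.2 (exp_le_one_iff.2 (by nlinarith [sq_nonneg t] : -A * t ^ 2 ≤ 0)))
      (exp_pos (-A * t ^ 2)).le (sub_add_cancel _ _)
    simp only [smul_eq_mul, mul_zero, mul_one, zero_add, exp_zero] at h
    nlinarith [exp_one_lt_three, exp_pos (-A * t ^ 2)]
  have hi : Integrable (fun t : ℝ => exp (exp (-A * t ^ 2))) (gaussianReal 0 1) :=
    ((integrable_const _).add ((integrable_exp_sq (a := -A) (by linarith)).const_mul 2)).mono'
      (by fun_prop) (ae_of_all _ fun t => by
        rw [norm_eq_abs, abs_of_pos (exp_pos _)]; exact hf t)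
  have h1 : ∫ t : ℝ, exp (exp (-A * t ^ 2)) ∂gaussianReal 0 1 ≤ exp b := by
    refine (integral_mono hi
      ((integrable_const _).add ((integrable_exp_sq (a := -A) (by linarith)).const_mul 2)) hf).trans ?_
    rw [integral_add' (integrable_const _) ((integrable_exp_sq (a := -A) (by linarith)).const_mul 2),
      integral_const, probReal_univ, one_smul, integral_const_mul, integral_exp_sq (a := -A) (by linarith),
      show 1 - 2 * -A = 1 + 2 * A by ring]
    linarith [add_one_le_exp b]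
  have e : ∀ g : Edge n → ℝ, F g =
      exp (-(2 * b * (n : ℝ) ^ 2)) * ∏ e, exp (exp (-A * g e ^ 2)) := fun g => by
    simp only [hF]
    rw [← exp_sum, ← exp_add]
    congr 1
    ring
  have hFi : Integrable F (gauss (Edge n)) := by
    simp only [funext e]
    exact (Integrable.fintype_prod (f := fun _ t => exp (exp (-A * t ^ 2))) fun _ => hi).const_mul _
  have hFle : ∫ g, F g ∂gauss (Edge n) ≤ exp (-b) ^ n := by
    simp only [e]
    rw [integral_const_mul, gauss,
      integral_fintype_prod_eq_prod (fun _ t => exp (exp (-A * t ^ 2))), Finset.prod_const,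
      Finset.card_univ, ← exp_nat_mul]
    have hc : (Fintype.card (Edge n) : ℝ) ≤ (n : ℝ) ^ 2 := by
      have := Fintype.card_subtype_le fun p : Fin n × Fin n => p.1 < p.2
      simp only [Fintype.card_prod, Fintype.card_fin] at this
      rw [sq]
      exact_mod_cast this
    refine (mul_le_mul_of_nonneg_left
      (pow_le_pow_left₀ (integral_nonneg fun t => (exp_pos _).le) h1 _) (exp_pos _).le).trans ?_
    rw [← exp_nat_mul, ← exp_add, exp_le_exp]
    nlinarith [mul_le_mul_of_nonneg_right hc hb.le, mul_le_mul_of_nonneg_left hn1 (Nat.cast_nonneg n)]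
  refine le_trans (measure_mono (t := {g | (1 : ℝ≥0∞) ≤ ENNReal.ofReal (F g)}) fun g hg => ?_)
    (((mul_meas_ge_le_lintegral₀ hFi.aestronglyMeasurable.aemeasurable.ennreal_ofReal 1).trans'
      (one_mul _).ge).trans ?_)
  swap
  · rw [← ofReal_integral_eq_lintegral_ofReal hFi (ae_of_all _ fun g => (exp_pos _).le)]
    exact ENNReal.ofReal_le_ofReal hFle
  simp only [Set.mem_ofPred_eq, ENNReal.one_le_ofReal, hF, one_le_exp_iff, sub_nonneg]
  simp only [Set.mem_ofPred_eq, not_forall, not_le] at hg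
  obtain ⟨S, hS, hlt⟩ := hg
  have hpt : ∀ t : ℝ, 1 - A * t ^ 2 ≤ exp (-A * t ^ 2) := fun t => by
    linarith [add_one_le_exp (-A * t ^ 2)]
  set ind : Fin n → ℝ := fun i => if i ∈ S then 1 else 0
  have hpair : (S.card : ℝ) ^ 2 - S.card ≤ A * (∑ i ∈ S, ∑ j ∈ S, sym g i j ^ 2) +
      2 * ∑ e : Edge n, exp (-A * g e ^ 2) := by
    have h2 := sum_sym_eq (f := fun i j => ind i * ind j * (1 - A * sym g i j ^ 2))
      fun i j => by rw [sym_comm g i j]; ring
    have hL : ∑ i, ∑ j, ind i * ind j * (1 - A * sym g i j ^ 2)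
        = (S.card : ℝ) ^ 2 - A * ∑ i ∈ S, ∑ j ∈ S, sym g i j ^ 2 := by
      simp only [ind, ite_mul, one_mul, zero_mul, sq]
      simp only [Finset.sum_ite_irrel, Finset.sum_const_zero, Finset.sum_sub_distrib,
        Finset.sum_ite_mem, Finset.univ_inter, Finset.sum_const, nsmul_eq_mul, mul_one,
        ← Finset.mul_sum]
    have hD : ∑ i, ind i * ind i * (1 - A * sym g i i ^ 2) = (S.card : ℝ) := by
      simp [sym_self, ind]
    rw [hL, hD] at h2
    have h3 : ∑ e : Edge n, ind e.1.1 * ind e.1.2 * (1 - A * sym g e.1.1 e.1.2 ^ 2)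
        ≤ ∑ e : Edge n, exp (-A * g e ^ 2) := Finset.sum_le_sum fun e _ => by
      rw [sym_of_lt g e.2]
      simp only [ind]
      split_ifs
      · linarith [hpt (g e)]
      all_goals simp [(exp_pos _).le]
    linarith
  have hAS : A * (∑ i ∈ S, ∑ j ∈ S, sym g i j ^ 2) ≤ η ^ 2 / 4 * (n : ℝ) ^ 2 := by
    refine (mul_le_mul_of_nonneg_left hlt.le hA.le).trans_eq ?_
    field_simp
  have hS2 : η ^ 2 / 2 * (n : ℝ) ^ 2 ≤ (S.card : ℝ) ^ 2 - S.card := by nlinarith
  rw [hbdef]
  linarith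

end Vale.Agent.P150.Gap
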