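import Vale.Agent.P150.Gap.Model

/-!
Expectation, entropy and one-site entropy of a finite positive weight, and their behaviour under
comparison and mixtures of weights.
-/

open Finset

namespace Vale.Agent.P150.Gap.EntW

variable {n : ℕ}

/-- Total weight. -/
noncomputable def Z (W : Conf n → ℝ) : ℝ := ∑ y, W y

/-- Normalised weight. -/
noncomputable def pr (W : Conf n → ℝ) (x : Conf n) : ℝ := W x / Z W

/-- Expectation. -/
noncomputable def E (W : Conf n → ℝ) (f : Conf n → ℝ) : ℝ := ∑ x, pr W x * f x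

/-- Conditional expectation given all spins but the one at `i`. -/
noncomputable def cnd (W : Conf n → ℝ) (i : Fin n) (f : Conf n → ℝ) (x : Conf n) : ℝ :=
  (pr W x * f x + pr W (flipAt i x) * f (flipAt i x)) / (pr W x + pr W (flipAt i x))

/-- Entropy. -/
noncomputable def En (W : Conf n → ℝ) (f : Conf n → ℝ) : ℝ :=
  E W (fun x => f x * Real.log (f x)) - E W f * Real.log (E W f)

/-- Covariance. -/
noncomputable def C2 (W : Conf n → ℝ) (f g : Conf n → ℝ) : ℝ :=
  E W (fun x => f x * g x) - E W f * E W g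

/-- Sum of the expected one-site entropies. -/
noncomputable def RR (W : Conf n → ℝ) (f : Conf n → ℝ) : ℝ :=
  ∑ i, E W fun x =>
    cnd W i (fun y => f y * Real.log (f y)) x - cnd W i f x * Real.log (cnd W i f x)

theorem flip_flip (i : Fin n) (x : Conf n) : flipAt i (flipAt i x) = x := by
  unfold flipAt; funext j; by_cases hj : j = i
  · subst hj; simp
  · simp [hj]

theorem sum_flip (i : Fin n) (G : Conf n → ℝ) : ∑ x, G (flipAt i x) = ∑ x, G x :=
  Function.Bijective.sum_comp (Function.Involutive.bijective (flip_flip i)) G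

section basic
variable {W V : Conf n → ℝ}

theorem Z_pos (hW : ∀ x, 0 < W x) : 0 < Z W := Finset.sum_pos (fun x _ => hW x) univ_nonempty

theorem pr_pos (hW : ∀ x, 0 < W x) (x : Conf n) : 0 < pr W x := div_pos (hW x) (Z_pos hW)

theorem sum_pr (hW : ∀ x, 0 < W x) : ∑ x, pr W x = 1 := by
  unfold pr; rw [← Finset.sum_div]; exact div_self (Z_pos hW).ne'

theorem E_const (hW : ∀ x, 0 < W x) (c : ℝ) : E W (fun _ => c) = c := by
  simp only [E, ← Finset.sum_mul, sum_pr hW, one_mul]

theorem E_add (f g : Conf n → ℝ) : E W (fun x => f x + g x) = E W f + E W g := by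
  simp only [E, mul_add, Finset.sum_add_distrib]

theorem E_sub (f g : Conf n → ℝ) : E W (fun x => f x - g x) = E W f - E W g := by
  simp only [E, mul_sub, Finset.sum_sub_distrib]

theorem E_mul_left (c : ℝ) (f : Conf n → ℝ) : E W (fun x => c * f x) = c * E W f := by
  simp only [E, Finset.mul_sum]; exact Finset.sum_congr rfl fun x _ => by ring

theorem E_mul_right (c : ℝ) (f : Conf n → ℝ) : E W (fun x => f x * c) = E W f * c := by
  simp only [E, Finset.sum_mul]; exact Finset.sum_congr rfl fun x _ => by ring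

theorem E_finset_sum {ι : Type*} (s : Finset ι) (g : ι → Conf n → ℝ) :
    E W (fun x => ∑ i ∈ s, g i x) = ∑ i ∈ s, E W (g i) := by
  simp only [E, Finset.mul_sum]; exact Finset.sum_comm

theorem E_mono (hW : ∀ x, 0 < W x) {f g : Conf n → ℝ} (h : ∀ x, f x ≤ g x) : E W f ≤ E W g :=
  Finset.sum_le_sum fun x _ => mul_le_mul_of_nonneg_left (h x) (pr_pos hW x).le

theorem E_pos (hW : ∀ x, 0 < W x) {f : Conf n → ℝ} (h : ∀ x, 0 < f x) : 0 < E W f :=
  Finset.sum_pos (fun x _ => mul_pos (pr_pos hW x) (h x)) univ_nonempty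

theorem E_nonneg (hW : ∀ x, 0 < W x) {f : Conf n → ℝ} (h : ∀ x, 0 ≤ f x) : 0 ≤ E W f :=
  Finset.sum_nonneg fun x _ => mul_nonneg (pr_pos hW x).le (h x)

theorem abs_E_le (hW : ∀ x, 0 < W x) {f : Conf n → ℝ} {b : ℝ} (h : ∀ x, |f x| ≤ b) :
    |E W f| ≤ b := by
  rw [abs_le]
  exact ⟨(E_const hW (-b)).ge.trans (E_mono hW fun x => (abs_le.1 (h x)).1),
    (E_mono hW fun x => (abs_le.1 (h x)).2).trans (E_const hW b).le⟩

theorem abs_C2_le (hW : ∀ x, 0 < W x) {f g : Conf n → ℝ} {b : ℝ} (hf : ∀ x, 0 ≤ f x)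
    (h : ∀ x, |g x| ≤ b) : |C2 W f g| ≤ 2 * b * E W f := by
  have h1 : |E W (fun x => f x * g x)| ≤ b * E W f := by
    rw [abs_le, ← neg_mul, ← E_mul_left, ← E_mul_left]
    constructor <;> refine E_mono hW fun x => ?_
    · nlinarith [mul_le_mul_of_nonneg_left (abs_le.1 (h x)).1 (hf x)]
    · nlinarith [mul_le_mul_of_nonneg_left (abs_le.1 (h x)).2 (hf x)]
  have h2 : |E W f * E W g| ≤ E W f * b := by
    rw [abs_mul, abs_of_nonneg (E_nonneg hW hf)]
    exact mul_le_mul_of_nonneg_left (abs_E_le hW h) (E_nonneg hW hf)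
  unfold C2
  have h3 := (abs_le.1 h1)
  have h4 := (abs_le.1 h2)
  rw [abs_le]; constructor <;> nlinarith

theorem cnd_flip (i : Fin n) (f : Conf n → ℝ) (x : Conf n) :
    cnd W i f (flipAt i x) = cnd W i f x := by
  simp only [cnd, flip_flip]
  congr 1 <;> ring

theorem cnd_pos (hW : ∀ x, 0 < W x) (i : Fin n) {f : Conf n → ℝ} (hf : ∀ x, 0 < f x) (x : Conf n) :
    0 < cnd W i f x :=
  div_pos (add_pos (mul_pos (pr_pos hW _) (hf _)) (mul_pos (pr_pos hW _) (hf _)))
    (add_pos (pr_pos hW _) (pr_pos hW _))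

theorem E_cnd_mul (hW : ∀ x, 0 < W x) (i : Fin n) (f H : Conf n → ℝ)
    (hH : ∀ x, H (flipAt i x) = H x) :
    E W (fun x => cnd W i f x * H x) = E W (fun x => f x * H x) := by
  have hflip : ∀ G : Conf n → ℝ,
      2 * ∑ x, G x = ∑ x, (G x + G (flipAt i x)) := fun G => by
    rw [Finset.sum_add_distrib, sum_flip i G]; ring
  have h2 : 2 * E W (fun x => cnd W i f x * H x) = 2 * E W (fun x => f x * H x) := by
    rw [E, E, hflip, hflip]
    refine Finset.sum_congr rfl fun x _ => ?_
    rw [cnd_flip, hH]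
    have : pr W x + pr W (flipAt i x) ≠ 0 := (add_pos (pr_pos hW _) (pr_pos hW _)).ne'
    unfold cnd
    field_simp
  linarith

theorem E_cnd (hW : ∀ x, 0 < W x) (i : Fin n) (f : Conf n → ℝ) :
    E W (cnd W i f) = E W f := by
  simpa using E_cnd_mul hW i f (fun _ => 1) (fun _ => rfl)

/-- One-site entropy as a difference of two expectations. -/
theorem RR_eq (hW : ∀ x, 0 < W x) (f : Conf n → ℝ) :
    RR W f = ∑ i, (E W (fun x => f x * Real.log (f x))
      - E W (fun x => cnd W i f x * Real.log (cnd W i f x))) := by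
  unfold RR
  exact Finset.sum_congr rfl fun i _ => by rw [E_sub, E_cnd hW]

theorem klf_nonneg {a c : ℝ} (ha : 0 < a) (hc : 0 < c) :
    0 ≤ a * Real.log a - a * Real.log c - a + c := by
  have h := Real.log_le_sub_one_of_pos (div_pos hc ha)
  rw [Real.log_div hc.ne' ha.ne'] at h
  have h' := mul_le_mul_of_nonneg_left h ha.le
  rw [mul_sub, mul_sub, mul_div_cancel₀ c ha.ne', mul_one] at h'
  linarith

theorem E_le_of_ratio {K : ℝ} (h : ∀ x, pr W x ≤ K * pr V x) {g : Conf n → ℝ}
    (hg : ∀ x, 0 ≤ g x) : E W g ≤ K * E V g := by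
  rw [E, E, Finset.mul_sum]
  exact Finset.sum_le_sum fun x _ => by nlinarith [mul_le_mul_of_nonneg_right (h x) (hg x)]

theorem C2_self_eq (hW : ∀ x, 0 < W x) (g : Conf n → ℝ) (c : ℝ) :
    E W (fun x => (g x - c) ^ 2) = C2 W g g + (E W g - c) ^ 2 := by
  have : (fun x => (g x - c) ^ 2) = fun x => g x * g x - (2 * c) * g x + c ^ 2 := by
    funext x; ring
  rw [this, E_add, E_sub, E_mul_left, E_const hW, C2]
  ring

theorem C2_self_le_of_ratio (hW : ∀ x, 0 < W x) (hV : ∀ x, 0 < V x) {K : ℝ}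
    (h : ∀ x, pr W x ≤ K * pr V x) (g : Conf n → ℝ) : C2 W g g ≤ K * C2 V g g := by
  have h1 := E_le_of_ratio h (g := fun x => (g x - E V g) ^ 2) (fun x => sq_nonneg _)
  rw [C2_self_eq hW, C2_self_eq hV, sub_self] at h1
  nlinarith [sq_nonneg (E W g - E V g)]

theorem En_le_of_ratio (hW : ∀ x, 0 < W x) (hV : ∀ x, 0 < V x) {K : ℝ}
    (h : ∀ x, pr W x ≤ K * pr V x) {f : Conf n → ℝ} (hf : ∀ x, 0 < f x) :
    En W f ≤ K * En V f := by
  set c := E V f with hc
  have hcp : 0 < c := E_pos hV hf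
  have key : ∀ U : Conf n → ℝ, (∀ x, 0 < U x) →
      E U (fun x => f x * Real.log (f x) - f x * Real.log c - f x + c)
        = En U f + (E U f * Real.log (E U f) - E U f * Real.log c - E U f + c) := by
    intro U hU
    rw [E_add, E_sub, E_sub, E_mul_right, E_const hU, En]; ring
  have h1 := E_le_of_ratio h (g := fun x => f x * Real.log (f x) - f x * Real.log c - f x + c)
    (fun x => klf_nonneg (hf x) hcp)
  rw [key W hW, key V hV, ← hc] at h1
  have h2 := klf_nonneg (E_pos hW hf) hcp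
  have h3 : K * (En V f + (c * Real.log c - c * Real.log c - c + c)) = K * En V f := by ring
  linarith

theorem RR_le_of_ratio (hW : ∀ x, 0 < W x) (hV : ∀ x, 0 < V x) {K : ℝ}
    (h : ∀ x, pr W x ≤ K * pr V x) {f : Conf n → ℝ} (hf : ∀ x, 0 < f x) :
    RR W f ≤ K * RR V f := by
  rw [RR_eq hW, RR_eq hV, Finset.mul_sum]
  refine Finset.sum_le_sum fun i _ => ?_
  set c := cnd V i f with hc
  have hcp : ∀ x, 0 < c x := cnd_pos hV i hf
  have key : ∀ U : Conf n → ℝ, (∀ x, 0 < U x) →
      E U (fun x => f x * Real.log (f x) - f x * Real.log (c x) - f x + c x)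
        = E U (fun x => f x * Real.log (f x)) - E U (fun x => cnd U i f x * Real.log (cnd U i f x))
          + E U (fun x => cnd U i f x * Real.log (cnd U i f x) - cnd U i f x * Real.log (c x)
              - cnd U i f x + c x) := by
    intro U hU
    simp only [E_add, E_sub]
    rw [E_cnd hU, E_cnd_mul hU i f (fun x => Real.log (c x))
      (fun x => by rw [hc, cnd_flip])]
    ring
  have h1 := E_le_of_ratio h
    (g := fun x => f x * Real.log (f x) - f x * Real.log (c x) - f x + c x)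
    (fun x => klf_nonneg (hf x) (hcp x))
  rw [key W hW, key V hV] at h1
  have h2 := E_nonneg hW (f := fun x => cnd W i f x * Real.log (cnd W i f x)
      - cnd W i f x * Real.log (c x) - cnd W i f x + c x)
    (fun x => klf_nonneg (cnd_pos hW i hf x) (hcp x))
  have h3 : E V (fun x => cnd V i f x * Real.log (cnd V i f x) - cnd V i f x * Real.log (c x)
      - cnd V i f x + c x) = 0 := by
    rw [show (fun x => cnd V i f x * Real.log (cnd V i f x) - cnd V i f x * Real.log (c x)
      - cnd V i f x + c x) = fun _ => (0 : ℝ) from funext fun x => by rw [hc]; ring]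
    exact E_const hV 0
  rw [h3, add_zero] at h1
  linarith

theorem pr_le_of_bounds (hV : ∀ x, 0 < V x) {lo hi : ℝ} (hlo : 0 < lo)
    (h1 : ∀ x, lo * V x ≤ W x) (h2 : ∀ x, W x ≤ hi * V x) (x : Conf n) :
    pr W x ≤ hi / lo * pr V x := by
  have hZ : lo * Z V ≤ Z W := by
    rw [Z, Z, Finset.mul_sum]; exact Finset.sum_le_sum fun y _ => h1 y
  have hZV := Z_pos hV
  have hhi : 0 ≤ hi * V x := le_trans (le_trans (mul_pos hlo (hV x)).le (h1 x)) (h2 x)
  unfold pr
  calc W x / Z W ≤ (hi * V x) / (lo * Z V) :=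
        div_le_div₀ hhi (h2 x) (mul_pos hlo hZV) hZ
    _ = hi / lo * (V x / Z V) := by field_simp

/-- Log-sum inequality. -/
theorem log_sum_le {ι : Type*} (s : Finset ι) (a b : ι → ℝ) (ha : ∀ z ∈ s, 0 < a z)
    (hb : ∀ z ∈ s, 0 < b z) (hs : s.Nonempty) :
    (∑ z ∈ s, a z) * Real.log ((∑ z ∈ s, a z) / ∑ z ∈ s, b z)
      ≤ ∑ z ∈ s, a z * Real.log (a z / b z) := by
  set A := ∑ z ∈ s, a z
  set B := ∑ z ∈ s, b z
  have hA : 0 < A := Finset.sum_pos ha hs
  have hB : 0 < B := Finset.sum_pos hb hs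
  have h : ∀ z ∈ s, a z * Real.log (A / B) + a z - b z * (A / B) ≤ a z * Real.log (a z / b z) := by
    intro z hz
    have := klf_nonneg (ha z hz) (mul_pos (hb z hz) (div_pos hA hB))
    rw [Real.log_mul (hb z hz).ne' (div_pos hA hB).ne'] at this
    rw [Real.log_div (ha z hz).ne' (hb z hz).ne']
    linarith
  refine le_trans (le_of_eq ?_) (Finset.sum_le_sum h)
  rw [Finset.sum_sub_distrib, Finset.sum_add_distrib, ← Finset.sum_mul, ← Finset.sum_mul]
  change A * Real.log (A / B) = A * Real.log (A / B) + A - B * (A / B)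
  rw [mul_div_cancel₀ A hB.ne']; ring

end basic

section mixture
variable {ι : Type*} [Fintype ι] [Nonempty ι] {V : ι → Conf n → ℝ}

/-- Weight of a component of a mixture. -/
noncomputable def wgt (V : ι → Conf n → ℝ) (z : ι) : ℝ := Z (V z) / ∑ z', Z (V z')

theorem sum_pos_of (hV : ∀ z x, 0 < V z x) (x : Conf n) : 0 < ∑ z, V z x :=
  Finset.sum_pos (fun z _ => hV z x) univ_nonempty

omit [Nonempty ι] in
theorem wgt_nonneg (hV : ∀ z x, 0 < V z x) (z : ι) : 0 ≤ wgt V z :=
  div_nonneg (Z_pos (hV z)).le (Finset.sum_nonneg fun z' _ => (Z_pos (hV z')).le)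

theorem sum_wgt (hV : ∀ z x, 0 < V z x) : ∑ z, wgt V z = 1 := by
  unfold wgt; rw [← Finset.sum_div]
  exact div_self (Finset.sum_pos (fun z _ => Z_pos (hV z)) univ_nonempty).ne'

omit [Nonempty ι] in
theorem pr_mix (hV : ∀ z x, 0 < V z x) (x : Conf n) :
    pr (fun y => ∑ z, V z y) x = ∑ z, wgt V z * pr (V z) x := by
  have hZ : Z (fun y => ∑ z, V z y) = ∑ z, Z (V z) := by unfold Z; exact Finset.sum_comm
  simp only [pr, wgt, hZ, Finset.sum_div]
  exact Finset.sum_congr rfl fun z _ => by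
    have := (Z_pos (hV z)).ne'
    field_simp

theorem E_mix (hV : ∀ z x, 0 < V z x) (g : Conf n → ℝ) :
    E (fun y => ∑ z, V z y) g = ∑ z, wgt V z * E (V z) g := by
  simp only [E, pr_mix hV, Finset.sum_mul, Finset.mul_sum]
  rw [Finset.sum_comm]
  exact Finset.sum_congr rfl fun z _ => Finset.sum_congr rfl fun x _ => by ring

theorem En_mix (hV : ∀ z x, 0 < V z x) (f : Conf n → ℝ) :
    En (fun y => ∑ z, V z y) f = (∑ z, wgt V z * En (V z) f)
      + ((∑ z, wgt V z * (E (V z) f * Real.log (E (V z) f)))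
        - E (fun y => ∑ z, V z y) f * Real.log (E (fun y => ∑ z, V z y) f)) := by
  simp only [En]
  rw [E_mix hV (fun x => f x * Real.log (f x))]
  simp only [mul_sub, Finset.sum_sub_distrib]
  ring

theorem RR_mix_le (hV : ∀ z x, 0 < V z x) {f : Conf n → ℝ} (hf : ∀ x, 0 < f x) :
    ∑ z, wgt V z * RR (V z) f ≤ RR (fun y => ∑ z, V z y) f := by
  have hW : ∀ x, 0 < (fun y => ∑ z, V z y) x := sum_pos_of hV
  simp only [RR_eq hW, RR_eq (hV _), Finset.mul_sum]
  rw [Finset.sum_comm]
  refine Finset.sum_le_sum fun i _ => ?_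
  simp only [mul_sub, Finset.sum_sub_distrib, ← E_mix hV]
  refine sub_le_sub_left ?_ _
  set W := fun y => ∑ z, V z y with hWdef
  suffices h : 2 * E W (fun x => cnd W i f x * Real.log (cnd W i f x))
      ≤ 2 * ∑ z, wgt V z * E (V z) (fun x => cnd (V z) i f x * Real.log (cnd (V z) i f x)) by
    linarith
  have hflip : ∀ G : Conf n → ℝ, 2 * ∑ x, G x = ∑ x, (G x + G (flipAt i x)) := fun G => by
    rw [Finset.sum_add_distrib, sum_flip i G]; ring
  have hR : ∑ z, wgt V z * E (V z) (fun x => cnd (V z) i f x * Real.log (cnd (V z) i f x))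
      = ∑ x, ∑ z, wgt V z * (pr (V z) x * (cnd (V z) i f x * Real.log (cnd (V z) i f x))) := by
    simp only [E, Finset.mul_sum]; exact Finset.sum_comm
  rw [hR, E, hflip, hflip]
  refine Finset.sum_le_sum fun x _ => ?_
  simp only [cnd_flip, ← Finset.sum_add_distrib, ← mul_assoc, ← add_mul, ← mul_add]
  let a : ι → ℝ := fun z => wgt V z * (pr (V z) x * f x + pr (V z) (flipAt i x) * f (flipAt i x))
  let b : ι → ℝ := fun z => wgt V z * (pr (V z) x + pr (V z) (flipAt i x))
  have hw : ∀ z, 0 < wgt V z := fun z =>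
    div_pos (Z_pos (hV z)) (Finset.sum_pos (fun z' _ => Z_pos (hV z')) univ_nonempty)
  have hab : ∀ z, cnd (V z) i f x = a z / b z := fun z => by
    simp only [cnd, a, b, mul_div_mul_left _ _ (hw z).ne']
  have hb : ∀ z, 0 < b z := fun z => mul_pos (hw z) (add_pos (pr_pos (hV z) _) (pr_pos (hV z) _))
  have ha : ∀ z, 0 < a z := fun z => mul_pos (hw z) (add_pos (mul_pos (pr_pos (hV z) _) (hf _))
    (mul_pos (pr_pos (hV z) _) (hf _)))
  have hA : pr W x * f x + pr W (flipAt i x) * f (flipAt i x) = ∑ z, a z := by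
    simp only [hWdef, pr_mix hV, Finset.sum_mul, ← Finset.sum_add_distrib, a]
    exact Finset.sum_congr rfl fun z _ => by ring
  have hB : pr W x + pr W (flipAt i x) = ∑ z, b z := by
    simp only [hWdef, pr_mix hV, ← Finset.sum_add_distrib, b, mul_add]
  have hls := log_sum_le univ a b (fun z _ => ha z) (fun z _ => hb z) univ_nonempty
  calc (pr W x + pr W (flipAt i x)) * cnd W i f x * Real.log (cnd W i f x)
      = (∑ z, a z) * Real.log ((∑ z, a z) / ∑ z, b z) := by
        simp only [cnd, hA, hB]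
        rw [mul_div_cancel₀ _ (Finset.sum_pos (fun z _ => hb z) univ_nonempty).ne']
    _ ≤ ∑ z, a z * Real.log (a z / b z) := hls
    _ = _ := Finset.sum_congr rfl fun z _ => by
        rw [hab z]
        have := (hb z).ne'
        simp only [b] at *
        field_simp
        rw [eq_div_iff this]
        ring

end mixture

end Vale.Agent.P150.Gap.EntW
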