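import Vale.Agent.P150.Gap.EntBasics

/-!
Tensorisation for product weights, entropic stability from a variance bound under exponential
tilts, and scalar estimates.
-/

open Finset

namespace Vale.Agent.P150.Gap.EntW

variable {n : ℕ}

/-- Product weight with field `h`. -/
noncomputable def fieldW (h : Fin n → ℝ) (x : Conf n) : ℝ := Real.exp (∑ i, h i * spin x i)

theorem fieldW_pos (h : Fin n → ℝ) (x : Conf n) : 0 < fieldW h x := Real.exp_pos _

/-- Marginal of site `i` at the value `x i`. -/
noncomputable def marg (h : Fin n → ℝ) (i : Fin n) (x : Conf n) : ℝ :=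
  Real.exp (h i * spin x i) / (Real.exp (h i * spin x i) + Real.exp (-(h i * spin x i)))

theorem spin_flip_self (i : Fin n) (x : Conf n) : spin (flipAt i x) i = -spin x i := by
  cases hx : x i <;> simp [spin, flipAt, hx]

theorem spin_flip_ne {i j : Fin n} (hij : j ≠ i) (x : Conf n) :
    spin (flipAt i x) j = spin x j := by
  simp [spin, flipAt, hij]

theorem flip_comm {i j : Fin n} (hij : i ≠ j) (x : Conf n) :
    flipAt i (flipAt j x) = flipAt j (flipAt i x) := by
  unfold flipAt
  rw [Function.update_of_ne hij, Function.update_of_ne hij.symm, Function.update_comm hij]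

theorem cnd_fieldW (h : Fin n → ℝ) (i : Fin n) (G : Conf n → ℝ) (x : Conf n) :
    cnd (fieldW h) i G x = marg h i x * G x + (1 - marg h i x) * G (flipAt i x) := by
  have h1 : ∑ j ∈ univ.erase i, h j * spin (flipAt i x) j = ∑ j ∈ univ.erase i, h j * spin x j :=
    Finset.sum_congr rfl fun j hj => by rw [spin_flip_ne (Finset.ne_of_mem_erase hj)]
  set S := ∑ j ∈ univ.erase i, h j * spin x j with hS
  have e1 : fieldW h x = Real.exp S * Real.exp (h i * spin x i) := by
    rw [fieldW, ← Finset.sum_erase_add _ _ (mem_univ i), Real.exp_add]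
  have e2 : fieldW h (flipAt i x) = Real.exp S * Real.exp (-(h i * spin x i)) := by
    rw [fieldW, ← Finset.sum_erase_add _ _ (mem_univ i), h1, spin_flip_self, Real.exp_add,
      mul_neg]
  have hZ := (Z_pos (fieldW_pos h)).ne'
  simp only [cnd, pr, e1, e2, marg]
  field_simp
  ring

theorem cnd_fieldW_flip (h : Fin n → ℝ) {i j : Fin n} (hij : i ≠ j) (G : Conf n → ℝ)
    (hG : ∀ x, G (flipAt j x) = G x) (x : Conf n) :
    cnd (fieldW h) i G (flipAt j x) = cnd (fieldW h) i G x := by
  simp only [cnd_fieldW, marg, spin_flip_ne hij, flip_comm hij, hG]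

theorem cnd_fieldW_comm (h : Fin n → ℝ) {i j : Fin n} (hij : i ≠ j) (G : Conf n → ℝ) (x : Conf n) :
    cnd (fieldW h) i (cnd (fieldW h) j G) x = cnd (fieldW h) j (cnd (fieldW h) i G) x := by
  simp only [cnd_fieldW, marg, spin_flip_ne hij, spin_flip_ne hij.symm, flip_comm hij]
  ring

/-- One-site entropy at `i`. -/
noncomputable def psi (W : Conf n → ℝ) (i : Fin n) (f : Conf n → ℝ) : ℝ :=
  E W (fun x => f x * Real.log (f x)) - E W (fun x => cnd W i f x * Real.log (cnd W i f x))

theorem psi_eq {W : Conf n → ℝ} (hW : ∀ x, 0 < W x) (i : Fin n) {f : Conf n → ℝ}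
    (hf : ∀ x, 0 < f x) :
    psi W i f = E W (fun x => f x * Real.log (f x / cnd W i f x)) := by
  have : (fun x => f x * Real.log (f x / cnd W i f x))
      = fun x => f x * Real.log (f x) - f x * Real.log (cnd W i f x) := by
    funext x; rw [Real.log_div (hf x).ne' (cnd_pos hW i hf x).ne']; ring
  rw [psi, this, E_sub, E_cnd_mul hW i f (fun x => Real.log (cnd W i f x))
    (fun x => by rw [cnd_flip])]

theorem psi_cnd_le (h : Fin n → ℝ) {i j : Fin n} (hij : i ≠ j) {f : Conf n → ℝ}
    (hf : ∀ x, 0 < f x) :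
    psi (fieldW h) i (cnd (fieldW h) j f) ≤ psi (fieldW h) i f := by
  have hW := fieldW_pos h
  rw [psi_eq hW i (cnd_pos hW j hf), psi_eq hW i hf,
    ← E_cnd hW j (fun x => f x * Real.log (f x / cnd (fieldW h) i f x))]
  refine E_mono hW fun x => ?_
  rw [cnd_fieldW_comm h hij f x, cnd_fieldW h j f x, cnd_fieldW h j (cnd (fieldW h) i f) x,
    cnd_fieldW h j (fun x => f x * Real.log (f x / cnd (fieldW h) i f x)) x]
  have hm : 0 < marg h j x ∧ 0 < 1 - marg h j x := by
    have hd : (0 : ℝ) < Real.exp (h j * spin x j) + Real.exp (-(h j * spin x j)) := by positivity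
    refine ⟨div_pos (Real.exp_pos _) hd, ?_⟩
    rw [marg, one_sub_div hd.ne', add_sub_cancel_left]
    positivity
  let a : Bool → ℝ := fun b => bif b then marg h j x * f x else (1 - marg h j x) * f (flipAt j x)
  let b : Bool → ℝ := fun b => bif b then marg h j x * cnd (fieldW h) i f x
    else (1 - marg h j x) * cnd (fieldW h) i f (flipAt j x)
  have hls := log_sum_le (univ : Finset Bool) a b
    (fun z _ => by cases z <;> simp [a, hm.1, hm.2, hf])
    (fun z _ => by cases z <;> simp [b, hm.1, hm.2, cnd_pos hW i hf])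
    univ_nonempty
  simp only [Fintype.sum_bool, a, b, cond_true, cond_false] at hls
  rw [mul_div_mul_left _ _ hm.1.ne', mul_div_mul_left _ _ hm.2.ne'] at hls
  calc _ ≤ _ := hls
    _ = _ := by ring

/-- Averaging out the sites of a list. -/
noncomputable def avgList (h : Fin n → ℝ) : List (Fin n) → (Conf n → ℝ) → Conf n → ℝ
  | [], f => f
  | i :: L, f => cnd (fieldW h) i (avgList h L f)

theorem avgList_spec (h : Fin n → ℝ) {f : Conf n → ℝ} (hf : ∀ x, 0 < f x) (L : List (Fin n))
    (hL : L.Nodup) :
    (∀ x, 0 < avgList h L f x) ∧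
    (∀ j ∈ L, ∀ x, avgList h L f (flipAt j x) = avgList h L f x) ∧
    (∀ j ∉ L, psi (fieldW h) j (avgList h L f) ≤ psi (fieldW h) j f) ∧
    E (fieldW h) (avgList h L f) = E (fieldW h) f ∧
    E (fieldW h) (fun x => f x * Real.log (f x))
        - E (fieldW h) (fun x => avgList h L f x * Real.log (avgList h L f x))
      ≤ (L.map fun i => psi (fieldW h) i f).sum := by
  induction L with
  | nil => exact ⟨hf, by simp, fun j _ => le_rfl, rfl, by simp [avgList]⟩
  | cons i L ih =>
    obtain ⟨hiL, hL'⟩ := List.nodup_cons.1 hL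
    obtain ⟨hp, hinv, hpsi, hE, htel⟩ := ih hL'
    refine ⟨cnd_pos (fieldW_pos h) i hp, ?_, ?_, ?_, ?_⟩
    · intro j hj x
      by_cases hji : j = i
      · subst hji; exact cnd_flip j _ x
      · have hjL : j ∈ L := (List.mem_cons.1 hj).resolve_left hji
        exact cnd_fieldW_flip h (Ne.symm hji) _ (hinv j hjL) x
    · intro j hj
      simp only [List.mem_cons, not_or] at hj
      exact (psi_cnd_le h hj.1 hp).trans (hpsi j hj.2)
    · rw [avgList, E_cnd (fieldW_pos h)]; exact hE
    · have := hpsi i hiL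
      simp only [avgList, List.map_cons, List.sum_cons]
      simp only [psi] at this htel ⊢
      linarith

theorem eq_of_flip_invariant (G : Conf n → ℝ) (hG : ∀ i x, G (flipAt i x) = G x) (x y : Conf n) :
    G x = G y := by
  suffices h : ∀ (s : Finset (Fin n)) (x : Conf n), (∀ i, x i ≠ y i → i ∈ s) → G x = G y from
    h univ x fun i _ => mem_univ i
  intro s
  induction s using Finset.induction_on with
  | empty =>
    intro x hx
    have : x = y := funext fun i => by_contra fun hi => by simpa using hx i hi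
    rw [this]
  | @insert a s _ ih =>
    intro x hx
    by_cases hxa : x a = y a
    · exact ih x fun i hi => (Finset.mem_insert.1 (hx i hi)).resolve_left fun e => hi (e ▸ hxa)
    · rw [← hG a x]
      refine ih _ fun i hi => ?_
      by_cases hia : i = a
      · subst hia
        exfalso; apply hi
        have : flipAt i x i = !x i := by simp [flipAt]
        rw [this]
        cases hx' : x i <;> cases hy : y i <;> simp_all
      · have : flipAt a x i = x i := by simp [flipAt, hia]
        rw [this] at hi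
        exact (Finset.mem_insert.1 (hx i hi)).resolve_left hia

/-- Entropy is subadditive for product weights. -/
theorem En_fieldW_le (h : Fin n → ℝ) {f : Conf n → ℝ} (hf : ∀ x, 0 < f x) :
    En (fieldW h) f ≤ RR (fieldW h) f := by
  obtain ⟨hp, hinv, -, hE, htel⟩ := avgList_spec h hf (univ : Finset (Fin n)).toList
    (Finset.nodup_toList _)
  set G := avgList h (univ : Finset (Fin n)).toList f
  have hc : G = fun _ => E (fieldW h) f := by
    funext x
    rw [← hE]
    have : G = fun _ => G x := funext fun y => eq_of_flip_invariant G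
      (fun i => hinv i (by simp)) y x
    conv_rhs => rw [this]
    rw [E_const (fieldW_pos h)]
  rw [hc, E_const (fieldW_pos h), Finset.sum_map_toList] at htel
  rw [RR_eq (fieldW_pos h)]
  exact htel

/-! ### Entropic stability -/

/-- If `g` has variance at most `S` under every tilt by a multiple of `g`, covariance with a
positive function is controlled by its entropy. -/
theorem C2_le_En {U : Conf n → ℝ} (hU : ∀ x, 0 < U x) {f g : Conf n → ℝ} (hf : ∀ x, 0 < f x)
    {S : ℝ} (hS : ∀ t : ℝ, C2 (fun x => U x * Real.exp (t * g x)) g g ≤ S) {t : ℝ} (ht : 0 ≤ t) :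
    t * C2 U f g ≤ En U f + E U f * (S * t ^ 2 / 2) := by
  set μ0 := E U g with hμ0
  let T : ℝ → Conf n → ℝ := fun s x => U x * Real.exp (s * g x)
  have hT : ∀ s x, 0 < T s x := fun s x => mul_pos (hU x) (Real.exp_pos _)
  -- derivatives of the normalisation
  have dZ : ∀ (k : Conf n → ℝ) (s : ℝ),
      HasDerivAt (fun r => ∑ x, k x * T r x) (∑ x, k x * g x * T s x) s := by
    intro k s
    refine HasDerivAt.fun_sum fun x _ => ?_
    have h1 := (((hasDerivAt_id s).mul_const (g x)).exp.const_mul (U x)).const_mul (k x)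
    simp only [id_eq, one_mul] at h1
    exact h1.congr_deriv (by simp only [T]; ring)
  have d1 : ∀ s, HasDerivAt (fun r => Real.log (Z (T r))) (E (T s) g) s := by
    intro s
    have h1 := dZ (fun _ => 1) s
    simp only [one_mul] at h1
    refine (h1.log (Z_pos (hT s)).ne').congr_deriv ?_
    simp only [E, pr, Z, Finset.sum_div]
    exact Finset.sum_congr rfl fun x _ => by ring
  have d2 : ∀ s, HasDerivAt (fun r => E (T r) g) (C2 (T s) g g) s := by
    intro s
    have hA := dZ g s
    have hB := dZ (fun _ => 1) s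
    simp only [one_mul] at hB
    have hEq : (fun r => E (T r) g) = fun r => (∑ x, g x * T r x) / ∑ x, T r x := by
      funext r
      simp only [E, pr, Z, Finset.sum_div]
      exact Finset.sum_congr rfl fun x _ => by ring
    rw [hEq]
    refine (hA.div hB (Z_pos (hT s)).ne').congr_deriv ?_
    have hE1 : E (T s) g = (∑ x, g x * T s x) / ∑ x, T s x := congrFun hEq s
    have hE2 : E (T s) (fun x => g x * g x) = (∑ x, g x * g x * T s x) / ∑ x, T s x := by
      simp only [E, pr, Z, Finset.sum_div]
      exact Finset.sum_congr rfl fun x _ => by ring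
    have hz := (Z_pos (hT s)).ne'
    simp only [Z] at hz
    rw [C2, hE1, hE2]
    field_simp
  let q : ℝ → ℝ := fun s => s ^ 2 * S / 2 + s * μ0 - (Real.log (Z (T s)) - Real.log (Z U))
  let q' : ℝ → ℝ := fun s => s * S + μ0 - E (T s) g
  have hT0 : T 0 = U := by funext x; simp [T]
  have dq : ∀ s, HasDerivAt q (q' s) s := by
    intro s
    have h1 := ((((hasDerivAt_pow 2 s).mul_const S).div_const 2).add
      ((hasDerivAt_id s).mul_const μ0)).sub ((d1 s).sub_const (Real.log (Z U)))
    simp only [id_eq] at h1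
    exact h1.congr_deriv (by simp [q']; ring)
  have dq' : ∀ s, HasDerivAt q' (S - C2 (T s) g g) s := fun s => by
    simpa [q'] using (((hasDerivAt_id s).mul_const S).add_const μ0).fun_sub (d2 s)
  have hmono : Monotone q' :=
    monotone_of_hasDerivAt_nonneg dq' fun s => sub_nonneg.2 (hS s)
  have hq'0 : q' 0 = 0 := by simp [q', hT0, hμ0]
  have hq : q 0 ≤ q t := by
    refine monotoneOn_of_deriv_nonneg (convex_Ici (0 : ℝ))
      (fun s _ => (dq s).continuousAt.continuousWithinAt)
      (fun s _ => (dq s).differentiableAt.differentiableWithinAt) (fun s hs => ?_)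
      (Set.self_mem_Ici) (Set.mem_Ici.2 ht) ht
    rw [(dq s).deriv, ← hq'0]
    exact hmono (interior_subset hs)
  have hq0 : q 0 = 0 := by simp [q, hT0]
  rw [hq0] at hq
  -- variational formula
  set m := E U f with hm
  have hmp : 0 < m := E_pos hU hf
  set L := Real.log (Z (T t)) - Real.log (Z U) with hL
  have hdv : E U (fun x => f x * (t * g x)) ≤ En U f + m * L := by
    have key : ∀ x, f x * (t * g x) - (f x * Real.log (f x) - f x * Real.log m + f x * L)
        ≤ m * Real.exp (t * g x - L) - f x := by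
      intro x
      have := klf_nonneg (hf x) (mul_pos hmp (Real.exp_pos (t * g x - L)))
      rw [Real.log_mul hmp.ne' (Real.exp_pos _).ne', Real.log_exp] at this
      linarith
    have h1 := E_mono hU key
    have hz : E U (fun x => Real.exp (t * g x - L)) = 1 := by
      simp only [E, pr, hL, Real.exp_sub, Real.exp_log (Z_pos (hT t)), Real.exp_log (Z_pos hU)]
      have hzT := (Z_pos (hT t)).ne'
      have hzU := (Z_pos hU).ne'
      calc ∑ x, U x / Z U * (Real.exp (t * g x) / (Z (T t) / Z U))
          = (∑ x, T t x) / Z (T t) := by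
            rw [Finset.sum_div]
            exact Finset.sum_congr rfl fun x _ => by simp only [T]; field_simp
        _ = 1 := div_self hzT
    simp only [E_sub, E_add, E_mul_right, E_mul_left, hz, ← hm] at h1
    unfold En
    rw [← hm]
    linarith
  have hlin : E U (fun x => f x * (t * g x)) = t * (C2 U f g + m * μ0) := by
    rw [C2, ← hm, ← hμ0, sub_add_cancel, ← E_mul_left]
    congr 1; funext x; ring
  rw [hlin] at hdv
  have : m * L ≤ m * (t ^ 2 * S / 2 + t * μ0) :=
    mul_le_mul_of_nonneg_left (by simp only [q, ← hL] at hq; linarith) hmp.le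
  nlinarith [this, hdv]

/-- Second-order bound for `x log x` at one. -/
theorem xlogx_le {y : ℝ} (hy : |y| ≤ 1 / 2) :
    (1 + y) * Real.log (1 + y) - y ≤ y ^ 2 * (1 / 2 + 4 * |y|) := by
  have h := Real.abs_log_sub_add_sum_range_le (x := -y) (by rw [abs_neg]; linarith) 2
  simp only [Finset.sum_range_succ, Finset.sum_range_zero, abs_neg, sub_neg_eq_add] at h
  norm_num at h
  have h' := (abs_le.1 h).2
  have h3 : |y| ^ 3 / (1 - |y|) ≤ 2 * |y| ^ 3 := by
    rw [div_le_iff₀ (by linarith)]
    nlinarith [pow_nonneg (abs_nonneg y) 3]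
  have hl : Real.log (1 + y) ≤ y - y ^ 2 / 2 + 2 * |y| ^ 3 := by linarith
  have hb := abs_le.1 hy
  have h4 := mul_le_mul_of_nonneg_left hl (show (0 : ℝ) ≤ 1 + y by linarith)
  have hy2 : |y| ^ 2 = y ^ 2 := sq_abs y
  nlinarith [abs_nonneg y, le_abs_self y, neg_abs_le y, pow_nonneg (abs_nonneg y) 3]

/-- Jensen gap of `x log x` for nearly constant values. -/
theorem phi_gap_le {ι : Type*} [Fintype ι] (p m : ι → ℝ) (hp : ∀ z, 0 ≤ p z) (hp1 : ∑ z, p z = 1)
    {η : ℝ} (hη : η ≤ 1 / 2) (hM : 0 < ∑ z, p z * m z)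
    (hm : ∀ z, |m z - ∑ z, p z * m z| ≤ η * ∑ z, p z * m z) (c : ℝ) :
    (∑ z, p z * (m z * Real.log (m z))) - (∑ z, p z * m z) * Real.log (∑ z, p z * m z)
      ≤ (1 / 2 + 4 * η) * (∑ z, p z * (m z - c) ^ 2) / (∑ z, p z * m z) := by
  set M := ∑ z, p z * m z with hMdef
  have hη0 : ∀ z, 0 ≤ η := fun z => by
    have := (abs_nonneg _).trans (hm z)
    exact (mul_nonneg_iff_of_pos_right hM).1 this
  have hsq : ∑ z, p z * (m z - M) ^ 2 ≤ ∑ z, p z * (m z - c) ^ 2 := by
    have : ∀ z, p z * (m z - c) ^ 2
        = p z * (m z - M) ^ 2 + (2 * (M - c)) * (p z * m z) + ((M - c) ^ 2 - 2 * (M - c) * M) * p z :=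
      fun z => by ring
    simp only [this, Finset.sum_add_distrib, ← Finset.mul_sum, hp1, ← hMdef]
    nlinarith [sq_nonneg (M - c)]
  have key : ∀ z, p z * (m z * Real.log (m z)) - (p z * m z) * (Real.log M + 1) + p z * M
      ≤ (1 / 2 + 4 * η) * (p z * (m z - M) ^ 2) / M := by
    intro z
    set y := (m z - M) / M with hy
    have hmy : m z = M * (1 + y) := by rw [hy]; field_simp; ring
    have hya : |y| ≤ η := by
      rw [hy, abs_div, abs_of_pos hM, div_le_iff₀ hM]; exact hm z
    have hpos : 0 < 1 + y := by linarith [(abs_le.1 hya).1]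
    have h1 := xlogx_le (hya.trans hη)
    have h2 : y ^ 2 * (1 / 2 + 4 * |y|) ≤ y ^ 2 * (1 / 2 + 4 * η) :=
      mul_le_mul_of_nonneg_left (by linarith) (sq_nonneg y)
    have h3 := mul_le_mul_of_nonneg_left (h1.trans h2) (mul_nonneg (hp z) hM.le)
    rw [hmy, Real.log_mul hM.ne' hpos.ne']
    calc _ = p z * M * ((1 + y) * Real.log (1 + y) - y) := by ring
      _ ≤ _ := h3
      _ = _ := by field_simp; ring
  have h := Finset.sum_le_sum (s := univ) fun z _ => key z
  rw [← Finset.sum_div, ← Finset.mul_sum, Finset.sum_add_distrib, Finset.sum_sub_distrib,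
    ← Finset.sum_mul, ← Finset.sum_mul, hp1, ← hMdef] at h
  have h' : (∑ z, p z * (m z * Real.log (m z))) - M * Real.log M
      ≤ (1 / 2 + 4 * η) * (∑ z, p z * (m z - M) ^ 2) / M := by linarith
  refine h'.trans ((div_le_div_iff_of_pos_right hM).2 ?_)
  rcases isEmpty_or_nonempty ι with hι | ⟨⟨z⟩⟩
  · simp at hp1
  · exact mul_le_mul_of_nonneg_left hsq (by linarith [hη0 z])

end Vale.Agent.P150.Gap.EntW
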