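import Vale.Agent.P150.Gap.Repair

/-!
A Poincaré inequality, uniform in the external field, for coupling matrices whose top eigenvalue is
slightly above one, under two block conditions met by Gaussian matrices.
-/

open Finset

namespace Vale.Agent.P150.Gap

variable {n : ℕ}

/-- The quadratic form of `J` is at most `δ` on vectors with at most `η n` nonzero entries. -/
def SmallBlock (J : Fin n → Fin n → ℝ) (η δ : ℝ) : Prop :=
  ∀ v : Fin n → ℝ, ((univ.filter fun i => v i ≠ 0).card : ℝ) ≤ η * n →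
    ∑ i, ∑ j, J i j * v i * v j ≤ δ * ∑ i, v i ^ 2

/-- Every principal block of more than `η n` sites has squared Frobenius norm at least `ρ n`. -/
def BlockLow (J : Fin n → Fin n → ℝ) (η ρ : ℝ) : Prop :=
  ∀ S : Finset (Fin n), η * n < S.card → ρ * n ≤ ∑ i ∈ S, ∑ j ∈ S, J i j ^ 2

/-- Parameters of the argument. -/
structure Params (L R d τ ρ δ c : ℝ) : Prop where
  d_le : d ≤ 1 / 20
  R_le : 2 * R ≤ L
  tau_pos : 0 < τ
  tau_le : τ ≤ 1 / 10
  d_tau : 2 * d ≤ τ
  rho_pos : 0 < ρ
  c_le : c ≤ L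
  c_ge : L - (L - 2 * R) * (1 - 1 / Real.cosh τ ^ 2) / 100 ≤ c
  c_small : δ + L / 9 + 2 * R * τ ^ 2 + (10 * L + 2 * R) / 100 ≤ c
  cross_pay : 12 * (L - c) ≤ ρ / (15 * τ)
  lt_one : c + 60 * d * R + (L - c) * (5 / 2 * L + 220 * R) / (ρ / (15 * τ)) < 1

/-- The gap constant of the argument. -/
noncomputable def kappa (L R d τ ρ c : ℝ) : ℝ :=
  1 - (c + 60 * d * R + (L - c) * (5 / 2 * L + 220 * R) / (ρ / (15 * τ)))

/-- The pointwise bound on the potential. -/
lemma potential_le {J : Fin n → Fin n → ℝ} {L R τ η δ c : ℝ} (hJ : IsCoupling J)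
    (hup : QuadLe J L) (hlo : QuadLe (fun i j => -J i j) L) (hsmall : SmallBlock J η δ)
    (hR0 : 0 ≤ R) (hRL : 2 * R ≤ L) (hτ : 0 ≤ τ) (hδ : 0 ≤ δ)
    (hcT : L - (L - 2 * R) * (1 - 1 / Real.cosh τ ^ 2) / 100 ≤ c)
    (hcS : δ + L / 9 + 2 * R * τ ^ 2 + (10 * L + 2 * R) / 100 ≤ c)
    (h : Fin n → ℝ) (x : Conf n) (u : Fin n → ℝ) :
    ∑ i, ∑ j, J i j * ((1 - mag J h i x ^ 2) * u i) * ((1 - mag J h j x ^ 2) * u j) +
        2 * ∑ i, R * mag J h i x ^ 2 * ((1 - mag J h i x ^ 2) * u i ^ 2) ≤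
      (c + (L - c) * badInd J h τ η x) * ∑ i, (1 - mag J h i x ^ 2) * u i ^ 2 := by
  set m := fun i => mag J h i x ^ 2 with hm
  set w := fun i => (1 - m i) * u i ^ 2 with hw
  set v := fun i => (1 - m i) * u i with hv
  have hm1 : ∀ i, m i < 1 := fun i => mag_sq_lt J h i x
  have hm0 : ∀ i, 0 ≤ m i := fun i => sq_nonneg _
  have hw0 : ∀ i, 0 ≤ w i := fun i => mul_nonneg (by linarith [hm1 i]) (sq_nonneg _)
  have hvw : ∀ i, v i ^ 2 = (1 - m i) * w i := fun i => by simp only [hv, hw]; ring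
  set T := univ.filter fun i => ¬ |localField J h i x| < τ with hT
  set S := smallSet J h τ x with hS
  set a := ∑ i ∈ T, w i
  set b := ∑ i ∈ S, w i
  have hab : ∑ i, w i = b + a := (sum_filter_add_sum_filter_not univ _ w).symm
  have ha : 0 ≤ a := sum_nonneg fun i _ => hw0 i
  have hb : 0 ≤ b := sum_nonneg fun i _ => hw0 i
  have hL : 0 ≤ L := by linarith
  set q := 1 - 1 / Real.cosh τ ^ 2
  change ∑ i, ∑ j, J i j * v i * v j + 2 * ∑ i, R * m i * w i ≤
    (c + (L - c) * badInd J h τ η x) * ∑ i, w i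
  have hfull : ∑ i, ∑ j, J i j * v i * v j + 2 * ∑ i, R * m i * w i ≤
      ∑ i, (L - (L - 2 * R) * m i) * w i := by
    calc _ ≤ L * ∑ i, v i ^ 2 + 2 * ∑ i, R * m i * w i := by linarith [hup v]
      _ = _ := by
          rw [mul_sum, mul_sum, ← sum_add_distrib]
          exact sum_congr rfl fun i _ => by rw [hvw]; ring
  have hworst : ∑ i, (L - (L - 2 * R) * m i) * w i ≤ L * ∑ i, w i := by
    rw [mul_sum]
    exact sum_le_sum fun i _ => mul_le_mul_of_nonneg_right
      (by linarith [mul_nonneg (by linarith : 0 ≤ L - 2 * R) (hm0 i)]) (hw0 i)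
  simp only [badInd]
  split_ifs with hbad
  · rw [mul_one, add_sub_cancel]
    exact hfull.trans hworst
  rw [mul_zero, add_zero, hab]
  rcases le_or_gt ((b + a) / 100) a with hbig | hsmallT
  · refine hfull.trans ?_
    have h1 : ∑ i, (L - (L - 2 * R) * m i) * w i ≤ L * (b + a) - (L - 2 * R) * q * a := by
      rw [← hab, mul_sum, mul_sum, sum_filter (fun i => ¬ |localField J h i x| < τ),
        ← sum_sub_distrib]
      refine sum_le_sum fun i _ => ?_
      split_ifs with hi
      · linarith [mul_nonneg (mul_nonneg (by linarith : 0 ≤ L - 2 * R) (hm0 i)) (hw0 i)]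
      · have := le_mag_sq_of_le_abs (J := J) (h := h) (i := i) (x := x) hτ (not_lt.1 hi)
        have := mul_le_mul_of_nonneg_right (mul_le_mul_of_nonneg_left this
          (by linarith : 0 ≤ L - 2 * R)) (hw0 i)
        linarith
    have hq : 0 ≤ q := by
      simp only [q, sub_nonneg]
      exact div_le_one_of_le₀ (one_le_pow₀ (Real.one_le_cosh τ)) (by positivity)
    have h2 : (L - 2 * R) * q * ((b + a) / 100) ≤ (L - 2 * R) * q * a :=
      mul_le_mul_of_nonneg_left hbig (mul_nonneg (by linarith) hq)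
    have h3 := mul_le_mul_of_nonneg_right hcT (by linarith : 0 ≤ b + a)
    linarith
  · set vS := fun i => if |localField J h i x| < τ then v i else 0 with hvS
    set vT := fun i => if |localField J h i x| < τ then 0 else v i with hvT
    have hcard : ((univ.filter fun i => vS i ≠ 0).card : ℝ) ≤ η * n := by
      refine le_trans ?_ (not_lt.1 hbad)
      exact_mod_cast card_le_card fun i hi => by
        simp only [smallSet, hvS, mem_filter, mem_univ, true_and, ne_eq, ite_eq_right_iff,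
          Classical.not_imp] at hi ⊢
        exact hi.1
    have hle : ∀ i, v i ^ 2 ≤ w i := fun i => by
      rw [hvw]; exact mul_le_of_le_one_left (hw0 i) (by linarith [hm0 i])
    have hS2 : ∑ i, vS i ^ 2 ≤ b := by
      simp only [b, S, smallSet, hvS, sum_filter, ite_pow, zero_pow two_ne_zero]
      exact sum_le_sum fun i _ => by split_ifs <;> simp [hle]
    have hT2 : ∑ i, vT i ^ 2 ≤ a := by
      simp only [a, T, hvT, sum_filter, ite_pow, zero_pow two_ne_zero]
      exact sum_le_sum fun i _ => by split_ifs <;> simp [hle]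
    have hsplit : ∑ i, ∑ j, J i j * v i * v j = ∑ i, ∑ j, J i j * vS i * vS j +
        2 * ∑ i, ∑ j, J i j * (vS i / 3) * (3 * vT j) + ∑ i, ∑ j, J i j * vT i * vT j := by
      have hsym : ∑ i, ∑ j, J i j * vT i * vS j = ∑ i, ∑ j, J i j * vS i * vT j := by
        rw [sum_comm]
        exact sum_congr rfl fun i _ => sum_congr rfl fun j _ => by rw [hJ.symm j i]; ring
      have e : ∀ i, v i = vS i + vT i := fun i => by
        simp only [hvS, hvT]; split_ifs <;> simp
      have e3 : ∀ i j, J i j * (vS i / 3) * (3 * vT j) = J i j * vS i * vT j := fun i j => by ring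
      simp only [e, e3, add_mul, mul_add, sum_add_distrib, hsym]
      ring
    have q1 := hsmall vS hcard
    have q2 := Lower.bilinear_le hJ.symm hup hlo (fun i => vS i / 3) (fun i => 3 * vT i)
    have q3 := hup vT
    have e1 : ∑ i, (vS i / 3) ^ 2 = (∑ i, vS i ^ 2) / 9 := by
      rw [sum_div]; exact sum_congr rfl fun i _ => by ring
    have e2 : ∑ i, (3 * vT i) ^ 2 = 9 * ∑ i, vT i ^ 2 := by
      rw [mul_sum]; exact sum_congr rfl fun i _ => by ring
    simp only [e1, e2] at q2
    have hpen : ∑ i, R * m i * w i ≤ R * τ ^ 2 * b + R * a := by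
      simp only [b, a, S, T, smallSet, sum_filter, mul_sum, ← sum_add_distrib]
      refine sum_le_sum fun i _ => ?_
      split_ifs with hi
      · rw [mul_zero, add_zero]
        exact mul_le_mul_of_nonneg_right (mul_le_mul_of_nonneg_left
          (mag_sq_le_of_abs_le (J := J) (h := h) hi.le) hR0) (hw0 i)
      · rw [mul_zero, zero_add]
        exact mul_le_mul_of_nonneg_right (mul_le_of_le_one_right hR0 (hm1 i).le) (hw0 i)
    have r1 := mul_le_mul_of_nonneg_left hS2 hδ
    have r2 := mul_le_mul_of_nonneg_left hS2 hL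
    have r3 := mul_le_mul_of_nonneg_left hT2 hL
    have h3 := mul_le_mul_of_nonneg_right hcS (by linarith : 0 ≤ b + a)
    have r4 : (10 * L + 2 * R) * a ≤ (10 * L + 2 * R) * ((b + a) / 100) :=
      mul_le_mul_of_nonneg_left hsmallT.le (by linarith)
    have r5 : (δ + L / 9 + 2 * R * τ ^ 2) * b ≤ (δ + L / 9 + 2 * R * τ ^ 2) * (b + a) :=
      mul_le_mul_of_nonneg_left (by linarith) (by positivity)
    linarith

/-- `E[(Hf)²] ≥ κ E[f Hf]` past the spectral threshold. -/
lemma ev_sq_ge_past {J : Fin n → Fin n → ℝ} {L R d τ η ρ δ c : ℝ} (hn : 0 < n)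
    (hJ : IsCoupling J) (hup : QuadLe J L) (hlo : QuadLe (fun i j => -J i j) L)
    (hR : ∀ i, ∑ j, J i j ^ 2 ≤ R) (hd : ∀ i j, |J i j| ≤ d) (hRn : 4 * R ≤ n) (hδ : 0 ≤ δ)
    (hsmall : SmallBlock J η δ) (hlow : BlockLow J η ρ) (hp : Params L R d τ ρ δ c)
    (h : Fin n → ℝ) (f : Conf n → ℝ) :
    kappa L R d τ ρ c * ∑ i, form J h i f f ≤
      ev J h (fun x => (∑ i, proj J h i f x) * ∑ i, proj J h i f x) := by
  have hR0 : 0 ≤ R := (sum_nonneg fun j _ => sq_nonneg (J ⟨0, hn⟩ j)).trans (hR ⟨0, hn⟩)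
  set F := ∑ i, form J h i f f with hF
  set X := ∑ i, ∑ j, ev J h (cross J h i j f)
  set Eb := ev J h (fun x => badInd J h τ η x *
    ∑ i, (1 - mag J h i x ^ 2) * (dd f i x * dd f i x))
  have hsq := ev_sq_ge_cross hJ (fun i j => (hd i j).trans hp.d_le) h f
  have hrep : ρ / (15 * τ) * Eb ≤ 12 * X + (5 / 2 * L + 220 * R) * F :=
    bad_energy_le hn hJ hup hlo hR hd hp.d_le hRn hp.tau_pos hp.tau_le hp.d_tau hp.rho_pos.le
      hlow h f
  have hT : (∑ i, ∑ j, ev J h (fun x => J i j *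
      ((1 - mag J h i x ^ 2) * (1 - mag J h j x ^ 2) * (dd f i x * dd f j x)))) +
      2 * ∑ i, ∑ j, ev J h (pen J h i j f) ≤ (c + 60 * d * R) * F + (L - c) * Eb := by
    simp only [F, Eb, form, ← ev_sum, ← ev_smul, ← ev_add]
    refine ev_mono J h fun x => ?_
    have hpen : ∑ i, ∑ j, pen J h i j f x ≤ ∑ i, (R * mag J h i x ^ 2 + 30 * d * R) *
        ((1 - mag J h i x ^ 2) * dd f i x ^ 2) := sum_le_sum fun i _ => pen_bound h hR hd i f x
    have hpot := potential_le hJ hup hlo hsmall hR0 hp.R_le hp.tau_pos.le hδ hp.c_ge hp.c_small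
      h x fun i => dd f i x
    have eW : ∑ i, (1 - mag J h i x ^ 2) * (dd f i x * dd f i x) =
        ∑ i, (1 - mag J h i x ^ 2) * dd f i x ^ 2 := sum_congr rfl fun i _ => by ring
    have eJ : ∑ i, ∑ j, J i j *
        ((1 - mag J h i x ^ 2) * (1 - mag J h j x ^ 2) * (dd f i x * dd f j x)) =
        ∑ i, ∑ j, J i j * ((1 - mag J h i x ^ 2) * dd f i x) *
          ((1 - mag J h j x ^ 2) * dd f j x) :=
      sum_congr rfl fun i _ => sum_congr rfl fun j _ => by ring
    have eP : 2 * ∑ i, (R * mag J h i x ^ 2 + 30 * d * R) *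
        ((1 - mag J h i x ^ 2) * dd f i x ^ 2) =
        2 * ∑ i, R * mag J h i x ^ 2 * ((1 - mag J h i x ^ 2) * dd f i x ^ 2) +
          60 * d * R * ∑ i, (1 - mag J h i x ^ 2) * dd f i x ^ 2 := by
      simp only [mul_sum, ← sum_add_distrib]
      exact sum_congr rfl fun i _ => by ring
    rw [eW, eJ]
    linarith
  set K := ρ / (15 * τ)
  have hK : 0 < K := div_pos hp.rho_pos (by linarith [hp.tau_pos])
  have hX : 0 ≤ X := sum_nonneg fun i _ => sum_nonneg fun j _ =>
    sum_nonneg fun x _ => mul_nonneg (mu_pos J h x).le (cross_nonneg J h i j f x)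
  have hF0 : 0 ≤ F := sum_nonneg fun i _ => sum_nonneg fun x _ => mul_nonneg (mu_pos J h x).le
    (mul_nonneg (by linarith [mag_sq_lt J h i x]) (mul_self_nonneg _))
  have hEb : (L - c) * Eb ≤ X + (L - c) * (5 / 2 * L + 220 * R) / K * F := by
    have h0 : 0 ≤ L - c := by linarith [hp.c_le]
    have h1 := mul_le_mul_of_nonneg_left hrep h0
    have h2 := mul_le_mul_of_nonneg_right hp.cross_pay hX
    rw [div_mul_eq_mul_div, ← sub_le_iff_le_add', le_div_iff₀ hK]
    linarith
  have hk : kappa L R d τ ρ c * F =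
      F - ((c + 60 * d * R) * F + (L - c) * (5 / 2 * L + 220 * R) / K * F) := by
    rw [kappa]; ring
  rw [hk]
  linarith

/-- **Gap and covariance bound past `1/2`, uniformly in the field and along `θ J`.** -/
theorem covLe_past {J : Fin n → Fin n → ℝ} {L R d τ η ρ δ c : ℝ} (hn : 0 < n)
    (hJ : IsCoupling J) (hup : QuadLe J L) (hlo : QuadLe (fun i j => -J i j) L)
    (hR : ∀ i, ∑ j, J i j ^ 2 ≤ R) (hd : ∀ i j, |J i j| ≤ d) (hRn : 4 * R ≤ n) (hδ : 0 ≤ δ)
    (hsmall : SmallBlock J η δ) (hlow : BlockLow J η ρ) (hp : Params L R d τ (81 / 100 * ρ) δ c)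
    (hR9 : 2 * R ≤ 9 / 10 * L) (hL9 : 9 / 10 * L + 60 * d * R < 1) :
    (∀ h f, kappa L R d τ (81 / 100 * ρ) c * var J h f ≤ dir J h f) ∧
      ∀ th ∈ Set.Icc (0:ℝ) 1, CovLe (fun i j => th * J i j)
        (max (1 / kappa L R d τ (81 / 100 * ρ) c) (1 / (1 - (9 / 10 * L + 60 * d * R)))) := by
  set κ := kappa L R d τ (81 / 100 * ρ) c with hκ
  have hκ0 : 0 < κ := by rw [hκ, kappa]; linarith [hp.lt_one]
  have hR0 : 0 ≤ R := (sum_nonneg fun j _ => sq_nonneg (J ⟨0, hn⟩ j)).trans (hR ⟨0, hn⟩)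
  have hL : 0 ≤ L := by linarith
  have hgap : ∀ th ∈ Set.Icc (9 / 10 : ℝ) 1, ∀ h f,
      κ * var (fun i j => th * J i j) h f ≤ dir (fun i j => th * J i j) h f := by
    intro th hth h f
    have hth0 : 0 ≤ th := le_trans (by norm_num) hth.1
    have hJ' : IsCoupling fun i j => th * J i j :=
      ⟨fun i j => by simp [hJ.symm i j], fun i => by simp [hJ.diag]⟩
    refine poincare_of_sq hJ' h hκ0 (ev_sq_ge_past (η := η) hn hJ' ?_ ?_ ?_ ?_ hRn hδ ?_ ?_ hp h) f
    · intro w
      simp only [mul_assoc th, ← mul_sum]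
      exact (mul_le_mul_of_nonneg_left (hup w) hth0).trans
        (mul_le_of_le_one_left (mul_nonneg hL (sum_nonneg fun i _ => sq_nonneg _)) hth.2)
    · intro w
      simp only [← mul_neg, mul_assoc th, ← mul_sum]
      exact (mul_le_mul_of_nonneg_left (hlo w) hth0).trans
        (mul_le_of_le_one_left (mul_nonneg hL (sum_nonneg fun i _ => sq_nonneg _)) hth.2)
    · exact fun i => le_trans (sum_le_sum fun j _ => by
        rw [mul_pow]; exact mul_le_of_le_one_left (sq_nonneg _) (pow_le_one₀ hth0 hth.2)) (hR i)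
    · exact fun i j => by
        rw [abs_mul, abs_of_nonneg hth0]
        exact (mul_le_of_le_one_left (abs_nonneg _) hth.2).trans (hd i j)
    · intro w hw
      simp only [mul_assoc th, ← mul_sum]
      exact (mul_le_mul_of_nonneg_left (hsmall w hw) hth0).trans
        (mul_le_of_le_one_left (mul_nonneg hδ (sum_nonneg fun i _ => sq_nonneg _)) hth.2)
    · intro S hS
      simp only [mul_pow, ← mul_sum]
      refine le_trans ?_ (mul_le_mul_of_nonneg_left (hlow S hS) (sq_nonneg th))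
      rw [mul_assoc]
      refine mul_le_mul_of_nonneg_right ?_ (mul_nonneg ?_ (Nat.cast_nonneg n))
      · nlinarith [mul_le_mul hth.1 hth.1 (by norm_num) hth0]
      · have := hp.rho_pos; linarith
  have hone : (fun i j => (1:ℝ) * J i j) = J := by funext i j; rw [one_mul]
  refine ⟨fun h f => ?_, fun th hth h v => ?_⟩
  · have := hgap 1 ⟨by norm_num, le_rfl⟩ h f
    rwa [hone] at this
  have hv : 0 ≤ ∑ i, v i ^ 2 := sum_nonneg fun i _ => sq_nonneg _
  rcases le_or_gt (9 / 10) th with h9 | h9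
  · have hJ' : IsCoupling fun i j => th * J i j :=
      ⟨fun i j => by simp [hJ.symm i j], fun i => by simp [hJ.diag]⟩
    refine le_trans ?_ (mul_le_mul_of_nonneg_right (le_max_left _ _) hv)
    rw [one_div, inv_mul_eq_div, le_div_iff₀ hκ0, mul_comm]
    exact (hgap th ⟨h9, hth.2⟩ h _).trans (dir_linear_le hJ' h v)
  · have hJ9 : IsCoupling fun i j => (9 / 10 : ℝ) * J i j :=
      ⟨fun i j => by simp [hJ.symm i j], fun i => by simp [hJ.diag]⟩
    have hold := (covLe_of_bounds (c := 9 / 10 * L) (lam := 9 / 10 * L) (R := R) (d := d) hJ9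
      (fun w => by
        simp only [mul_assoc (9 / 10 : ℝ), ← mul_sum]
        exact mul_le_mul_of_nonneg_left (hup w) (by norm_num))
      (fun i => le_trans (sum_le_sum fun j _ => by
        rw [mul_pow]; exact mul_le_of_le_one_left (sq_nonneg _) (by norm_num)) (hR i))
      (fun i j => by
        rw [abs_mul]; exact (mul_le_of_le_one_left (abs_nonneg _) (by norm_num)).trans (hd i j))
      hp.d_le le_rfl hR9 hL9).2 (th / (9 / 10))
      ⟨div_nonneg hth.1 (by norm_num), (div_le_one (by norm_num)).2 h9.le⟩ h v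
    have e : (fun i j => th / (9 / 10) * ((9 / 10 : ℝ) * J i j)) = fun i j => th * J i j := by
      funext i j; ring
    rw [e] at hold
    exact hold.trans (mul_le_mul_of_nonneg_right (le_max_right _ _) hv)

end Vale.Agent.P150.Gap
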