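import Vale.Agent.P150.Gap.PastHalf
import Vale.Agent.P150.Gap.Goe
import Vale.Agent.P150.Gap.EntStep
import Vale.Agent.P150.Gap.Mixing
import Vale.Agent.P150.Gap.Blocks
import Vale.Agent.P150.Lower.LogTime

/-!
The SK model slightly past `β = 1/2`: spectral gap of order one and mixing in time of order
`log n`, with probability tending to one.
-/

open MeasureTheory Filter
open scoped Topology

namespace Vale.Agent.P150.Gap

lemma quadLe_smul {n : ℕ} {M : Fin n → Fin n → ℝ} {a b : ℝ} (ha : 0 ≤ a) (h : QuadLe M b) :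
    QuadLe (fun i j => a * M i j) (a * b) := fun v => by
  simp only [mul_assoc a, ← Finset.mul_sum]
  exact mul_le_mul_of_nonneg_left (h v) ha

/-- Constants for a neighbourhood of `β = 1/2`. -/
lemma exists_params {ρ₀ : ℝ} (hρ₀ : 0 < ρ₀) : ∃ ε₀ ε τ : ℝ, 0 < ε₀ ∧ 0 < ε ∧
    ∀ β : ℝ, 1 / 2 ≤ β → β ≤ 1 / 2 + ε₀ →
      Params (β * (2 + ε)) (β ^ 2 * (1 + ε)) (β * ε) τ (81 / 100 * (ρ₀ / 4)) (β / 2)
          (β * (2 + ε) - (β * (2 + ε) - 2 * (β ^ 2 * (1 + ε))) *
            (1 - 1 / Real.cosh τ ^ 2) / 100) ∧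
        2 * (β ^ 2 * (1 + ε)) ≤ 9 / 10 * (β * (2 + ε)) ∧
        9 / 10 * (β * (2 + ε)) + 60 * (β * ε) * (β ^ 2 * (1 + ε)) < 1 ∧
        4 * (β ^ 2 * (1 + ε)) ≤ 2 := by
  set ρ := 81 / 100 * (ρ₀ / 4) with hρdef
  have hρ : 0 < ρ := by positivity
  set τ := min (1 / 10) (ρ / (15 * 240)) with hτdef
  have hτ : 0 < τ := lt_min (by norm_num) (by positivity)
  have hτ1 : τ ≤ 1 / 10 := min_le_left _ _
  have hK : 240 ≤ ρ / (15 * τ) := by
    rw [le_div_iff₀ (by positivity)]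
    have := (le_div_iff₀ (by norm_num : (0:ℝ) < 15 * 240)).1
      (min_le_right (1 / 10) (ρ / (15 * 240)))
    linarith
  set q := 1 - 1 / Real.cosh τ ^ 2 with hq
  have hc1 : 1 < Real.cosh τ := Real.one_lt_cosh.2 hτ.ne'
  have hq0 : 0 < q := by
    rw [hq, sub_pos, div_lt_one (by positivity)]
    exact one_lt_pow₀ hc1 two_ne_zero
  have hqτ : q ≤ τ ^ 2 := by
    have h2 : Real.cosh τ ^ 2 ≤ Real.exp (τ ^ 2) := by
      refine (pow_le_pow_left₀ (Real.cosh_pos τ).le (Real.cosh_le_exp_half_sq τ) 2).trans_eq ?_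
      rw [← Real.exp_nat_mul]; congr 1; push_cast; ring
    have h3 := one_div_le_one_div_of_le (by positivity : 0 < Real.cosh τ ^ 2) h2
    rw [one_div (Real.exp _), ← Real.exp_neg] at h3
    linarith [Real.add_one_le_exp (-(τ ^ 2))]
  have hq2 : q ≤ 1 / 100 := hqτ.trans (by nlinarith)
  set e := q / 4000 with he
  have hqτ' : q ≤ τ := hqτ.trans (by nlinarith)
  refine ⟨e / 4, e / 10, τ, by positivity, by positivity, fun β hβ hβ' => ?_⟩
  set ε := e / 10 with hε
  have hε0 : 0 ≤ ε := by positivity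
  have hβ1 : β ≤ 51 / 100 := by rw [he] at hβ'; linarith
  have hβ0 : 0 ≤ β := by linarith
  set L := β * (2 + ε)
  set R := β ^ 2 * (1 + ε)
  set d := β * ε
  have hL1 : 1 ≤ L := by
    calc (1:ℝ) ≤ β * 2 := by linarith
      _ ≤ L := mul_le_mul_of_nonneg_left (by linarith) hβ0
  have hL2 : L ≤ 1 + e := by
    calc L ≤ (1 / 2 + e / 4) * (2 + ε) := mul_le_mul_of_nonneg_right hβ' (by linarith)
      _ = 1 + ε / 2 + e / 2 + e * ε / 4 := by ring
      _ ≤ _ := by rw [hε, he]; nlinarith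
  have hR0 : 0 ≤ R := by positivity
  have hR : R ≤ 27 / 100 := by
    calc R ≤ (51 / 100) ^ 2 * (1 + 1 / 100) :=
          mul_le_mul (pow_le_pow_left₀ hβ0 hβ1 2) (by rw [hε, he]; linarith) (by linarith)
            (by positivity)
      _ ≤ _ := by norm_num
  have hd : d ≤ 51 / 100 * ε := mul_le_mul_of_nonneg_right hβ1 hε0
  have hdR : 60 * d * R ≤ 9 * ε := by
    calc 60 * d * R ≤ 60 * (51 / 100 * ε) * (27 / 100) := by gcongr
      _ ≤ _ := by linarith
  set c := L - (L - 2 * R) * q / 100 with hc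
  have hLR : 46 / 100 ≤ L - 2 * R := by linarith
  have hLc0 : 0 ≤ L - c := by
    rw [hc]; linarith [mul_nonneg (by linarith : 0 ≤ L - 2 * R) hq0.le]
  have hLc1 : L - c ≤ 1 / 1000 := by
    rw [hc]
    nlinarith [mul_le_mul (show L - 2 * R ≤ 2 by linarith) hq2 hq0.le zero_le_two]
  refine ⟨⟨by rw [hε, he] at hd; linarith, by linarith, hτ, hτ1, by rw [hε, he] at hd; linarith,
    hρ, by linarith, le_rfl, ?_, by linarith, ?_⟩, by linarith,
    by rw [hε, he] at hdR; linarith, by linarith⟩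
  · have : 2 * R * τ ^ 2 ≤ 1 / 100 := by nlinarith
    linarith
  · have hB : (L - c) * (5 / 2 * L + 220 * R) / (ρ / (15 * τ)) ≤ (L - c) / 3 := by
      rw [div_le_div_iff₀ (by linarith) (by norm_num), mul_assoc]
      exact mul_le_mul_of_nonneg_left (by rw [he] at hL2; linarith) hLc0
    have hgain : 46 / 100 * q ≤ (L - 2 * R) * q := mul_le_mul_of_nonneg_right hLR hq0.le
    rw [hc] at hB ⊢
    rw [hε, he] at hdR
    rw [he] at hL2
    linarith

/-- For `β` in a window above `1/2`: with probability tending to one the gap is at least `κ`, and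
the worst-start total variation distance is at most `1/4` from time `A log n` on and above `1/4`
up to time `c log n`. -/
theorem past_half : ∃ ε₀ : ℝ, 0 < ε₀ ∧ ∀ β : ℝ, 1 / 2 ≤ β → β ≤ 1 / 2 + ε₀ →
    ∃ κ A c : ℝ, 0 < κ ∧ 0 < A ∧ 0 < c ∧
      Tendsto (fun n => disorder n {g | ¬
        ((∀ f : Conf n → ℝ, κ * (avg β g (fun x => f x ^ 2) - avg β g f ^ 2) ≤
            -avg β g (fun x => f x * gen β g f x)) ∧
          (∀ lam : ℝ, (∀ f : Conf n → ℝ, lam * (avg β g (fun x => f x ^ 2) - avg β g f ^ 2) ≤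
            -avg β g (fun x => f x * gen β g f x)) → lam ≤ 1) ∧
          (∀ t : ℝ, A * Real.log n ≤ t → ∀ x, tvDist β g t x ≤ 1 / 4) ∧
          ∀ t : ℝ, 0 ≤ t → t ≤ c * Real.log n → ∃ x, 1 / 4 < tvDist β g t x)})
        atTop (𝓝 0) := by
  obtain ⟨η, hη, hsb⟩ := tendsto_smallBlock (δ := 1 / 2) (by norm_num)
  obtain ⟨ρ₀, hρ₀, hbl⟩ := tendsto_blockLow hη
  obtain ⟨ε₀, ε, τ, hε₀, hε0, hpar⟩ := exists_params hρ₀
  refine ⟨ε₀, hε₀, fun β hβ hβ' => ?_⟩
  obtain ⟨hp, hR9, hL9, hR2⟩ := hpar β hβ hβ'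
  have hβ0 : 0 < β := by linarith
  obtain ⟨c, hc, hlow⟩ := Lower.tendsto_atLeastLogMixing hβ0.le
  set L := β * (2 + ε) with hL
  set d := β * ε with hd
  set R := β ^ 2 * (1 + ε) with hR
  set cp := L - (L - 2 * R) * (1 - 1 / Real.cosh τ ^ 2) / 100
  set ρ := ρ₀ / 4 with hρ
  set κ := kappa L R d τ (81 / 100 * ρ) cp with hκ
  have hκ0 : 0 < κ := by rw [hκ, kappa]; linarith [hp.lt_one]
  set C := max (1 / κ) (1 / (1 - (9 / 10 * L + 60 * d * R)))
  have hC : 0 ≤ C := le_max_of_le_left (one_div_pos.2 hκ0).le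
  set K := Real.exp ((L + L) * C) with hK
  set A := K * (1 + Real.log (64 * (1 + (L + L) / 2)) / Real.log 2) with hA
  have hL0 : 0 < L := by rw [hL]; positivity
  have hlog : 0 ≤ Real.log (64 * (1 + (L + L) / 2)) := Real.log_nonneg (by linarith)
  refine ⟨κ, A, c, hκ0,
    mul_pos (Real.exp_pos _) (by have := Real.log_pos one_lt_two; positivity), hc, ?_⟩
  have hlim := (((tendsto_quadLe hε0).add (tendsto_quadLe_neg hε0)).add
    (((tendsto_rows hε0).add (tendsto_entries hε0)).add hlow)).add (hsb.add hbl)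
  simp only [add_zero] at hlim
  refine tendsto_of_tendsto_of_tendsto_of_le_of_le' tendsto_const_nhds hlim
    (Eventually.of_forall fun n => bot_le) ?_
  filter_upwards [eventually_ge_atTop 2] with n hn
  refine (measure_mono (t := ((({g | ¬ QuadLe (sym g) ((2 + ε) * √n)} ∪
      {g | ¬ QuadLe (fun i j => -sym g i j) ((2 + ε) * √n)}) ∪
      (({g | ¬ ∀ i, ∑ j, sym g i j ^ 2 ≤ (1 + ε) * n} ∪
      {g | ¬ ∀ i j, |sym g i j| ≤ ε * √n}) ∪
      {g | ¬ Lower.AtLeastLogMixing β g c})) ∪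
      ({g | ¬ ∀ v : Fin n → ℝ, ((Finset.univ.filter fun i => v i ≠ 0).card : ℝ) ≤ η * n →
          ∑ i, ∑ j, sym g i j * v i * v j ≤ 1 / 2 * √n * ∑ i, v i ^ 2} ∪
        {g | ¬ ∀ S : Finset (Fin n), η * n < S.card →
          ρ₀ * (n : ℝ) ^ 2 ≤ ∑ i ∈ S, ∑ j ∈ S, sym g i j ^ 2}))) fun g hg => ?_).trans
    ((measure_union_le _ _).trans (add_le_add ((measure_union_le _ _).trans
      (add_le_add (measure_union_le _ _) ((measure_union_le _ _).trans
        (add_le_add (measure_union_le _ _) le_rfl)))) (measure_union_le _ _)))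
  by_contra hne
  simp only [Set.mem_union, Set.mem_ofPred_eq, not_or, not_not] at hne
  obtain ⟨⟨⟨h1, h2⟩, ⟨h3, h4⟩, h5⟩, h6, h7⟩ := hne
  have hn0 : (0:ℝ) < n := by exact_mod_cast (show 0 < n by omega)
  have hs : 0 < √(n:ℝ) := Real.sqrt_pos.2 hn0
  set b := β / √n with hb
  have hb0 : 0 ≤ b := by positivity
  have hbs : b * √n = β := div_mul_cancel₀ _ hs.ne'
  have hb2 : b ^ 2 * n = β ^ 2 := by
    rw [← hbs, mul_pow, Real.sq_sqrt hn0.le]
  have hJ : IsCoupling (skJ β g) :=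
    ⟨fun i j => Lower.skJ_symm β g i j, fun i => Lower.skJ_diag β g i⟩
  have hbL : b * ((2 + ε) * √n) = L := by rw [hL]; linear_combination (2 + ε) * hbs
  have hup : QuadLe (skJ β g) L := by
    have := quadLe_smul hb0 h1
    rwa [hbL] at this
  have hlo : QuadLe (fun i j => -skJ β g i j) L := by
    have := quadLe_smul hb0 h2
    rw [hbL] at this
    simpa only [skJ, mul_neg] using this
  have hrow : ∀ i, ∑ j, skJ β g i j ^ 2 ≤ R := fun i => by
    simp only [skJ, mul_pow, ← Finset.mul_sum]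
    refine (mul_le_mul_of_nonneg_left (h3 i) (sq_nonneg b)).trans (le_of_eq ?_)
    rw [hR]; linear_combination (1 + ε) * hb2
  have hent : ∀ i j, |skJ β g i j| ≤ d := fun i j => by
    rw [skJ, abs_mul, abs_of_nonneg hb0, hd]
    exact (mul_le_mul_of_nonneg_left (h4 i j) hb0).trans (le_of_eq (by linear_combination ε * hbs))
  have hsmall : SmallBlock (skJ β g) η (β / 2) := fun v hv => by
    simp only [skJ, mul_assoc (β / √n), ← Finset.mul_sum]
    refine (mul_le_mul_of_nonneg_left (h6 v hv) hb0).trans (le_of_eq ?_)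
    linear_combination (1 / 2 * ∑ i, v i ^ 2) * hbs
  have hblock : BlockLow (skJ β g) η ρ := fun S hS => by
    simp only [skJ, mul_pow, ← Finset.mul_sum]
    refine le_trans ?_ (mul_le_mul_of_nonneg_left (h7 S hS) (sq_nonneg b))
    have hb4 : (1:ℝ) / 4 ≤ β ^ 2 := by nlinarith
    calc ρ * n = 1 / 4 * (ρ₀ * n) := by rw [hρ]; ring
      _ ≤ β ^ 2 * (ρ₀ * n) := mul_le_mul_of_nonneg_right hb4 (by positivity)
      _ = _ := by rw [← hb2]; ring
  obtain ⟨hgap, hcov⟩ := covLe_past (by omega) hJ hup hlo hrow hent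
    (hR2.trans (by exact_mod_cast hn)) (by positivity) hsmall hblock hp hR9 hL9
  have hT := entTensor_of_covLe hJ hup hlo (by linarith) hC hcov 0
  refine hg ⟨fun f => ?_, h5.1, fun t ht x => ?_, h5.2⟩
  · have := hgap 0 f
    rwa [var_skJ, dir_skJ] at this
  · exact mixing_log_of_entTensor β g hn (Real.exp_pos _) hT hup hlo ht x

end Vale.Agent.P150.Gap
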