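import Vale.Agent.P150.Gap.Poincare
import Vale.Agent.P150.Lower.Gradient

/-!
States in which a positive fraction of the local fields are close to zero carry a negligible share
of the energy: the function `exp (-Σ_i √(τ² + l_i²) / n)` has a large potential `H u / u` there, and
the spared squares of the pair lemma dominate the energy of the weighted derivatives.
-/

open Finset

namespace Vale.Agent.P150.Gap

variable {n : ℕ}

/-- A smooth absolute value at scale `τ`. -/
noncomputable def soft (τ l : ℝ) : ℝ := Real.sqrt (τ ^ 2 + l ^ 2)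

/-- Sites whose local field is smaller than `τ`. -/
noncomputable def smallSet (J : Fin n → Fin n → ℝ) (h : Fin n → ℝ) (τ : ℝ) (x : Conf n) :
    Finset (Fin n) :=
  univ.filter fun i => |localField J h i x| < τ

/-- The mean smoothed size of the local fields. -/
noncomputable def phi (J : Fin n → Fin n → ℝ) (h : Fin n → ℝ) (τ : ℝ) (x : Conf n) : ℝ :=
  (∑ i, soft τ (localField J h i x)) / n

/-- The test function. -/
noncomputable def lyap (J : Fin n → Fin n → ℝ) (h : Fin n → ℝ) (τ : ℝ) (x : Conf n) : ℝ :=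
  Real.exp (-phi J h τ x)

/-- `1` on the states with more than `η n` small fields. -/
noncomputable def badInd (J : Fin n → Fin n → ℝ) (h : Fin n → ℝ) (τ η : ℝ) (x : Conf n) : ℝ :=
  if η * n < (smallSet J h τ x).card then 1 else 0

lemma soft_pos {τ : ℝ} (hτ : 0 < τ) (l : ℝ) : 0 < soft τ l := by
  unfold soft; positivity

lemma abs_div_soft_le {τ : ℝ} (hτ : 0 < τ) (l : ℝ) : |l / soft τ l| ≤ 1 := by
  rw [abs_div, abs_of_pos (soft_pos hτ l), div_le_one (soft_pos hτ l)]
  exact Real.abs_le_sqrt (by nlinarith)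

lemma soft_tangent {τ : ℝ} (hτ : 0 < τ) (l s : ℝ) :
    soft τ l + l / soft τ l * s ≤ soft τ (l + s) := by
  have ha := soft_pos hτ l
  have hb := soft_pos hτ (l + s)
  have ea : soft τ l ^ 2 = τ ^ 2 + l ^ 2 := Real.sq_sqrt (by positivity)
  have eb : soft τ (l + s) ^ 2 = τ ^ 2 + (l + s) ^ 2 := Real.sq_sqrt (by positivity)
  have key : τ ^ 2 + l * (l + s) ≤ soft τ l * soft τ (l + s) := by
    refine (le_abs_self _).trans ((sq_le_sq₀ (abs_nonneg _) (mul_pos ha hb).le).1 ?_)
    rw [sq_abs, mul_pow, ea, eb]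
    nlinarith [sq_nonneg (τ * s)]
  rw [← sub_nonneg]
  have e : soft τ (l + s) - (soft τ l + l / soft τ l * s) =
      (soft τ l * soft τ (l + s) - (τ ^ 2 + l * (l + s))) / soft τ l := by
    field_simp
    linear_combination (-1 : ℝ) * ea
  rw [e]
  exact div_nonneg (by linarith) ha.le

lemma soft_convex {τ : ℝ} (hτ : 0 < τ) {l s : ℝ} (hl : |l| ≤ τ) (hs : |s| ≤ τ) :
    soft τ l + l / soft τ l * s + s ^ 2 / (15 * τ) ≤ soft τ (l + s) := by
  have ha := soft_pos hτ l
  have hb := soft_pos hτ (l + s)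
  have ea : soft τ l ^ 2 = τ ^ 2 + l ^ 2 := Real.sq_sqrt (by positivity)
  have eb : soft τ (l + s) ^ 2 = τ ^ 2 + (l + s) ^ 2 := Real.sq_sqrt (by positivity)
  obtain ⟨hl1, hl2⟩ := abs_le.1 hl
  obtain ⟨hs1, hs2⟩ := abs_le.1 hs
  have a15 : soft τ l ≤ 3 / 2 * τ := by nlinarith
  have b23 : soft τ (l + s) ≤ 9 / 4 * τ := by nlinarith
  set P := τ ^ 2 + l * (l + s) with hP
  set M := soft τ l * soft τ (l + s) with hM
  have hM0 : 0 < M := mul_pos ha hb
  have hPM : |P| ≤ M := by
    refine (sq_le_sq₀ (abs_nonneg _) hM0.le).1 ?_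
    rw [sq_abs, hM, mul_pow, ea, eb, hP]
    nlinarith [sq_nonneg (τ * s)]
  have hM7 : M + P ≤ 7 * τ ^ 2 := by
    have : M ≤ 3 / 2 * τ * (9 / 4 * τ) := mul_le_mul a15 b23 hb.le (by positivity)
    nlinarith [abs_le.1 hPM]
  have hprod : (M - P) * (M + P) = τ ^ 2 * s ^ 2 := by
    have e : M ^ 2 = (τ ^ 2 + l ^ 2) * (τ ^ 2 + (l + s) ^ 2) := by rw [hM, mul_pow, ea, eb]
    rw [hP]
    linear_combination e
  have hMP : s ^ 2 / 7 ≤ M - P := by
    have h0 : 0 ≤ M - P := by linarith [le_abs_self P]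
    have h1 := mul_le_mul_of_nonneg_left hM7 h0
    rw [hprod] at h1
    have hτ2 : 0 < τ ^ 2 := by positivity
    nlinarith
  rw [← sub_nonneg]
  have e : soft τ (l + s) - (soft τ l + l / soft τ l * s + s ^ 2 / (15 * τ)) =
      (M - P - soft τ l * (s ^ 2 / (15 * τ))) / soft τ l := by
    rw [hM, hP]
    field_simp
    linear_combination (-15 * τ) * ea
  rw [e]
  refine div_nonneg ?_ ha.le
  have h2 : soft τ l * (s ^ 2 / (15 * τ)) ≤ 3 / 2 * τ * (s ^ 2 / (15 * τ)) :=
    mul_le_mul_of_nonneg_right a15 (by positivity)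
  have h3 : 3 / 2 * τ * (s ^ 2 / (15 * τ)) = s ^ 2 / 10 := by field_simp; ring
  linarith [sq_nonneg s]

lemma abs_soft_sub_le {τ : ℝ} (hτ : 0 < τ) (l s : ℝ) : |soft τ (l + s) - soft τ l| ≤ |s| := by
  have h1 := soft_tangent hτ l s
  have h2 := soft_tangent hτ (l + s) (-s)
  rw [add_neg_cancel_right] at h2
  have b1 : |l / soft τ l * s| ≤ |s| := by
    rw [abs_mul]; exact mul_le_of_le_one_left (abs_nonneg s) (abs_div_soft_le hτ l)
  have b2 : |(l + s) / soft τ (l + s) * -s| ≤ |s| := by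
    rw [abs_mul, abs_neg]; exact mul_le_of_le_one_left (abs_nonneg s) (abs_div_soft_le hτ _)
  rw [abs_le]
  constructor <;> linarith [(abs_le.1 b1).1, (abs_le.1 b1).2, (abs_le.1 b2).1, (abs_le.1 b2).2]

lemma field_flip (J : Fin n → Fin n → ℝ) (h : Fin n → ℝ) (i j : Fin n) (x : Conf n) :
    localField J h i (flipAt j x) = localField J h i x + -2 * (J i j * spin x j) := by
  rw [show flipAt j x = Function.update x j (!x j) from rfl, field_update_ne]
  rcases Bool.eq_false_or_eq_true (x j) with hx | hx <;> simp [sgn, spin, hx] <;> ring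

lemma spin_sq (x : Conf n) (i : Fin n) : spin x i * spin x i = 1 := by
  unfold spin; split <;> norm_num

lemma proj_eq_flip (J : Fin n → Fin n → ℝ) (h : Fin n → ℝ) (i : Fin n) (f : Conf n → ℝ)
    (x : Conf n) :
    proj J h i f x = (1 - spin x i * mag J h i x) / 2 * (f x - f (flipAt i x)) := by
  rcases Bool.eq_false_or_eq_true (x i) with hx | hx
  · have e : Function.update x i true = x := by rw [← hx]; simp
    have e' : flipAt i x = Function.update x i false := by simp [flipAt, hx]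
    simp only [proj, dd, e, e', spin, hx, if_true]
    ring
  · have e : Function.update x i false = x := by rw [← hx]; simp
    have e' : flipAt i x = Function.update x i true := by simp [flipAt, hx]
    simp only [proj, dd, e, e', spin, hx, Bool.false_eq_true, if_false]
    ring

lemma mag_sq_le_of_abs_le {J : Fin n → Fin n → ℝ} {h : Fin n → ℝ} {i : Fin n} {x : Conf n}
    {τ : ℝ} (hl : |localField J h i x| ≤ τ) : mag J h i x ^ 2 ≤ τ ^ 2 := by
  set l := localField J h i x
  have hsq : l ^ 2 ≤ τ ^ 2 := by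
    rw [← sq_abs]; exact pow_le_pow_left₀ (abs_nonneg l) hl 2
  have hc : Real.cosh l ≤ Real.exp (l ^ 2 / 2) := Real.cosh_le_exp_half_sq l
  have hp := Real.cosh_pos l
  have e : mag J h i x ^ 2 = 1 - 1 / Real.cosh l ^ 2 := by
    rw [show mag J h i x = Real.tanh l from rfl, Real.tanh_eq_sinh_div_cosh, div_pow, Real.sinh_sq]
    field_simp
  have h2 : Real.cosh l ^ 2 ≤ Real.exp (l ^ 2) := by
    refine (pow_le_pow_left₀ hp.le hc 2).trans_eq ?_
    rw [← Real.exp_nat_mul]
    congr 1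
    push_cast
    ring
  have h3 : 1 - l ^ 2 ≤ 1 / Real.cosh l ^ 2 := by
    calc 1 - l ^ 2 ≤ Real.exp (-(l ^ 2)) := by linarith [Real.add_one_le_exp (-(l ^ 2))]
      _ = 1 / Real.exp (l ^ 2) := by rw [Real.exp_neg, one_div]
      _ ≤ _ := one_div_le_one_div_of_le (by positivity) h2
  linarith

lemma le_mag_sq_of_le_abs {J : Fin n → Fin n → ℝ} {h : Fin n → ℝ} {i : Fin n} {x : Conf n}
    {τ : ℝ} (hτ : 0 ≤ τ) (hl : τ ≤ |localField J h i x|) :
    1 - 1 / Real.cosh τ ^ 2 ≤ mag J h i x ^ 2 := by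
  set l := localField J h i x
  have hc : Real.cosh τ ≤ Real.cosh l := Real.cosh_le_cosh.2 (by rwa [abs_of_nonneg hτ])
  have hp := Real.cosh_pos τ
  have hpl := Real.cosh_pos l
  have e : mag J h i x ^ 2 = 1 - 1 / Real.cosh l ^ 2 := by
    rw [show mag J h i x = Real.tanh l from rfl, Real.tanh_eq_sinh_div_cosh, div_pow, Real.sinh_sq]
    field_simp
  have := one_div_le_one_div_of_le (by positivity : 0 < Real.cosh τ ^ 2)
    (pow_le_pow_left₀ hp.le hc 2)
  linarith

/-- The potential of the test function is bounded below, and large on the bad states. -/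
lemma potential_ge {J : Fin n → Fin n → ℝ} {L R d τ η ρ : ℝ} (hn : 0 < n) (hJ : IsCoupling J)
    (hup : QuadLe J L) (hlo : QuadLe (fun i j => -J i j) L) (hR : ∀ i, ∑ j, J i j ^ 2 ≤ R)
    (hd : ∀ i j, |J i j| ≤ d) (hRn : 4 * R ≤ n) (hτ : 0 < τ) (hτ1 : τ ≤ 1 / 10)
    (hdτ : 2 * d ≤ τ) (hρ : 0 ≤ ρ)
    (hblock : ∀ S : Finset (Fin n), η * n < S.card → ρ * n ≤ ∑ i ∈ S, ∑ j ∈ S, J i j ^ 2)
    (h : Fin n → ℝ) (x : Conf n) :
    lyap J h τ x * (ρ / (15 * τ) * badInd J h τ η x - (5 / 2 * L + 4 * R)) ≤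
      ∑ j, proj J h j (lyap J h τ) x := by
  have hn' : (0:ℝ) < n := Nat.cast_pos.2 hn
  set l := fun i => localField J h i x with hl
  set S := smallSet J h τ x with hS
  set g' := fun i => l i / soft τ (l i) with hg'
  set Δ := fun j => phi J h τ (flipAt j x) - phi J h τ x with hΔ
  set w := fun j => (1 - spin x j * mag J h j x) / 2 with hw
  have hm : ∀ j, |mag J h j x| ≤ 1 := fun j => (Real.abs_tanh_lt_one _).le
  have hsm : ∀ j, |spin x j * mag J h j x| ≤ 1 := fun j => by
    rw [abs_mul, show |spin x j| = 1 by unfold spin; split <;> norm_num, one_mul]; exact hm j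
  have hw0 : ∀ j, 0 ≤ w j ∧ w j ≤ 1 := fun j => by
    have := abs_le.1 (hsm j)
    simp only [hw]; constructor <;> linarith
  have hs : ∀ i j, |-2 * (J i j * spin x j)| = 2 * |J i j| := fun i j => by
    rw [abs_mul, abs_mul, show |spin x j| = 1 by unfold spin; split <;> norm_num, mul_one]
    norm_num
  have hΔe : ∀ j, Δ j =
      (∑ i, (soft τ (l i + -2 * (J i j * spin x j)) - soft τ (l i))) / n := fun j => by
    simp only [hΔ, phi, field_flip, hl, ← sub_div, ← sum_sub_distrib]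
  have hΔsq : ∀ j, Δ j ^ 2 ≤ 4 * R / n := fun j => by
    rw [hΔe, div_pow]
    have h1 : |∑ i, (soft τ (l i + -2 * (J i j * spin x j)) - soft τ (l i))| ≤
        ∑ i, 2 * |J i j| := (abs_sum_le_sum_abs _ _).trans
      (sum_le_sum fun i _ => (abs_soft_sub_le hτ _ _).trans (hs i j).le)
    have h2 : (∑ i, 2 * |J i j|) ^ 2 ≤ 4 * (n * R) := by
      rw [← mul_sum, mul_pow]
      have := sq_sum_le_card_mul_sum_sq (s := (univ : Finset (Fin n))) (f := fun i => |J i j|)
      simp only [card_univ, Fintype.card_fin, sq_abs] at this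
      have h3 : ∑ i, J i j ^ 2 ≤ R := by simpa only [hJ.symm _ j] using hR j
      nlinarith [mul_le_mul_of_nonneg_left h3 hn'.le]
    rw [div_le_div_iff₀ (by positivity) hn']
    have := (sq_le_sq' (abs_le.1 h1).1 (abs_le.1 h1).2).trans h2
    nlinarith
  have hexp : ∀ j, Δ j - Δ j ^ 2 ≤ 1 - Real.exp (-Δ j) := fun j => by
    have h1 : |Δ j| ≤ 1 := by
      rw [← sq_le_one_iff_abs_le_one]
      exact (hΔsq j).trans ((div_le_one hn').2 hRn)
    have := (abs_le.1 (Real.abs_exp_sub_one_sub_id_le (x := -Δ j) (by rwa [abs_neg]))).2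
    rw [neg_sq] at this
    linarith
  -- the second-order gain at the small sites
  set G := fun i j => if i ∈ S ∧ j ∈ S then 4 * J i j ^ 2 / (15 * τ) else 0 with hG
  have hterm : ∀ i j, g' i * (-2 * (J i j * spin x j)) + G i j ≤
      soft τ (l i + -2 * (J i j * spin x j)) - soft τ (l i) := fun i j => by
    simp only [hG]
    split_ifs with hij
    · have hli : |l i| ≤ τ := (mem_filter.1 hij.1).2.le
      have := soft_convex hτ hli (((hs i j).le.trans (by linarith [hd i j])) :
        |-2 * (J i j * spin x j)| ≤ τ)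
      rw [show (-2 * (J i j * spin x j)) ^ 2 = 4 * J i j ^ 2 by
        linear_combination (4 * J i j ^ 2) * spin_sq x j] at this
      simp only [hg']
      linarith
    · have := soft_tangent hτ (l i) (-2 * (J i j * spin x j))
      simp only [hg']
      linarith
  have hquarter : ∀ j ∈ S, 1 / 4 ≤ w j := fun j hj => by
    have h1 := mag_sq_le_of_abs_le (J := J) (h := h) (i := j) (x := x) (mem_filter.1 hj).2.le
    have h2 : |spin x j * mag J h j x| ≤ 1 / 2 := by
      rw [abs_mul, show |spin x j| = 1 by unfold spin; split <;> norm_num, one_mul]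
      exact abs_le_of_sq_le_sq (by nlinarith) (by norm_num)
    have := abs_le.1 h2
    simp only [hw]; linarith
  have hfirst : -(5 / 2 * L * n) ≤ ∑ j, w j * ∑ i, g' i * (-2 * (J i j * spin x j)) := by
    have hL : 0 ≤ L := by
      have h1 := hup fun _ => 1
      have h2 := hlo fun _ => 1
      simp at h1 h2
      nlinarith
    have e : ∑ j, w j * ∑ i, g' i * (-2 * (J i j * spin x j)) =
        -∑ i, ∑ j, J i j * g' i * (spin x j - mag J h j x) := by
      simp only [mul_sum]
      rw [sum_comm, ← sum_neg_distrib]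
      refine sum_congr rfl fun i _ => ?_
      rw [← sum_neg_distrib]
      refine sum_congr rfl fun j _ => ?_
      simp only [hw]
      linear_combination (g' i * J i j * mag J h j x) * spin_sq x j
    rw [e, neg_le_neg_iff]
    refine (Lower.bilinear_le hJ.symm hup hlo _ _).trans ?_
    have h1 : ∑ i, g' i ^ 2 ≤ (n:ℝ) := by
      refine (sum_le_card_nsmul univ _ 1 fun i _ => ?_).trans_eq (by simp)
      rw [← sq_abs]; exact pow_le_one₀ (abs_nonneg _) (abs_div_soft_le hτ _)
    have h2 : ∑ j, (spin x j - mag J h j x) ^ 2 ≤ 4 * (n:ℝ) := by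
      refine (sum_le_card_nsmul univ _ 4 fun j _ => ?_).trans_eq (by simp [mul_comm])
      have := abs_le.1 (hsm j)
      nlinarith [spin_sq x j, sq_abs (mag J h j x), hm j, abs_nonneg (mag J h j x)]
    nlinarith [mul_le_mul_of_nonneg_left (add_le_add h1 h2) hL]
  have hsecond : ρ / (15 * τ) * badInd J h τ η x * n ≤ ∑ j, w j * ∑ i, G i j := by
    have hG0 : ∀ i j, 0 ≤ G i j := fun i j => by simp only [hG]; split_ifs <;> positivity
    simp only [badInd]
    split_ifs with hb
    · calc ρ / (15 * τ) * 1 * n = ρ * n / (15 * τ) := by ring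
        _ ≤ (∑ i ∈ S, ∑ j ∈ S, J i j ^ 2) / (15 * τ) :=
            div_le_div_of_nonneg_right (hblock S hb) (by positivity)
        _ = ∑ j ∈ S, 1 / 4 * ∑ i, G i j := by
            rw [sum_comm, sum_div]
            refine sum_congr rfl fun j hj => ?_
            simp only [hG, hj, and_true, sum_ite_mem, univ_inter, sum_div, mul_sum]
            exact sum_congr rfl fun i _ => by ring
        _ ≤ ∑ j ∈ S, w j * ∑ i, G i j := sum_le_sum fun j hj =>
            mul_le_mul_of_nonneg_right (hquarter j hj) (sum_nonneg fun i _ => hG0 i j)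
        _ ≤ _ := sum_le_sum_of_subset_of_nonneg (subset_univ S) fun j _ _ =>
            mul_nonneg (hw0 j).1 (sum_nonneg fun i _ => hG0 i j)
    · simp only [mul_zero, zero_mul]
      exact sum_nonneg fun j _ => mul_nonneg (hw0 j).1 (sum_nonneg fun i _ => hG0 i j)
  have hlin : ρ / (15 * τ) * badInd J h τ η x - 5 / 2 * L ≤ ∑ j, w j * Δ j := by
    have e : ∀ j, (w j * ∑ i, g' i * (-2 * (J i j * spin x j))) + w j * ∑ i, G i j ≤
        (w j * Δ j) * n := fun j => by
      rw [← mul_add, ← sum_add_distrib, mul_assoc, hΔe, div_mul_cancel₀ _ hn'.ne']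
      exact mul_le_mul_of_nonneg_left (sum_le_sum fun i _ => hterm i j) (hw0 j).1
    have h1 := sum_le_sum fun j (_ : j ∈ univ) => e j
    rw [sum_add_distrib, ← sum_mul] at h1
    refine le_of_mul_le_mul_right ?_ hn'
    linarith
  have hquad : ∑ j, w j * Δ j ^ 2 ≤ 4 * R := by
    calc ∑ j, w j * Δ j ^ 2 ≤ ∑ _j : Fin n, 4 * R / n :=
          sum_le_sum fun j _ => (mul_le_of_le_one_left (sq_nonneg _) (hw0 j).2).trans (hΔsq j)
      _ = 4 * R := by rw [sum_const, card_univ, Fintype.card_fin, nsmul_eq_mul]; field_simp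
  have hfin : ∀ j, proj J h j (lyap J h τ) x =
      lyap J h τ x * (w j * (1 - Real.exp (-Δ j))) := fun j => by
    have e : lyap J h τ (flipAt j x) = lyap J h τ x * Real.exp (-Δ j) := by
      simp only [lyap, hΔ, ← Real.exp_add]
      congr 1
      ring
    rw [proj_eq_flip, e]
    ring
  simp only [hfin, ← mul_sum]
  refine mul_le_mul_of_nonneg_left ?_ (Real.exp_pos _).le
  have h1 := sum_le_sum fun j (_ : j ∈ univ) => mul_le_mul_of_nonneg_left (hexp j) (hw0 j).1
  simp only [mul_sub, sum_sub_distrib] at h1 ⊢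
  linarith

lemma dd_sq_div_le (φ u : Conf n → ℝ) (hu : ∀ x, 0 < u x) (j : Fin n) (x : Conf n) :
    dd (fun y => φ y ^ 2 / u y) j x * dd u j x ≤ dd φ j x * dd φ j x := by
  simp only [dd]
  set p := u (Function.update x j true)
  set q := u (Function.update x j false)
  set a := φ (Function.update x j true)
  set b := φ (Function.update x j false)
  have hp : 0 < p := hu _
  have hq : 0 < q := hu _
  have e : (a ^ 2 / p - b ^ 2 / q) / 2 * ((p - q) / 2) =
      (a - b) / 2 * ((a - b) / 2) - (a * q - b * p) ^ 2 / (4 * p * q) := by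
    field_simp
    ring
  rw [e]
  linarith [div_nonneg (sq_nonneg (a * q - b * p)) (by positivity : 0 ≤ 4 * p * q)]

/-- A positive function bounds the Dirichlet form below by the potential `H u / u`. -/
lemma ground_state {J : Fin n → Fin n → ℝ} (hJ : IsCoupling J) (h : Fin n → ℝ) (u : Conf n → ℝ)
    (hu : ∀ x, 0 < u x) (V : Conf n → ℝ) (hV : ∀ x, u x * V x ≤ ∑ j, proj J h j u x)
    (φ : Conf n → ℝ) :
    ev J h (fun x => V x * φ x ^ 2) ≤ ∑ j, form J h j φ φ := by
  calc ev J h (fun x => V x * φ x ^ 2) ≤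
        ev J h (fun x => ∑ j, φ x ^ 2 / u x * proj J h j u x) := by
        refine ev_mono J h fun x => ?_
        rw [← mul_sum]
        calc V x * φ x ^ 2 = φ x ^ 2 / u x * (u x * V x) := by
              have := (hu x).ne'
              field_simp
          _ ≤ _ := mul_le_mul_of_nonneg_left (hV x) (div_nonneg (sq_nonneg _) (hu x).le)
    _ = ∑ j, form J h j (fun y => φ y ^ 2 / u y) u := by
        rw [ev_sum]
        exact sum_congr rfl fun j _ => ev_mul_proj hJ h j _ u
    _ ≤ _ := sum_le_sum fun j _ => ev_mono J h fun x =>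
        mul_le_mul_of_nonneg_left (dd_sq_div_le φ u hu j x)
          (by linarith [mag_sq_lt J h j x])

/-- The weighted derivative `√(1 - m_i²) D_i f`. -/
noncomputable def wdd (J : Fin n → Fin n → ℝ) (h : Fin n → ℝ) (i : Fin n) (f : Conf n → ℝ)
    (x : Conf n) : ℝ :=
  dd f i x / Real.cosh (localField J h i x)

lemma one_sub_mag_sq (J : Fin n → Fin n → ℝ) (h : Fin n → ℝ) (i : Fin n) (x : Conf n) :
    1 - mag J h i x ^ 2 = 1 / Real.cosh (localField J h i x) ^ 2 := by
  have := Real.cosh_pos (localField J h i x)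
  rw [mag, Real.tanh_eq_sinh_div_cosh, div_pow, Real.sinh_sq]
  field_simp
  ring

lemma wdd_sq (J : Fin n → Fin n → ℝ) (h : Fin n → ℝ) (i : Fin n) (f : Conf n → ℝ) (x : Conf n) :
    wdd J h i f x ^ 2 = (1 - mag J h i x ^ 2) * (dd f i x * dd f i x) := by
  rw [one_sub_mag_sq, wdd, div_pow]; ring

lemma inv_cosh_near {a b : ℝ} (h : |a - b| ≤ 1 / 10) :
    (Real.cosh a)⁻¹ ≤ 6 / 5 * (Real.cosh b)⁻¹ ∧
      |(Real.cosh a)⁻¹ - (Real.cosh b)⁻¹| ≤ 12 / 5 * |a - b| * (Real.cosh b)⁻¹ := by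
  have key : ∀ u v : ℝ, Real.cosh u ≤ Real.cosh v * Real.exp |u - v| := by
    intro u v
    rw [Real.cosh_eq, Real.cosh_eq, div_mul_eq_mul_div, add_mul, ← Real.exp_add, ← Real.exp_add]
    gcongr <;> linarith [le_abs_self (u - v), neg_abs_le (u - v)]
  have he : Real.exp |a - b| - 1 ≤ 2 * |a - b| := by
    have := (abs_le.1 (Real.abs_exp_sub_one_sub_id_le (x := |a - b|)
      (by rw [abs_abs]; linarith))).2
    nlinarith [abs_nonneg (a - b)]
  have ha := Real.cosh_pos a
  have hb := Real.cosh_pos b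
  have h1 := key b a
  rw [abs_sub_comm b a] at h1
  have h2 := key a b
  have g1 : (Real.cosh a)⁻¹ ≤ Real.exp |a - b| * (Real.cosh b)⁻¹ := by
    rw [← div_eq_mul_inv, inv_eq_one_div, div_le_div_iff₀ ha hb]
    linarith
  have g2 : (Real.cosh b)⁻¹ ≤ Real.exp |a - b| * (Real.cosh a)⁻¹ := by
    rw [← div_eq_mul_inv, inv_eq_one_div, div_le_div_iff₀ hb ha]
    linarith
  have hia : 0 < (Real.cosh a)⁻¹ := inv_pos.2 ha
  have hib : 0 < (Real.cosh b)⁻¹ := inv_pos.2 hb
  have g3 : (Real.cosh a)⁻¹ ≤ 6 / 5 * (Real.cosh b)⁻¹ :=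
    g1.trans (mul_le_mul_of_nonneg_right (by linarith) hib.le)
  refine ⟨g3, abs_le.2 ⟨?_, ?_⟩⟩
  · have h3 := mul_le_mul_of_nonneg_right he hia.le
    nlinarith [mul_le_mul_of_nonneg_left g3 (abs_nonneg (a - b))]
  · nlinarith [mul_le_mul_of_nonneg_right he hib.le, abs_nonneg (a - b)]

lemma dd_wdd_sq_le {J : Fin n → Fin n → ℝ} {d : ℝ} (hd : ∀ i j, |J i j| ≤ d) (hd0 : d ≤ 1 / 20)
    (h : Fin n → ℝ) (i j : Fin n) (f : Conf n → ℝ) (x : Conf n) :
    (1 - mag J h j x ^ 2) * (dd (wdd J h i f) j x * dd (wdd J h i f) j x) ≤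
      12 * cross J h i j f x + 24 * J i j ^ 2 * ((1 - mag J h j x ^ 2) * ((1 - mag J h i x ^ 2) *
        (dd f i (Function.update x j true) ^ 2 + dd f i (Function.update x j false) ^ 2))) := by
  set l := localField J h i x with hl
  have hlb : ∀ b, |localField J h i (Function.update x j b) - l| ≤ 2 * |J i j| := fun b => by
    rw [field_update_ne, hl, add_sub_cancel_left, abs_mul, mul_comm 2]
    gcongr
    unfold sgn spin; split_ifs <;> norm_num
  have hJ20 : 2 * |J i j| ≤ 1 / 10 := by linarith [hd i j]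
  obtain ⟨p1, p2⟩ := inv_cosh_near ((hlb true).trans hJ20)
  obtain ⟨q1, q2⟩ := inv_cosh_near ((hlb false).trans hJ20)
  set P := (Real.cosh (localField J h i (Function.update x j true)))⁻¹ with hP
  set Q := (Real.cosh (localField J h i (Function.update x j false)))⁻¹ with hQ
  set g := (Real.cosh l)⁻¹ with hg
  set a := dd f i (Function.update x j true)
  set b := dd f i (Function.update x j false)
  have hP0 : 0 < P := inv_pos.2 (Real.cosh_pos _)
  have hQ0 : 0 < Q := inv_pos.2 (Real.cosh_pos _)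
  have hg0 : 0 < g := inv_pos.2 (Real.cosh_pos _)
  have hPQ : |P - Q| ≤ 48 / 5 * |J i j| * g := by
    have e1 := p2.trans (mul_le_mul_of_nonneg_right
      (mul_le_mul_of_nonneg_left (hlb true) (by norm_num)) hg0.le)
    have e2 := q2.trans (mul_le_mul_of_nonneg_right
      (mul_le_mul_of_nonneg_left (hlb false) (by norm_num)) hg0.le)
    have := abs_sub_le P g Q
    rw [abs_sub_comm g Q] at this
    linarith
  have e : dd (wdd J h i f) j x =
      (P + Q) / 2 * ((a - b) / 2) + (P - Q) / 2 * ((a + b) / 2) := by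
    simp only [dd, wdd, div_eq_mul_inv, hP, hQ, a, b]; ring
  have hm : 0 ≤ 1 - mag J h j x ^ 2 := by linarith [mag_sq_lt J h j x]
  rw [cross, one_sub_mag_sq J h i x, ← hl, show 1 / Real.cosh l ^ 2 = g ^ 2 by
    rw [hg, inv_pow, one_div], e, show dd (dd f i) j x = (a - b) / 2 from rfl]
  set c := (a - b) / 2
  set s := (a + b) / 2
  have h1 : ((P + Q) / 2) ^ 2 ≤ (6 / 5 * g) ^ 2 := pow_le_pow_left₀ (by linarith) (by linarith) 2
  have h2 : ((P - Q) / 2) ^ 2 ≤ (24 / 5 * |J i j| * g) ^ 2 := by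
    rw [← sq_abs]
    refine pow_le_pow_left₀ (abs_nonneg _) ?_ 2
    rw [abs_div, abs_two]; linarith
  have h3 : s ^ 2 ≤ (a ^ 2 + b ^ 2) / 2 := by
    show ((a + b) / 2) ^ 2 ≤ _
    linarith [sq_nonneg (a - b)]
  have h4 : ((P + Q) / 2 * c + (P - Q) / 2 * s) ^ 2 ≤
      2 * ((P + Q) / 2) ^ 2 * c ^ 2 + 2 * ((P - Q) / 2) ^ 2 * s ^ 2 := by
    nlinarith [sq_nonneg ((P + Q) / 2 * c - (P - Q) / 2 * s)]
  have key : ((P + Q) / 2 * c + (P - Q) / 2 * s) * ((P + Q) / 2 * c + (P - Q) / 2 * s) ≤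
      3 * g ^ 2 * c ^ 2 + 24 * J i j ^ 2 * g ^ 2 * (a ^ 2 + b ^ 2) := by
    rw [← sq]
    refine h4.trans ?_
    calc _ ≤ 2 * (6 / 5 * g) ^ 2 * c ^ 2 +
          2 * (24 / 5 * |J i j| * g) ^ 2 * ((a ^ 2 + b ^ 2) / 2) :=
        add_le_add (mul_le_mul_of_nonneg_right (by linarith) (sq_nonneg _))
          (mul_le_mul (by linarith) h3 (sq_nonneg _) (by positivity))
      _ ≤ _ := by
          rw [mul_pow (24 / 5 * |J i j|), mul_pow (24 / 5 : ℝ), sq_abs]
          linarith [show 0 ≤ J i j ^ 2 * g ^ 2 * (a ^ 2 + b ^ 2) by positivity,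
            show 0 ≤ g ^ 2 * c ^ 2 by positivity]
  have := mul_le_mul_of_nonneg_left key hm
  linarith [this]

lemma mu_ratio {J : Fin n → Fin n → ℝ} (hJ : IsCoupling J) {d : ℝ} (hd : ∀ i j, |J i j| ≤ d)
    (hd0 : d ≤ 1 / 20) (h : Fin n → ℝ) (i j : Fin n) (f : Conf n → ℝ) :
    ev J h (fun x => (1 - mag J h j x ^ 2) * ((1 - mag J h i x ^ 2) *
      (dd f i (Function.update x j true) ^ 2 + dd f i (Function.update x j false) ^ 2))) ≤
      9 * form J h i f f := by
  rw [form, ← ev_smul, ev, ev, sum_two _ j, sum_two (fun x => mu J h x * (9 * _)) j]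
  refine div_le_div_of_nonneg_right (sum_le_sum fun x _ => ?_) zero_le_two
  obtain ⟨K, h1, h2⟩ := exists_balance hJ h j x
  simp only [mag_update hJ h j, Function.update_idem]
  set μ1 := mu J h (Function.update x j true)
  set μ0 := mu J h (Function.update x j false)
  set m := mag J h j x
  set D1 := 1 - mag J h i (Function.update x j true) ^ 2 with hD1
  set D0 := 1 - mag J h i (Function.update x j false) ^ 2 with hD0
  set a := dd f i (Function.update x j true)
  set b := dd f i (Function.update x j false)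
  have hμ1 : 0 < μ1 := mu_pos _ _ _
  have hμ0 : 0 < μ0 := mu_pos _ _ _
  have hm := abs_lt.1 (Real.abs_tanh_lt_one (localField J h j x))
  have hm' : -1 < m ∧ m < 1 := hm
  have hd1 : 0 ≤ D1 := by rw [hD1]; linarith [mag_sq_lt J h i (Function.update x j true)]
  have hd0' : 0 ≤ D0 := by rw [hD0]; linarith [mag_sq_lt J h i (Function.update x j false)]
  have hr : D1 ≤ 2 * D0 ∧ D0 ≤ 2 * D1 := by
    have hl : |localField J h i (Function.update x j true) -
        localField J h i (Function.update x j false)| ≤ 1 / 10 := by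
      rw [field_update_ne, field_update_ne, add_sub_add_left_eq_sub, ← mul_sub, abs_mul]
      calc _ ≤ 1 / 20 * |sgn true - spin x j - (sgn false - spin x j)| :=
            mul_le_mul_of_nonneg_right ((hd i j).trans hd0) (abs_nonneg _)
        _ = _ := by simp [sgn]; norm_num
    have p := (inv_cosh_near hl).1
    have q := (inv_cosh_near (abs_sub_comm (localField J h i (Function.update x j true)) _ ▸ hl)).1
    rw [hD1, hD0, one_sub_mag_sq, one_sub_mag_sq, one_div, one_div, ← inv_pow, ← inv_pow]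
    constructor
    · refine (pow_le_pow_left₀ (inv_nonneg.2 (Real.cosh_pos _).le) p 2).trans ?_
      nlinarith [sq_nonneg (Real.cosh (localField J h i (Function.update x j false)))⁻¹]
    · refine (pow_le_pow_left₀ (inv_nonneg.2 (Real.cosh_pos _).le) q 2).trans ?_
      nlinarith [sq_nonneg (Real.cosh (localField J h i (Function.update x j true)))⁻¹]
  have hK0 : 0 ≤ K := by rw [← h1]; exact mul_nonneg hμ1.le (by linarith)
  have u1 : μ1 * (1 - m ^ 2) ≤ μ1 :=
    mul_le_of_le_one_right hμ1.le (by linarith [sq_nonneg m])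
  have u0 : μ0 * (1 - m ^ 2) ≤ μ0 :=
    mul_le_of_le_one_right hμ0.le (by linarith [sq_nonneg m])
  have v1 : μ1 * (1 - m ^ 2) ≤ 4 * μ0 := by
    calc μ1 * (1 - m ^ 2) = μ1 * (1 - m) * (1 + m) := by ring
      _ = μ0 * (1 + m) * (1 + m) := by rw [h1, h2]
      _ ≤ μ0 * 2 * 2 := by gcongr <;> linarith
      _ = 4 * μ0 := by ring
  have v0 : μ0 * (1 - m ^ 2) ≤ 4 * μ1 := by
    calc μ0 * (1 - m ^ 2) = μ0 * (1 + m) * (1 - m) := by ring
      _ = μ1 * (1 - m) * (1 - m) := by rw [h1, h2]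
      _ ≤ μ1 * 2 * 2 := by gcongr <;> linarith
      _ = 4 * μ1 := by ring
  have w1 : μ1 * (1 - m ^ 2) * D1 ≤ 8 * (μ0 * D0) := by
    calc _ ≤ 4 * μ0 * (2 * D0) := mul_le_mul v1 hr.1 hd1 (by positivity)
      _ = _ := by ring
  have w0 : μ0 * (1 - m ^ 2) * D0 ≤ 8 * (μ1 * D1) := by
    calc _ ≤ 4 * μ1 * (2 * D1) := mul_le_mul v0 hr.2 hd0' (by positivity)
      _ = _ := by ring
  have x1 : μ1 * (1 - m ^ 2) * D1 ≤ μ1 * D1 := mul_le_mul_of_nonneg_right u1 hd1
  have x0 : μ0 * (1 - m ^ 2) * D0 ≤ μ0 * D0 := mul_le_mul_of_nonneg_right u0 hd0'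
  have := add_le_add (mul_le_mul_of_nonneg_right (add_le_add x1 w0) (sq_nonneg a))
    (mul_le_mul_of_nonneg_right (add_le_add w1 x0) (sq_nonneg b))
  linarith

/-- The energy of the weighted derivatives is dominated by the spared squares. -/
lemma form_wdd_le {J : Fin n → Fin n → ℝ} (hJ : IsCoupling J) {R d : ℝ}
    (hR : ∀ i, ∑ j, J i j ^ 2 ≤ R) (hd : ∀ i j, |J i j| ≤ d) (hd0 : d ≤ 1 / 20) (h : Fin n → ℝ)
    (i : Fin n) (f : Conf n → ℝ) :
    ∑ j, form J h j (wdd J h i f) (wdd J h i f) ≤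
      12 * (∑ j, ev J h (cross J h i j f)) + 216 * R * form J h i f f := by
  have hF : 0 ≤ form J h i f f := sum_nonneg fun x _ => mul_nonneg (mu_pos J h x).le
    (mul_nonneg (by linarith [mag_sq_lt J h i x]) (mul_self_nonneg _))
  calc ∑ j, form J h j (wdd J h i f) (wdd J h i f) ≤
        ∑ j, (12 * ev J h (cross J h i j f) + 24 * J i j ^ 2 * (9 * form J h i f f)) := by
        refine sum_le_sum fun j _ => ?_
        refine le_trans ?_ (add_le_add le_rfl (mul_le_mul_of_nonneg_left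
          (mu_ratio hJ hd hd0 h i j f) (by positivity)))
        rw [form, ← ev_smul, ← ev_smul, ← ev_add]
        exact ev_mono J h fun x => dd_wdd_sq_le hd hd0 h i j f x
    _ ≤ _ := by
        rw [sum_add_distrib, ← mul_sum, ← sum_mul, ← mul_sum]
        nlinarith [mul_le_mul_of_nonneg_right (hR i) hF]

/-- **Repair**: the energy of the bad states is paid by the spared squares. -/
theorem bad_energy_le {J : Fin n → Fin n → ℝ} {L R d τ η ρ : ℝ} (hn : 0 < n) (hJ : IsCoupling J)
    (hup : QuadLe J L) (hlo : QuadLe (fun i j => -J i j) L) (hR : ∀ i, ∑ j, J i j ^ 2 ≤ R)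
    (hd : ∀ i j, |J i j| ≤ d) (hd0 : d ≤ 1 / 20) (hRn : 4 * R ≤ n) (hτ : 0 < τ)
    (hτ1 : τ ≤ 1 / 10) (hdτ : 2 * d ≤ τ) (hρ : 0 ≤ ρ)
    (hblock : ∀ S : Finset (Fin n), η * n < S.card → ρ * n ≤ ∑ i ∈ S, ∑ j ∈ S, J i j ^ 2)
    (h : Fin n → ℝ) (f : Conf n → ℝ) :
    ρ / (15 * τ) * ev J h (fun x => badInd J h τ η x *
        ∑ i, (1 - mag J h i x ^ 2) * (dd f i x * dd f i x)) ≤
      12 * (∑ i, ∑ j, ev J h (cross J h i j f)) +
        (5 / 2 * L + 220 * R) * ∑ i, form J h i f f := by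
  have key : ∀ i, ρ / (15 * τ) * ev J h (fun x => badInd J h τ η x *
      ((1 - mag J h i x ^ 2) * (dd f i x * dd f i x))) ≤
      12 * (∑ j, ev J h (cross J h i j f)) + (5 / 2 * L + 220 * R) * form J h i f f := by
    intro i
    have h1 := (ground_state hJ h (lyap J h τ) (fun x => Real.exp_pos _)
      (fun x => ρ / (15 * τ) * badInd J h τ η x - (5 / 2 * L + 4 * R))
      (potential_ge hn hJ hup hlo hR hd hRn hτ hτ1 hdτ hρ hblock h) (wdd J h i f)).trans
      (form_wdd_le hJ hR hd hd0 h i f)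
    simp only [wdd_sq] at h1
    have e : ∀ (a : ℝ) (F G : Conf n → ℝ), ev J h (fun x => (F x - a) * G x) =
        ev J h (fun x => F x * G x) - a * ev J h G := fun a F G => by
      simp only [sub_mul, sub_eq_add_neg, add_mul, ← neg_mul, ev_add, ev_smul]
    rw [e] at h1
    change _ - _ * form J h i f f ≤ _ at h1
    simp only [mul_assoc, ev_smul] at h1 ⊢
    linarith
  have h2 := sum_le_sum fun i (_ : i ∈ univ) => key i
  simp only [sum_add_distrib, ← mul_sum, ← ev_sum] at h2 ⊢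
  exact h2

end Vale.Agent.P150.Gap
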