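import Vale.Agent.P150.Interp

/-!
The Sudakov-Fernique comparison for Gaussian free energies.
-/

open MeasureTheory ProbabilityTheory Real

namespace Vale.Agent.P150

variable {ι κ X : Type*} [Fintype ι] [Fintype κ] [Fintype X]

lemma gAvg2_swap (v : X → ℝ) (φ : X → X → ℝ) : gAvg2 v φ = gAvg2 v fun x y => φ y x := by
  simp only [gAvg2, gAvg, mul_div_assoc', ← Finset.sum_div, Finset.mul_sum]
  congr 2
  rw [Finset.sum_comm]
  exact Finset.sum_congr rfl fun x _ => Finset.sum_congr rfl fun y _ => by ring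

lemma gAvg2_nonneg_of_symm [Nonempty X] {v : X → ℝ} {φ : X → X → ℝ}
    (h : ∀ x y, 0 ≤ φ x y + φ y x) : 0 ≤ gAvg2 v φ := by
  have h1 : 0 ≤ gAvg2 v fun x y => φ x y + φ y x := le_gAvg2 h
  have e : gAvg2 v (fun x y => φ x y + φ y x) = gAvg2 v φ + gAvg2 v fun x y => φ y x := by
    simp only [gAvg2, gAvg_add]
  rw [e, ← gAvg2_swap v φ] at h1
  linarith

/-- **Sudakov-Fernique**: larger increments give a larger free energy. -/
theorem lse_comparison [Nonempty X] (A : ι → X → ℝ) (B : κ → X → ℝ)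
    (h : ∀ x y, ∑ i, (A i x - A i y) ^ 2 ≤ ∑ j, (B j x - B j y) ^ 2) :
    ∫ g, lse (wsum A g) ∂gauss ι ≤ ∫ g, lse (wsum B g) ∂gauss κ := by
  set a : ℝ → ι ⊕ κ → X → ℝ := fun θ =>
    Sum.elim (fun i x => cos θ * A i x) fun j x => sin θ * B j x with ha
  set a' : ℝ → ι ⊕ κ → X → ℝ := fun θ =>
    Sum.elim (fun i x => -sin θ * A i x) fun j x => cos θ * B j x with ha'
  set K := ∑ i, ∑ x, |A i x| + ∑ j, ∑ x, |B j x| with hK
  have hbd : ∀ c d : ℝ, |c| ≤ 1 → |d| ≤ 1 → ∀ k x,
      |Sum.elim (fun i x => c * A i x) (fun j x => d * B j x) k x| ≤ K := by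
    intro c d hc hd k x
    have hA0 : 0 ≤ ∑ i, ∑ x, |A i x| :=
      Finset.sum_nonneg fun _ _ => Finset.sum_nonneg fun _ _ => abs_nonneg _
    have hB0 : 0 ≤ ∑ j, ∑ x, |B j x| :=
      Finset.sum_nonneg fun _ _ => Finset.sum_nonneg fun _ _ => abs_nonneg _
    rcases k with i | j <;> simp only [Sum.elim_inl, Sum.elim_inr, abs_mul, hK]
    · have h1 : |A i x| ≤ ∑ i, ∑ x, |A i x| :=
        (Finset.single_le_sum (f := fun x => |A i x|) (fun _ _ => abs_nonneg _)
          (Finset.mem_univ x)).trans (Finset.single_le_sum (f := fun i => ∑ x, |A i x|)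
            (fun _ _ => Finset.sum_nonneg fun _ _ => abs_nonneg _) (Finset.mem_univ i))
      nlinarith [mul_le_of_le_one_left (abs_nonneg (A i x)) hc]
    · have h1 : |B j x| ≤ ∑ j, ∑ x, |B j x| :=
        (Finset.single_le_sum (f := fun x => |B j x|) (fun _ _ => abs_nonneg _)
          (Finset.mem_univ x)).trans (Finset.single_le_sum (f := fun j => ∑ x, |B j x|)
            (fun _ _ => Finset.sum_nonneg fun _ _ => abs_nonneg _) (Finset.mem_univ j))
      nlinarith [mul_le_of_le_one_left (abs_nonneg (B j x)) hd]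
  have hD := fun θ => hasDerivAt_free2 (a := a) (a' := a') (B := K)
    (fun θ k x => by
      rcases k with i | j <;> simp only [ha, ha', Sum.elim_inl, Sum.elim_inr]
      exacts [(hasDerivAt_cos θ).mul_const _, (hasDerivAt_sin θ).mul_const _])
    (fun θ => hbd _ _ (by rw [abs_neg]; exact abs_sin_le_one θ) (abs_cos_le_one θ)) θ
    (hbd _ _ (abs_cos_le_one θ) (abs_sin_le_one θ))
  have hkey : ∫ g, lse (wsum (a 0) g) ∂gauss _ ≤ ∫ g, lse (wsum (a (π / 2)) g) ∂gauss _ := by
    refine (monotoneOn_of_hasDerivWithinAt_nonneg (convex_Icc 0 (π / 2))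
      (fun θ _ => (hD θ).continuousAt.continuousWithinAt) (fun θ _ => (hD θ).hasDerivWithinAt)
      fun θ hθ => ?_) (Set.left_mem_Icc.2 (by positivity)) (Set.right_mem_Icc.2 (by positivity))
      (by positivity)
    rw [interior_Icc] at hθ
    refine integral_nonneg fun g => gAvg2_nonneg_of_symm fun x y => ?_
    have hs : 0 ≤ sin θ := sin_nonneg_of_nonneg_of_le_pi hθ.1.le (by linarith [hθ.2, pi_pos])
    have hc : 0 ≤ cos θ := cos_nonneg_of_mem_Icc ⟨by linarith [hθ.1, pi_pos], hθ.2.le⟩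
    have e : ∑ k, (a' θ k x * a θ k x - a' θ k x * a θ k y) +
        ∑ k, (a' θ k y * a θ k y - a' θ k y * a θ k x)
        = sin θ * cos θ * (∑ j, (B j x - B j y) ^ 2 - ∑ i, (A i x - A i y) ^ 2) := by
      rw [← Finset.sum_add_distrib, Fintype.sum_sum_type, mul_sub, Finset.mul_sum, Finset.mul_sum,
        sub_eq_neg_add, ← Finset.sum_neg_distrib]
      exact congrArg₂ (· + ·)
        (Finset.sum_congr rfl fun i _ => by simp only [ha, ha', Sum.elim_inl]; ring)
        (Finset.sum_congr rfl fun j _ => by simp only [ha, ha', Sum.elim_inr]; ring)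
    rw [e]
    exact mul_nonneg (mul_nonneg hs hc) (sub_nonneg.2 (h x y))
  have e0 : ∫ g, lse (wsum (a 0) g) ∂gauss _ = ∫ g, lse (wsum A g) ∂gauss ι := by
    rw [← integral_comp_mp (gauss_inl (κ := κ)) (F := fun g => lse (wsum A g))
      (continuous_lse_wsum A).aestronglyMeasurable]
    exact integral_congr_ae (ae_of_all _ fun g => congrArg lse (funext fun x => by
      simp [wsum, ha, Fintype.sum_sum_type]))
  have e1 : ∫ g, lse (wsum (a (π / 2)) g) ∂gauss _ = ∫ g, lse (wsum B g) ∂gauss κ := by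
    rw [← integral_comp_mp (gauss_inr (ι := ι)) (F := fun g => lse (wsum B g))
      (continuous_lse_wsum B).aestronglyMeasurable]
    exact integral_congr_ae (ae_of_all _ fun g => congrArg lse (funext fun x => by
      simp [wsum, ha, Fintype.sum_sum_type]))
  rwa [e0, e1] at hkey

end Vale.Agent.P150
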